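import Vale.Agent.P347.Shift.Level.Defs

/-!
# P347: the expressions of a level are the Picard points of the flow
-/

open MeasureTheory ProbabilityTheory Real
open scoped RealInnerProductSpace ENNReal

namespace Vale.Agent.P347.Shift.Level

open Quarter EmFlow

variable {κ : Type} {d J v m N : ℕ}

lemma fstB_jn (w g : Sp d) : fstB (jn w g) = w := by
  ext i; simp [fstB_apply, jn]

lemma sndB_jn (w g : Sp d) : sndB (jn w g) = g := by
  ext i; simp [sndB_apply, jn]

lemma jn_add (w g w' g' : Sp d) : jn w g + jn w' g' = jn (w + w') (g + g') := by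
  ext i; cases i <;> simp [jn]

lemma jn_smul (t : ℝ) (w g : Sp d) : t • jn w g = jn (t • w) (t • g) := by
  ext i; cases i <;> simp [jn]

lemma jn_sum {ι : Type} (s : Finset ι) (w g : ι → Sp d) :
    ∑ j ∈ s, jn (w j) (g j) = jn (∑ j ∈ s, w j) (∑ j ∈ s, g j) := by
  ext i; cases i <;> simp [jn]

lemma sum_ctr_smul (c : Fin (J + 1) → Sp d) (t : ℝ) :
    ∑ j, ctr J t j • c j = t • c (Fin.last J) := by
  simp [ctr, Fin.sum_univ_castSucc]

variable (V : κ → Sp d → Sp d)

lemma eval_atPt {J' : ℕ} (c : Fin J' → Sp d) (f : Expr κ J' (v + 1)) (p : Expr κ J' m)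
    (x : Fin v → Fin m) (z : Fin m → Sp d) :
    (atPt f p x).eval V c z = f.eval V c (Fin.cons (p.eval V c z) (z ∘ x)) := by
  rw [atPt, Expr.eval_subst]
  congr 1
  funext i
  refine Fin.cases ?_ (fun j => ?_) i <;> simp [Expr.eval]

lemma eval_res {J' : ℕ} (c : Fin J' → Sp d) (f : Expr κ J' (v + 1)) (r : ℝ) (p : Expr κ J' m)
    (x : Fin v → Fin m) (z : Fin m → Sp d) :
    (res f r p x).eval V c z =
      smth 1 r (fun y => f.eval V c (Fin.cons y (z ∘ x))) (p.eval V c z) := by
  simp [res, Expr.eval, eval_atPt, Expr.eval_ren, smth, Function.comp_def]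

lemma eval_tgt (c : Fin (J + 1) → Sp d) (f : Expr κ (J + 1) (v + 1)) {s : ℝ} (hs : s ≠ 0)
    (x : Fin v → Fin m) (z : Fin m → Sp d) :
    (tgt f s x).eval V c z =
      smth 1 s (fun y => f.eval V c (Fin.cons y (z ∘ x))) (c (Fin.last J)) := by
  simp [tgt, Expr.eval, eval_atPt, smth, Function.comp_def, sum_ctr_smul, smul_add, smul_smul, hs,
    add_comm]

lemma eval_surr (c : Fin (J + 1) → Sp d) (h : Expr κ (J + 1) (v + 2)) (P : Par N)
    (p g : Expr κ (J + 1) m) (x : Fin v → Fin m) (z : Fin m → Sp d) :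
    (surr h P p g x).eval V c z = ∑ j, P.ω j • ∫ w, h.eval V c (Fin.cons (g.eval V c z)
      (Fin.cons (P.pt j • p.eval V c z + P.ns j • (w + P.ct j • c (Fin.last J))) (z ∘ x))) ∂gd d := by
  simp only [surr, Expr.eval_esum, Expr.eval, Expr.eval_subst, sum_ctr_smul]
  refine Finset.sum_congr rfl fun j _ => ?_
  congr 1
  refine integral_congr_ae (Filter.Eventually.of_forall fun w => ?_)
  simp only
  congr 1
  funext i
  refine Fin.cases ?_ (fun i => ?_) i
  · simp [Expr.eval_ren, Function.comp_def]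
  · refine Fin.cases ?_ (fun i => ?_) i <;> simp [Expr.eval, Expr.eval_ren, Function.comp_def]

/-- The surrogate of `grad` read off the product `h`. -/
noncomputable def psurE (c : Fin (J + 1) → Sp d) (h : Expr κ (J + 1) (v + 2)) (x : Fin v → Sp d)
    (σ b : ℝ) (w u : Fin N → ℝ) (W g : Sp d) : Sp d :=
  (σ / b) • ∑ j, w j • ∫ z, h.eval V c (Fin.cons g (Fin.cons
    (c (Fin.last J) + σ • (u j • W + √(1 - u j ^ 2) • z)) x)) ∂gd d

/-- The expressions evaluate to the Picard rounds. -/
theorem eval_inc (c : Fin (J + 1) → Sp d) (f : Expr κ (J + 1) (v + 1))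
    (h : Expr κ (J + 1) (v + 2)) (x : Fin v → Sp d) {σ τ b Ω : ℝ} (hΩ : Ω ≠ 0) (hσ : σ ≠ 0) (hτ : τ < 1)
    (w u : Fin N → ℝ) (hu : ∀ j, u j ^ 2 < 1) (r : ℕ) (W g : Sp d) :
    ∀ (k : ℕ) (i : Fin (r + 1)),
      pic r (sur σ τ b (fun y => f.eval V c (Fin.cons y x)) (c (Fin.last J))
          (psurE V c h x σ b w u)) k (jn W g) i =
        jn (W + (σ * √(1 - τ))⁻¹ • (inc f h (par σ τ b Ω w u) r k i).1.eval V c
              (Fin.cons (c (Fin.last J) + (σ * √(1 - τ)) • W) (Fin.cons g x)))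
          (g + (inc f h (par σ τ b Ω w u) r k i).2.eval V c
              (Fin.cons (c (Fin.last J) + (σ * √(1 - τ)) • W) (Fin.cons g x)))
  | 0, i => by simp [pic, inc, Expr.eval]
  | k + 1, i => by
    have hq : √(1 - τ) ≠ 0 := (Real.sqrt_pos.2 (by linarith)).ne'
    have hs : σ * √(1 - τ) ≠ 0 := mul_ne_zero hσ hq
    have hold : (Fin.cons (c (Fin.last J) + (σ * √(1 - τ)) • W) (Fin.cons g x) :
        Fin (v + 2) → Sp d) ∘ old v = x := by funext l; simp [old]
    simp only [pic, eval_inc c f h x hΩ hσ hτ w u hu r W g k, sur, fstB_jn, sndB_jn, jn_smul, jn_sum,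
      jn_add, fb, inc, Expr.eval, Expr.eval_esum, eval_surr, eval_res, eval_tgt _ _ _ (show
        (par σ τ b Ω w u).full ≠ 0 from hσ), hold]
    have h1 : (Fin.cons (c (Fin.last J) + (σ * √(1 - τ)) • W) (Fin.cons g x) :
        Fin (v + 2) → Sp d) 1 = g := rfl
    simp only [Fin.cons_zero, h1, par]
    have hpt : ∀ D : Sp d, c (Fin.last J) + (σ * √(1 - τ)) • (W + (σ * √(1 - τ))⁻¹ • D) =
        c (Fin.last J) + (σ * √(1 - τ)) • W + D := fun D => by
      rw [smul_add, smul_inv_smul₀ hs, add_assoc]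
    simp only [hpt]
    congr 1
    · congr 1
      simp only [psurE, smul_add, Finset.smul_sum, smul_neg, smul_smul]
      refine Finset.sum_congr rfl fun j _ => ?_
      rw [← Finset.sum_neg_distrib]
      refine Finset.sum_congr rfl fun l _ => ?_
      rw [← neg_smul]
      congr 1
      · field_simp
      refine integral_congr_ae (Filter.Eventually.of_forall fun z => ?_)
      simp only
      congr 3
      have hn : √(1 - u l ^ 2) ≠ 0 := (Real.sqrt_pos.2 (by linarith [hu l])).ne'
      match_scalars <;> field_simp <;> ring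
    · congr 1
      simp only [Finset.smul_sum, smul_sub, smul_add, smul_smul]
      refine Finset.sum_congr rfl fun j _ => ?_
      match_scalars <;> ring

end Vale.Agent.P347.Shift.Level
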