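import Vale.Agent.P347.Shift.EmFlow
import Vale.Agent.P347.Shift.MehlerRule
import Vale.Agent.P347.Shift.Adj
import Vale.Agent.P347.Quarter.Flow.Deriv

/-!
# P347: the surrogate of one level from a product and a rule for the time average

`psur` reads the time average of the transposed derivative by a rule `w, u` and the transposed
derivative by `h`. Its error against `EmFlow.grad` is the error of `h` times the weights plus the
error of the rule on bounded fields.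
-/

open MeasureTheory ProbabilityTheory Real
open ContinuousLinearMap (adjoint)
open scoped RealInnerProductSpace ENNReal NNReal

namespace Vale.Agent.P347.Shift.Level

open Quarter

variable {d N : ℕ}

/-- The surrogate of the first block of one level. -/
noncomputable def psur (σ b : ℝ) (w u : Fin N → ℝ) (h : Sp d → Sp d → Sp d) (c W g : Sp d) :
    Sp d :=
  (σ / b) • ∑ j, w j • ∫ z, h g (c + σ • (u j • W + √(1 - u j ^ 2) • z)) ∂gd d

lemma psur_eq_qflow (σ b : ℝ) (w u : Fin N → ℝ) (h : Sp d → Sp d → Sp d) (c W g : Sp d) :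
    psur σ b w u h c W g = (σ / b) • qflow w u (fun z => h g (c + σ • z)) W := rfl

/-- The surrogate is measurable in a parameter and both variables. -/
theorem measurable_psur {α : Type*} [MeasurableSpace α] (σ b : ℝ) (w u : Fin N → ℝ)
    {h : α → Sp d → Sp d → Sp d} (hh : Measurable fun t : α × Sp d × Sp d => h t.1 t.2.1 t.2.2)
    {c : α → Sp d} (hc : Measurable c) :
    Measurable fun t : α × (Sp d × Sp d) => psur σ b w u (h t.1) (c t.1) t.2.1 t.2.2 := by
  have hj : ∀ j, Measurable fun t : α × (Sp d × Sp d) =>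
      ∫ z, h t.1 t.2.2 (c t.1 + σ • (u j • t.2.1 + √(1 - u j ^ 2) • z)) ∂gd d := fun j => by
    set G : (α × (Sp d × Sp d)) × Sp d → α × Sp d × Sp d := fun p =>
      (p.1.1, p.1.2.2, c p.1.1 + σ • (u j • p.1.2.1 + √(1 - u j ^ 2) • p.2)) with hG
    have hGm : Measurable G := by fun_prop
    have hm : StronglyMeasurable fun p => h (G p).1 (G p).2.1 (G p).2.2 :=
      (hh.comp hGm).stronglyMeasurable
    exact (StronglyMeasurable.integral_prod_right' (ν := gd d) hm).measurable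
  exact (Finset.measurable_sum Finset.univ fun j _ => (hj j).const_smul (w j)).const_smul (σ / b)

section Bound

variable {h : Sp d → Sp d → Sp d}

/-- A product of linear growth is integrable along the noise. -/
lemma integrable_h {A : ℝ} (hc : Continuous fun p : Sp d × Sp d => h p.1 p.2)
    (hA : ∀ g y, ‖h g y‖ ≤ A * (1 + ‖g‖ + ‖y‖)) (g p : Sp d) (t : ℝ) :
    Integrable (fun z => h g (p + t • z)) (gd d) := by
  have hA0 : 0 ≤ A := by
    have := (norm_nonneg _).trans (hA 0 0)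
    simpa using this
  refine (((integrable_const (1 + ‖g‖ + ‖p‖)).add
    (integrable_norm_gd.const_mul |t|)).const_mul A).mono'
    (hc.comp (by fun_prop : Continuous fun z : Sp d => (g, p + t • z))).aestronglyMeasurable
    (ae_of_all _ fun z => (hA g _).trans (mul_le_mul_of_nonneg_left ?_ hA0))
  have h1 := norm_add_le p (t • z)
  rw [norm_smul, Real.norm_eq_abs] at h1
  simp only [Pi.add_apply]
  linarith

/-- The error of the product, averaged over the noise. -/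
lemma avg_err {T : Sp d → Sp d → Sp d} (hc : Continuous fun p : Sp d × Sp d => h p.1 p.2)
    (hTc : Continuous fun p : Sp d × Sp d => T p.1 p.2) {εm : ℝ} (hεm : 0 ≤ εm) (c : Sp d) (σ : ℝ)
    (hm : ∀ z, ∫⁻ g, ENNReal.ofReal (‖h g (c + σ • z) - T g z‖ ^ 2) ∂gd d ≤
      ENNReal.ofReal (εm ^ 2)) (v : ℝ) :
    AEStronglyMeasurable (fun t : Sp d × Sp d => ∫ z, (h t.2 (c + σ • (v • t.1 + √(1 - v ^ 2) • z))
        - T t.2 (v • t.1 + √(1 - v ^ 2) • z)) ∂gd d) ((gd d).prod (gd d)) ∧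
      eLpNorm (fun t : Sp d × Sp d => ∫ z, (h t.2 (c + σ • (v • t.1 + √(1 - v ^ 2) • z))
        - T t.2 (v • t.1 + √(1 - v ^ 2) • z)) ∂gd d) 2 ((gd d).prod (gd d)) ≤
        ENNReal.ofReal εm := by
  set F : Sp d × (Sp d × Sp d) → Sp d := fun p =>
    h p.2.2 (c + σ • (v • p.2.1 + √(1 - v ^ 2) • p.1)) - T p.2.2 (v • p.2.1 + √(1 - v ^ 2) • p.1)
  have hF : Continuous F :=
    (hc.comp (f := fun p : Sp d × (Sp d × Sp d) =>
      (p.2.2, c + σ • (v • p.2.1 + √(1 - v ^ 2) • p.1))) (by fun_prop)).sub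
    (hTc.comp (f := fun p : Sp d × (Sp d × Sp d) =>
      (p.2.2, v • p.2.1 + √(1 - v ^ 2) • p.1)) (by fun_prop))
  have hs := hF.stronglyMeasurable
  refine ⟨(hs.integral_prod_left' (μ := gd d)).aestronglyMeasurable,
    (Adj.eLpNorm_integral_le (h := F) hs).trans (Adj.eLpNorm_prod_le hs fun z => ?_)⟩
  have hz : StronglyMeasurable fun t => F (z, t) :=
    (hF.comp (by fun_prop : Continuous fun t : Sp d × Sp d => (z, t))).stronglyMeasurable
  refine Adj.eLpNorm_prod_le hz fun W => ?_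
  rw [← ENNReal.pow_le_pow_left_iff two_ne_zero, Adj.sq_eLpNorm, ← ENNReal.ofReal_pow hεm]
  refine le_of_eq_of_le (lintegral_congr fun g => ?_) (hm (v • W + √(1 - v ^ 2) • z))
  rw [← ofReal_norm, ENNReal.ofReal_pow (norm_nonneg _)]

/-- One Mehler average of a field depending continuously on a parameter is measurable. -/
lemma measurable_pv_field {T : Sp d → Sp d → Sp d}
    (hTc : Continuous fun p : Sp d × Sp d => T p.1 p.2) (v : ℝ) :
    StronglyMeasurable fun t : Sp d × Sp d => pv v (T t.2) t.1 :=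
  StronglyMeasurable.integral_prod_right' (ν := gd d) (f := fun p : (Sp d × Sp d) × Sp d =>
    T p.1.2 (v • p.1.1 + √(1 - v ^ 2) • p.2))
    (hTc.comp (f := fun p : (Sp d × Sp d) × Sp d =>
      (p.1.2, v • p.1.1 + √(1 - v ^ 2) • p.2)) (by fun_prop)).stronglyMeasurable

/-- The time average of such a field is measurable. -/
lemma measurable_flow_field {T : Sp d → Sp d → Sp d}
    (hTc : Continuous fun p : Sp d × Sp d => T p.1 p.2) {ρ : ℝ} (hρ : 0 ≤ ρ) :
    StronglyMeasurable fun t : Sp d × Sp d => Quarter.flow ρ (T t.2) t.1 := by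
  have h1 : StronglyMeasurable fun q : (Sp d × Sp d) × ℝ => pv q.2 (T q.1.2) q.1.1 :=
    StronglyMeasurable.integral_prod_right' (ν := gd d)
      (f := fun p : ((Sp d × Sp d) × ℝ) × Sp d =>
        T p.1.1.2 (p.1.2 • p.1.1.1 + √(1 - p.1.2 ^ 2) • p.2))
      (hTc.comp (f := fun p : ((Sp d × Sp d) × ℝ) × Sp d =>
        (p.1.1.2, p.1.2 • p.1.1.1 + √(1 - p.1.2 ^ 2) • p.2)) (by fun_prop)).stronglyMeasurable
  have e : (fun t : Sp d × Sp d => Quarter.flow ρ (T t.2) t.1) =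
      fun t => ∫ v in Set.Ioc 0 ρ, pv v (T t.2) t.1 :=
    funext fun t => intervalIntegral.integral_of_le hρ
  rw [e]
  exact StronglyMeasurable.integral_prod_right' (ν := volume.restrict (Set.Ioc 0 ρ)) h1

/-- The error of the rule on a field bounded by `Λ` times the second variable. -/
lemma rule_err {T : Sp d → Sp d → Sp d} (hTc : Continuous fun p : Sp d × Sp d => T p.1 p.2)
    {Λ εq : ℝ} (hΛ : 0 ≤ Λ) (hεq : 0 ≤ εq) (hTb : ∀ g z, ‖T g z‖ ≤ Λ * ‖g‖)
    {w u : Fin N → ℝ} {ρ : ℝ} (hρ : 0 ≤ ρ)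
    (hq : ∀ k : Sp d → Sp d, Continuous k → ∀ M : ℝ, (∀ x, ‖k x‖ ≤ M) →
      Integrable (fun x => ‖Quarter.flow ρ k x - qflow w u k x‖ ^ 2) (gd d) ∧
      ∫ x, ‖Quarter.flow ρ k x - qflow w u k x‖ ^ 2 ∂gd d ≤ (εq * M) ^ 2) :
    AEStronglyMeasurable (fun t : Sp d × Sp d =>
        qflow w u (T t.2) t.1 - Quarter.flow ρ (T t.2) t.1) ((gd d).prod (gd d)) ∧
      eLpNorm (fun t : Sp d × Sp d => qflow w u (T t.2) t.1 - Quarter.flow ρ (T t.2) t.1) 2
        ((gd d).prod (gd d)) ≤ ENNReal.ofReal (εq * Λ * √(d : ℝ)) := by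
  set Q : Sp d × Sp d → Sp d := fun t => qflow w u (T t.2) t.1 - Quarter.flow ρ (T t.2) t.1
  have hsum : StronglyMeasurable fun t : Sp d × Sp d => qflow w u (T t.2) t.1 :=
    Finset.stronglyMeasurable_fun_sum Finset.univ fun j _ =>
      (measurable_pv_field hTc (u j)).const_smul (w j)
  have hQm : StronglyMeasurable Q := hsum.sub (measurable_flow_field hTc hρ)
  refine ⟨hQm.aestronglyMeasurable, ?_⟩
  rw [← ENNReal.pow_le_pow_left_iff two_ne_zero, Adj.sq_eLpNorm,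
    lintegral_prod_symm _ (hQm.enorm.pow_const 2).aemeasurable,
    ← ENNReal.ofReal_pow (by positivity)]
  have hg : ∀ g, ∫⁻ W, ‖Q (W, g)‖ₑ ^ 2 ∂gd d ≤ ENNReal.ofReal ((εq * (Λ * ‖g‖)) ^ 2) :=
    fun g => by
      obtain ⟨h1, h2⟩ := hq (T g)
        (hTc.comp (f := fun z : Sp d => (g, z)) (by fun_prop)) (Λ * ‖g‖) (hTb g)
      refine le_of_eq_of_le (lintegral_congr fun W => ?_)
        ((ofReal_integral_eq_lintegral_ofReal h1 (ae_of_all _ fun _ => sq_nonneg _)).symm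
          |>.trans_le (ENNReal.ofReal_le_ofReal h2))
      rw [← ofReal_norm, ENNReal.ofReal_pow (norm_nonneg _), norm_sub_rev]
  refine (lintegral_mono hg).trans_eq ?_
  rw [lintegral_congr fun g => show ENNReal.ofReal ((εq * (Λ * ‖g‖)) ^ 2) =
      ENNReal.ofReal ((εq * Λ) ^ 2) * ENNReal.ofReal (‖g‖ ^ 2) by
    rw [← ENNReal.ofReal_mul (sq_nonneg _)]; congr 1; ring]
  rw [lintegral_const_mul' _ _ ENNReal.ofReal_ne_top,
    ← ofReal_integral_eq_lintegral_ofReal (integral_norm_sq (ι := Fin d)).1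
      (ae_of_all _ fun _ => sq_nonneg _), (integral_norm_sq (ι := Fin d)).2,
    ← ENNReal.ofReal_mul (sq_nonneg _), mul_pow (εq * Λ), Real.sq_sqrt (Nat.cast_nonneg _),
    Fintype.card_fin]

/-- **Error of the surrogate** in mean square over the state. -/
theorem psur_err {σ τ b Λ A εm εq : ℝ} {w u : Fin N → ℝ} {φ : Sp d → Sp d}
    (hσ : 0 ≤ σ) (hb : 0 < b) (hφ : ContDiff ℝ 1 φ) (hΛ : ∀ y, ‖fderiv ℝ φ y‖ ≤ Λ)
    (hc : Continuous fun p : Sp d × Sp d => h p.1 p.2)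
    (hA : ∀ g y, ‖h g y‖ ≤ A * (1 + ‖g‖ + ‖y‖)) (hεm : 0 ≤ εm) (hεq : 0 ≤ εq)
    (hm : ∀ y, ∫⁻ g, ENNReal.ofReal (‖h g y - adjoint (fderiv ℝ φ y) g‖ ^ 2) ∂gd d ≤
      ENNReal.ofReal (εm ^ 2))
    (hq : ∀ k : Sp d → Sp d, Continuous k → ∀ M : ℝ, (∀ x, ‖k x‖ ≤ M) →
      Integrable (fun x => ‖Quarter.flow √(1 - τ) k x - qflow w u k x‖ ^ 2) (gd d) ∧
      ∫ x, ‖Quarter.flow √(1 - τ) k x - qflow w u k x‖ ^ 2 ∂gd d ≤ (εq * M) ^ 2) (c : Sp d) :
    eLpNorm (fun t : Sp d × Sp d => psur σ b w u h c t.1 t.2 - EmFlow.grad σ τ b φ c t.1 t.2) 2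
        ((gd d).prod (gd d)) ≤
      ENNReal.ofReal (σ / b * ((∑ j, |w j|) * εm + εq * Λ * √(d : ℝ))) := by
  have hΛ0 : 0 ≤ Λ := (norm_nonneg _).trans (hΛ 0)
  set T : Sp d → Sp d → Sp d := fun g z => adjoint (fderiv ℝ φ (c + σ • z)) g with hT
  have hTc : Continuous fun p : Sp d × Sp d => T p.1 p.2 :=
    ((adjoint : (Sp d →L[ℝ] Sp d) ≃ₗᵢ⋆[ℝ] (Sp d →L[ℝ] Sp d)).continuous.comp
      ((hφ.continuous_fderiv one_ne_zero).comp (f := fun p : Sp d × Sp d => c + σ • p.2)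
        (by fun_prop))).clm_apply continuous_fst
  have hTb : ∀ g z, ‖T g z‖ ≤ Λ * ‖g‖ := fun g z =>
    ((adjoint (fderiv ℝ φ (c + σ • z))).le_opNorm g).trans (mul_le_mul_of_nonneg_right
      ((LinearIsometryEquiv.norm_map adjoint _).trans_le (hΛ _)) (norm_nonneg _))
  have hD := fun j => avg_err hc hTc hεm c σ (fun z => hm (c + σ • z)) (u j)
  obtain ⟨hQm, hQ⟩ := rule_err hTc hΛ0 hεq hTb (w := w) (u := u) (Real.sqrt_nonneg (1 - τ)) hq
  set D : Fin N → Sp d × Sp d → Sp d := fun j t =>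
    ∫ z, (h t.2 (c + σ • (u j • t.1 + √(1 - u j ^ 2) • z)) -
      T t.2 (u j • t.1 + √(1 - u j ^ 2) • z)) ∂gd d with hD'
  set Q : Sp d × Sp d → Sp d := fun t =>
    qflow w u (T t.2) t.1 - Quarter.flow √(1 - τ) (T t.2) t.1
  have e : (fun t : Sp d × Sp d => psur σ b w u h c t.1 t.2 - EmFlow.grad σ τ b φ c t.1 t.2) =
      (σ / b) • ((fun t => ∑ j, w j • D j t) + Q) := by
    funext t
    have hs : ∀ j, D j t =
        pv (u j) (fun z => h t.2 (c + σ • z)) t.1 - pv (u j) (T t.2) t.1 := fun j => by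
      refine integral_sub ?_ ((integrable_const (Λ * ‖t.2‖)).mono'
        (hTc.comp (f := fun z : Sp d => (t.2, u j • t.1 + √(1 - u j ^ 2) • z))
          (by fun_prop)).aestronglyMeasurable (ae_of_all _ fun z => hTb _ _))
      simpa [smul_add, smul_smul, add_assoc] using
        integrable_h hc hA t.2 (c + (σ * u j) • t.1) (σ * √(1 - u j ^ 2))
    rw [psur_eq_qflow]
    show (σ / b) • qflow w u (fun z => h t.2 (c + σ • z)) t.1 -
      (σ / b) • Quarter.flow √(1 - τ) (T t.2) t.1 = (σ / b) • ((∑ j, w j • D j t) + Q t)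
    rw [← smul_sub]
    congr 1
    simp only [Q, qflow, hs, smul_sub, Finset.sum_sub_distrib]
    abel
  have hs : AEStronglyMeasurable (fun t => ∑ j, w j • D j t) ((gd d).prod (gd d)) :=
    Finset.aestronglyMeasurable_fun_sum Finset.univ fun j _ => (hD j).1.const_smul (w j)
  rw [e, eLpNorm_const_smul, Adj.ofReal_abs, abs_of_nonneg (div_nonneg hσ hb.le),
    ENNReal.ofReal_mul (div_nonneg hσ hb.le)]
  refine mul_le_mul' le_rfl ((eLpNorm_add_le hs hQm one_le_two).trans ?_)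
  rw [ENNReal.ofReal_add (by positivity) (by positivity)]
  exact add_le_add (Adj.eLpNorm_sum_smul_le w (fun j => (hD j).1) fun j => (hD j).2) hQ

variable {Λh : ℝ}

lemma continuous_of_lip₂ (hh : ∀ g g' y y', ‖h g y - h g' y'‖ ≤ Λh * (‖g - g'‖ + ‖y - y'‖)) :
    Continuous fun p : Sp d × Sp d => h p.1 p.2 := by
  refine (LipschitzWith.of_dist_le_mul (K := (2 * |Λh|).toNNReal) fun p q => ?_).continuous
  rw [dist_eq_norm, Real.coe_toNNReal _ (by positivity), dist_eq_norm, Prod.norm_def]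
  refine (hh _ _ _ _).trans ?_
  have h1 := le_max_left ‖(p - q).1‖ ‖(p - q).2‖
  have h2 := le_max_right ‖(p - q).1‖ ‖(p - q).2‖
  simp only [Prod.fst_sub, Prod.snd_sub] at h1 h2
  refine (mul_le_mul_of_nonneg_right (le_abs_self Λh) (by positivity)).trans ?_
  simp only [Prod.fst_sub, Prod.snd_sub]
  nlinarith [mul_le_mul_of_nonneg_left (add_le_add h1 h2) (abs_nonneg Λh)]

lemma growth_of_lip₂ (hh : ∀ g g' y y', ‖h g y - h g' y'‖ ≤ Λh * (‖g - g'‖ + ‖y - y'‖))
    (g y : Sp d) : ‖h g y‖ ≤ (|Λh| + ‖h 0 0‖) * (1 + ‖g‖ + ‖y‖) := by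
  have h1 := hh g 0 y 0
  rw [sub_zero, sub_zero] at h1
  nlinarith [norm_le_insert' (h g y) (h 0 0), norm_nonneg g, norm_nonneg y, le_abs_self Λh,
    norm_nonneg (h 0 0), abs_nonneg Λh]

/-- **The surrogate is Lipschitz** in the state and in the centre. -/
theorem norm_psur_sub_le {σ b : ℝ} (hσ : 0 ≤ σ) (hb : 0 < b) {w u : Fin N → ℝ}
    (hu : ∀ j, |u j| ≤ 1) (hΛh : 0 ≤ Λh)
    (hh : ∀ g g' y y', ‖h g y - h g' y'‖ ≤ Λh * (‖g - g'‖ + ‖y - y'‖)) (c c' W g W' g' : Sp d) :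
    ‖psur σ b w u h c W g - psur σ b w u h c' W' g'‖ ≤
      σ / b * (∑ j, |w j|) * Λh * (‖c - c'‖ + σ * ‖W - W'‖ + ‖g - g'‖) := by
  rw [psur, psur, ← smul_sub, norm_smul, Real.norm_eq_abs, abs_of_nonneg (div_nonneg hσ hb.le),
    mul_assoc (σ / b), mul_assoc (σ / b), ← Finset.sum_sub_distrib, mul_assoc (∑ j, |w j|),
    Finset.sum_mul]
  refine mul_le_mul_of_nonneg_left ((norm_sum_le _ _).trans (Finset.sum_le_sum fun j _ => ?_))
    (div_nonneg hσ hb.le)
  rw [← smul_sub, norm_smul, Real.norm_eq_abs]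
  refine mul_le_mul_of_nonneg_left ?_ (abs_nonneg _)
  have hi : ∀ c W g, Integrable
      (fun z => h g (c + σ • (u j • W + √(1 - u j ^ 2) • z))) (gd d) := fun c W g => by
    simpa [smul_add, smul_smul, add_assoc] using integrable_h (continuous_of_lip₂ hh)
      (growth_of_lip₂ hh) g (c + (σ * u j) • W) (σ * √(1 - u j ^ 2))
  rw [← integral_sub (hi c W g) (hi c' W' g')]
  refine (norm_integral_le_of_norm_le_const (ae_of_all _ fun z => (hh _ _ _ _).trans
    (mul_le_mul_of_nonneg_left ?_ hΛh))).trans_eq (by rw [probReal_univ, mul_one])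
  have e : c + σ • (u j • W + √(1 - u j ^ 2) • z) - (c' + σ • (u j • W' + √(1 - u j ^ 2) • z)) =
      c - c' + (σ * u j) • (W - W') := by module
  rw [e]
  have h1 := norm_add_le (c - c') ((σ * u j) • (W - W'))
  rw [norm_smul, Real.norm_eq_abs, abs_mul, abs_of_nonneg hσ] at h1
  have h2 := mul_le_mul_of_nonneg_right (mul_le_of_le_one_right hσ (hu j)) (norm_nonneg (W - W'))
  linarith

/-- The Lipschitz bound in the form read by one step. -/
theorem psur_lip {σ b : ℝ} (hσ : 0 ≤ σ) (hb : 0 < b) {w u : Fin N → ℝ}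
    (hu : ∀ j, |u j| ≤ 1) (hΛh : 0 ≤ Λh)
    (hh : ∀ g g' y y', ‖h g y - h g' y'‖ ≤ Λh * (‖g - g'‖ + ‖y - y'‖)) (c W g W' g' : Sp d) :
    ‖psur σ b w u h c W g - psur σ b w u h c W' g'‖ ≤
      σ / b * (∑ j, |w j|) * Λh * (1 + σ) * (‖W - W'‖ + ‖g - g'‖) := by
  refine (norm_psur_sub_le hσ hb hu hΛh hh c c W g W' g').trans ?_
  rw [mul_assoc _ (1 + σ)]
  refine mul_le_mul_of_nonneg_left ?_ (by positivity)
  rw [sub_self, norm_zero, zero_add]
  nlinarith [norm_nonneg (W - W'), mul_nonneg hσ (norm_nonneg (g - g'))]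

/-- The surrogate is jointly continuous in the centre and the state. -/
theorem continuous_psur {σ b : ℝ} (hσ : 0 ≤ σ) (hb : 0 < b) {w u : Fin N → ℝ}
    (hu : ∀ j, |u j| ≤ 1) (hΛh : 0 ≤ Λh)
    (hh : ∀ g g' y y', ‖h g y - h g' y'‖ ≤ Λh * (‖g - g'‖ + ‖y - y'‖)) :
    Continuous fun p : Sp d × Sp d × Sp d => psur σ b w u h p.1 p.2.1 p.2.2 := by
  set K := σ / b * (∑ j, |w j|) * Λh with hK
  have hK0 : 0 ≤ K := by positivity
  refine (LipschitzWith.of_dist_le_mul (K := (K * (2 + σ)).toNNReal) fun p q => ?_).continuous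
  rw [dist_eq_norm, Real.coe_toNNReal _ (by positivity), dist_eq_norm, mul_assoc]
  refine (norm_psur_sub_le hσ hb hu hΛh hh _ _ _ _ _ _).trans (mul_le_mul_of_nonneg_left ?_ hK0)
  have h1 : ‖p.1 - q.1‖ ≤ ‖p - q‖ := norm_fst_le (p - q)
  have h2 : ‖p.2.1 - q.2.1‖ ≤ ‖p - q‖ := (norm_fst_le (p - q).2).trans (norm_snd_le (p - q))
  have h3 : ‖p.2.2 - q.2.2‖ ≤ ‖p - q‖ := (norm_snd_le (p - q).2).trans (norm_snd_le (p - q))
  nlinarith [mul_le_mul_of_nonneg_left h2 hσ]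

end Bound

end Vale.Agent.P347.Shift.Level
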