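import Vale.Agent.P347.Shift.Level.Body
import Vale.Agent.P347.Shift.Level.Eval
import Vale.Agent.P347.Shift.Level.Surr
import Vale.Agent.P347.Shift.EmStep

/-!
# P347: one emission step applied to a body

`em_step` with the body as the map, the last centre as the centre and the quadrature of the product
`h` as the surrogate. No parameter is chosen here.
-/

open MeasureTheory ProbabilityTheory Real Finset
open scoped RealInnerProductSpace ENNReal

namespace Vale.Agent.P347.Shift.Level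

open Quarter

variable {d J v N : ℕ} {κ : Type}

/-- The expression surrogate is the semantic one. -/
lemma psurE_eq_psur (V : κ → Sp d → Sp d) (c : Fin (J + 1) → Sp d) (h : Expr κ (J + 1) (v + 2))
    (x : Fin v → Sp d) (σ b : ℝ) (w u : Fin N → ℝ) :
    psurE V c h x σ b w u =
      psur σ b w u (fun g y => h.eval V c (Fin.cons g (Fin.cons y x))) (c (Fin.last J)) := rfl

lemma measurable_cons₁ {n : ℕ} {β : Type} [MeasurableSpace β] {y : β → Sp d}
    {X : β → Fin n → Sp d} (hy : Measurable y) (hX : Measurable X) :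
    Measurable fun t => (Fin.cons (y t) (X t) : Fin (n + 1) → Sp d) :=
  measurable_pi_lambda _ (Fin.cases (by simpa using hy)
    fun i => by simp only [Fin.cons_succ]; exact (measurable_pi_apply i).comp hX)

lemma measurable_eval₂ {L : ℝ} (hL : 0 ≤ L) {V : κ → Sp d → Sp d} (hV : ∀ k, IsField L (V k))
    {α : Type} [MeasurableSpace α] (e : Expr κ J v) {c : α → Fin J → Sp d}
    {X : α → Fin v → Sp d} (hc : Measurable c) (hX : Measurable X) :
    Measurable fun a => e.eval V (c a) (X a) :=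
  (e.continuous_eval_joint (isBoxes_of_isField hL hV)).measurable.comp (hc.prodMk hX)

/-- The body as a function of the input and its variable. -/
lemma measurable_body {L : ℝ} (hL : 0 ≤ L) {V : κ → Sp d → Sp d} (hV : ∀ k, IsField L (V k))
    {α : Type} [MeasurableSpace α] (f : Expr κ J (v + 1)) {c : α → Fin J → Sp d}
    {X : α → Fin v → Sp d} (hc : Measurable c) (hX : Measurable X) :
    Measurable fun t : α × Sp d => bmap V (c t.1) f (X t.1) t.2 :=
  measurable_eval₂ hL hV f (c := fun t : α × Sp d => c t.1)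
    (X := fun t : α × Sp d => Fin.cons t.2 (X t.1)) (hc.comp measurable_fst)
    (measurable_cons₁ measurable_snd (hX.comp measurable_fst))

/-- The product as a function of the input and its variables. -/
lemma measurable_prod {L : ℝ} (hL : 0 ≤ L) {V : κ → Sp d → Sp d} (hV : ∀ k, IsField L (V k))
    {α : Type} [MeasurableSpace α] (h : Expr κ J (v + 2)) {c : α → Fin J → Sp d}
    {X : α → Fin v → Sp d} (hc : Measurable c) (hX : Measurable X) :
    Measurable fun t : α × Sp d × Sp d =>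
      h.eval V (c t.1) (Fin.cons t.2.1 (Fin.cons t.2.2 (X t.1))) :=
  measurable_eval₂ hL hV h (c := fun t : α × Sp d × Sp d => c t.1)
    (X := fun t : α × Sp d × Sp d => Fin.cons t.2.1 (Fin.cons t.2.2 (X t.1)))
    (hc.comp measurable_fst)
    (measurable_cons₁ (measurable_fst.comp measurable_snd)
      (measurable_cons₁ (measurable_snd.comp measurable_snd) (hX.comp measurable_fst)))

/-- The surrogate is measurable in the input and the state. -/
lemma measurable_surrogate {L : ℝ} (hL : 0 ≤ L) {V : κ → Sp d → Sp d}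
    (hV : ∀ k, IsField L (V k)) {α : Type} [MeasurableSpace α] (h : Expr κ (J + 1) (v + 2))
    {c : α → Fin (J + 1) → Sp d} {X : α → Fin v → Sp d} (hc : Measurable c) (hX : Measurable X)
    (σ b : ℝ) (w u : Fin N → ℝ) :
    Measurable fun t : α × (Sp d × Sp d) => psurE V (c t.1) h (X t.1) σ b w u t.2.1 t.2.2 :=
  measurable_psur σ b w u (h := fun a g y => h.eval V (c a) (Fin.cons g (Fin.cons y (X a))))
    (c := fun a => c a (Fin.last J)) (measurable_prod hL hV h hc hX)
    ((measurable_pi_apply _).comp hc)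

/-- **One level, applied.** -/
theorem level_emits (r k : ℕ) : ∃ C : ℝ, 1 ≤ C ∧ ∀ {d J v N : ℕ} {κ α : Type} [MeasurableSpace α]
    (q : Emitter d α) (R : Fin (r + 1) → Emitter d (α × (Sp d × Sp d)))
    (σ τ b Lam Λh : ℝ) (w u : Fin N → ℝ) (ρ : Fin (r + 1) → ℝ),
    0 < σ → 0 < τ → τ ≤ 1 / 2 → 0 < b → 0 ≤ Lam → 0 ≤ Λh → (∀ j, |u j| ≤ 1) →
    C * (Lam * σ / b + σ / b * (∑ j, |w j|) * Λh * (1 + σ)) ≤ 1 →
    ∃ p : Emitter d α, p.cost ≤ q.cost + ∑ i, (R i).cost ∧
      ∀ G, Measurable G → ∀ (η L B Rg wg εm εq : ℝ) (sc : κ → ℝ) (V : κ → Sp d → Sp d)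
        (kap : Fin (J + 1) → ℝ) (f : Expr κ (J + 1) (v + 1)) (h : Expr κ (J + 1) (v + 2))
        (c : α → Fin (J + 1) → Sp d) (X : α → Fin v → Sp d) (e : α → ℝ)
        (ε : Fin (r + 1) → α × (Sp d × Sp d) → ℝ) (E D : Fin (r + 1) → α → ℝ),
        0 ≤ L → (∀ k, 0 ≤ sc k) → 1 ≤ B → (∀ k, IsField L (V k)) → (∀ j, 0 < kap j) →
        f.Good η L sc B Rg wg → f.Fill kap → |f.aff 0| + B * f.sm L sc ≤ Lam →
        Measurable c → Measurable X → 0 ≤ εm → 0 ≤ εq →
        (∀ a g g' y y', ‖h.eval V (c a) (Fin.cons g (Fin.cons y (X a))) -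
            h.eval V (c a) (Fin.cons g' (Fin.cons y' (X a)))‖ ≤
          Λh * (‖g - g'‖ + ‖y - y'‖)) →
        (∀ a y, ∫⁻ g, ENNReal.ofReal (‖h.eval V (c a) (Fin.cons g (Fin.cons y (X a))) -
            ContinuousLinearMap.adjoint (fderiv ℝ (bmap V (c a) f (X a)) y) g‖ ^ 2) ∂gd d ≤
          ENNReal.ofReal (εm ^ 2)) →
        (∀ g : Sp d → Sp d, Continuous g → ∀ M : ℝ, (∀ x, ‖g x‖ ≤ M) →
          Integrable (fun x => ‖Quarter.flow √(1 - τ) g x - qflow w u g x‖ ^ 2) (gd d) ∧
          ∫ x, ‖Quarter.flow √(1 - τ) g x - qflow w u g x‖ ^ 2 ∂gd d ≤ (εq * M) ^ 2) →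
        Emits q G (fun a => c a (Fin.last J)) (σ / 2) e →
        (∀ i, Emits (R i) G (fun t => EmFlow.fb σ τ (bmap V (c t.1) f (X t.1))
          (EmFlow.iter r k σ τ b (bmap V (c t.1) f (X t.1)) (c t.1 (Fin.last J))
            (psurE V (c t.1) h (X t.1) σ b w u) i t.2)) (ρ i) (ε i)) →
        (∀ i a, 0 ≤ E i a ∧ 0 ≤ D i a) →
        (∀ i a y g, |ε i (a, (y, g))| ≤ E i a + D i a * (‖y - c a (Fin.last J)‖ + ‖g‖)) →
        Emits p G (fun a => smth 1 σ (bmap V (c a) f (X a)) (c a (Fin.last J)))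
          √(b ^ 2 + ∑ i, (FlowStep.colw r 1 i * ρ i) ^ 2) fun a =>
            C * b * (((Lam * σ / (b * τ)) ^ (r + 2) +
                (C * (Lam * σ / b + σ / b * (∑ j, |w j|) * Λh * (1 + σ))) ^ k) * √(d : ℝ) +
              σ / b * ((∑ j, |w j|) * εm + εq * Lam * √(d : ℝ))) +
              C * Lam * |e a| + ∑ i, |FlowStep.colw r 1 i| *
                (E i a + D i a * (|e a| + (σ + 1) * √(d : ℝ))) := by
  obtain ⟨C, hC, hem⟩ := em_step r k
  refine ⟨C, hC, ?_⟩
  intro d J v N κ α _ q R σ τ b Lam Λh w u ρ hσ hτ hτ2 hb hLam hΛh hu hsmall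
  obtain ⟨p, hp, hpe⟩ := hem q R σ τ b Lam (σ / b * (∑ j, |w j|) * Λh * (1 + σ)) ρ hσ hτ hτ2 hb
    hLam (by positivity) hsmall
  refine ⟨p, hp, ?_⟩
  intro G hG η L B Rg wg εm εq sc V kap f h c X e ε E D hL hsc hB hV hkap hGood hF hfLam hcm hXm
    hεm hεq hlip hL2 hrule hq hR hED hgrow
  have hd := fun a y => (norm_fderiv_bmap_le hL hsc hB hV hkap hGood hF (c a) (X a) y).trans hfLam
  have hφ := fun a => contDiff_bmap hL hV (c a) f (X a)
  have hl : ∀ a W g W' g',
      ‖psurE V (c a) h (X a) σ b w u W g - psurE V (c a) h (X a) σ b w u W' g'‖ ≤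
        σ / b * (∑ j, |w j|) * Λh * (1 + σ) * (‖W - W'‖ + ‖g - g'‖) := fun a W g W' g' =>
    psur_lip hσ.le hb hu hΛh (hlip a) (c a (Fin.last J)) W g W' g'
  have hs : ∀ a, eLpNorm (fun t : Sp d × Sp d => psurE V (c a) h (X a) σ b w u t.1 t.2 -
        EmFlow.grad σ τ b (bmap V (c a) f (X a)) (c a (Fin.last J)) t.1 t.2) 2
      ((gd d).prod (gd d)) ≤
      ENNReal.ofReal (σ / b * ((∑ j, |w j|) * εm + εq * Lam * √(d : ℝ))) := fun a =>
    psur_err hσ.le hb (hφ a) (hd a) (continuous_of_lip₂ (hlip a)) (growth_of_lip₂ (hlip a)) hεm hεq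
      (hL2 a) hrule (c a (Fin.last J))
  have hs0 : 0 ≤ σ / b * ((∑ j, |w j|) * εm + εq * Lam * √(d : ℝ)) := by positivity
  have hcl : Measurable fun a => c a (Fin.last J) := (measurable_pi_apply _).comp hcm
  exact hpe G hG (fun a => bmap V (c a) f (X a)) (fun a => c a (Fin.last J))
    (fun a => psurE V (c a) h (X a) σ b w u) e
    (fun _ => σ / b * ((∑ j, |w j|) * εm + εq * Lam * √(d : ℝ))) ε E D
    (measurable_body hL hV f hcm hXm) hcl (measurable_surrogate hL hV h hcm hXm σ b w u) hφ hd hl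
    (fun _ => hs0) hs hq hR hED hgrow

end Vale.Agent.P347.Shift.Level
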