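import Vale.Agent.P347.Shift.Level.Defs
import Vale.Agent.P347.Shift.SyntaxCen
import Vale.Agent.P347.Shift.SpecArith
import Vale.Agent.P347.Shift.EmAssemble

/-!
# P347: the mean at the finest scale

When the scale is at most `η ^ (n pE)` a body evaluated at one sample of the centre is close enough
to its mean: it is emitted at that sample, and its Lipschitz bound in the averaged variable pays
for both the averaging and the error of the centre.
-/

open MeasureTheory ProbabilityTheory Real Finset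
open scoped RealInnerProductSpace ENNReal

namespace Vale.Agent.P347.Shift.Level

open Quarter

variable {d : ℕ}

lemma integrable_of_norm_lip {h : Sp d → Sp d} (hc : Continuous h) {K : ℝ}
    (hK : ∀ x y, ‖h x - h y‖ ≤ K * ‖x - y‖) : Integrable h (gd d) := by
  have hi : Integrable (fun z : Sp d => ‖z‖) (gd d) := IsGaussian.integrable_fun_id.norm
  refine Integrable.mono' ((integrable_const ‖h 0‖).add (hi.const_mul K)) hc.aestronglyMeasurable
    (ae_of_all _ fun z => ?_)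
  have h1 := hK z 0
  rw [sub_zero] at h1
  simp only [Pi.add_apply]
  linarith [norm_le_insert' (h z) (h 0)]

lemma integral_norm_gd_le_of_pos (hd : 1 ≤ d) : ∫ z : Sp d, ‖z‖ ∂gd d ≤ √(d : ℝ) := by
  obtain ⟨hi, he⟩ := integral_norm_sq (ι := Fin d)
  rw [Fintype.card_fin] at he
  have hs : 0 < √(d : ℝ) := sqrt_pos.2 (Nat.cast_pos.2 hd)
  refine (integral_mono (g := fun z : Sp d => (‖z‖ ^ 2 / √(d : ℝ) + √(d : ℝ)) / 2)
    IsGaussian.integrable_fun_id.norm
    (((hi.div_const _).add (integrable_const _)).div_const _) fun z => ?_).trans_eq ?_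
  · show ‖z‖ ≤ _
    have h := sq_nonneg (‖z‖ - √(d : ℝ))
    rw [le_div_iff₀ (by norm_num : (0:ℝ) < 2), div_add' _ _ _ hs.ne', le_div_iff₀ hs]
    nlinarith
  · rw [integral_div, integral_add (hi.div_const _) (integrable_const _), integral_div, he]
    simp [div_sqrt]

/-- One value of a Lipschitz map against its Gaussian mean. -/
lemma eLpNorm_value_sub_mean_le (hd : 1 ≤ d) {h : Sp d → Sp d} (hc : Continuous h) {K : ℝ}
    (hK0 : 0 ≤ K) (hK : ∀ x y, ‖h x - h y‖ ≤ K * ‖x - y‖) :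
    eLpNorm (fun w => h w - ∫ z, h z ∂gd d) 2 (gd d) ≤ ENNReal.ofReal (2 * K * √(d : ℝ)) := by
  have hi := integrable_of_norm_lip hc hK
  have hn : Integrable (fun z : Sp d => ‖z‖) (gd d) := IsGaussian.integrable_fun_id.norm
  have hp : ∀ w, ‖h w - ∫ z, h z ∂gd d‖ ≤ K * √(d : ℝ) + K * ‖w‖ := fun w => by
    have e : h w - ∫ z, h z ∂gd d = ∫ z, (h w - h z) ∂gd d := by
      rw [integral_sub (integrable_const _) hi]; simp
    rw [e]
    refine (norm_integral_le_of_norm_le (((integrable_const ‖w‖).add hn).const_mul K)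
      (ae_of_all _ fun z => (hK w z).trans (mul_le_mul_of_nonneg_left (norm_sub_le w z) hK0))).trans ?_
    simp only [Pi.add_apply]
    rw [integral_const_mul, integral_add (integrable_const _) hn]
    simp only [integral_const, probReal_univ, one_smul]
    rw [mul_add, add_comm]
    exact add_le_add (mul_le_mul_of_nonneg_left (integral_norm_gd_le_of_pos hd) hK0) le_rfl
  refine (eLpNorm_mono_real hp).trans ?_
  rw [show (fun w : Sp d => K * √(d : ℝ) + K * ‖w‖) =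
    (fun _ => K * √(d : ℝ)) + K • fun w : Sp d => ‖w‖ from rfl,
    show 2 * K * √(d : ℝ) = K * √(d : ℝ) + K * √(d : ℝ) by ring,
    ENNReal.ofReal_add (by positivity) (by positivity)]
  refine (eLpNorm_add_le aestronglyMeasurable_const
    (continuous_norm.aestronglyMeasurable.const_smul K) one_le_two).trans (add_le_add ?_ ?_)
  · rw [eLpNorm_const _ two_ne_zero (IsProbabilityMeasure.ne_zero _), measure_univ,
      ENNReal.one_rpow, mul_one, Real.enorm_eq_ofReal (by positivity)]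
  · rw [eLpNorm_const_smul, Real.enorm_eq_ofReal hK0, eLpNorm_norm, ENNReal.ofReal_mul hK0]
    exact mul_le_mul' le_rfl EmitBase.eLpNorm_id_gd_le

/-- One value at a sample of the centre, as an emission of the mean. -/
theorem emits_value {α : Type} [MeasurableSpace α] (q₀ : Emitter d α)
    (R : Emitter d (α × (Sp d × Sp d))) {s b : ℝ} (hs : 0 < s) (hb : 0 < b) :
    ∃ p : Emitter d α, p.cost ≤ q₀.cost + R.cost ∧
      ∀ G, Measurable G → ∀ (h : α → Sp d → Sp d) (K : ℝ) (c₀ : α → Sp d) (e : α → ℝ)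
        (ε : α × (Sp d × Sp d) → ℝ) (E D : α → ℝ),
        1 ≤ d → 0 ≤ K → Measurable (fun t : α × Sp d => h t.1 t.2) → (∀ a, Continuous (h a)) →
        (∀ a y y', ‖h a y - h a y'‖ ≤ K * ‖y - y'‖) →
        Emits q₀ G c₀ (s / 2) e → Emits R G (fun t => h t.1 t.2.1) (√3 / 2 * b) ε →
        (∀ a, 0 ≤ E a ∧ 0 ≤ D a) →
        (∀ a y g, |ε (a, (y, g))| ≤ E a + D a * (‖y - c₀ a‖ + ‖g‖)) →
        Emits p G (fun a => ∫ z, h a (c₀ a + s • z) ∂gd d) b fun a =>
          2 * (K * s) * √(d : ℝ) + (K * |e a| + E a + D a * (|e a| + (s + 1) * √(d : ℝ))) := by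
  obtain ⟨p, hp, hpe⟩ := em_assemble q₀ (fun _ : Fin 1 => R) (r₀ := s / 2) (f := √3 / 2 * s)
    (s := s) (b := b / 2) (fun _ => 1) (fun _ => √3 / 2 * b) hs
    (by rw [mul_pow, div_pow, div_pow, sq_sqrt (by norm_num)]; ring) (by linarith)
  refine ⟨p, by simpa using hp, fun G hG h K c₀ e ε E D hd hK hm hc hL hq hR hED hε => ?_⟩
  have hcont : ∀ a, Continuous fun w => h a (c₀ a + s • w) := fun a => (hc a).comp (by fun_prop)
  have H := hpe G hG c₀ (fun a => ∫ z, h a (c₀ a + s • z) ∂gd d) (fun _ t => h t.1 t.2.1)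
    (fun t => t.2.2) (fun _ => K) e (fun _ => 2 * (K * s) * √(d : ℝ)) (fun _ => ε) (fun _ => E)
    (fun _ => D) hq (fun _ => hR)
    (fun _ => hm.comp (measurable_fst.prodMk (measurable_fst.comp measurable_snd)))
    (measurable_snd.comp measurable_snd) (fun _ => measurePreserving_snd) (fun _ => hK)
    (fun _ a y y' _ => hL a y y') (fun _ => by positivity) (fun a => ?_) (fun _ => hED) (fun _ => hε)
  · have e2 : √((b / 2) ^ 2 + ∑ _i : Fin 1, (1 * (√3 / 2 * b)) ^ 2) = b := by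
      rw [Fin.sum_univ_one, one_mul, mul_pow, div_pow, div_pow, sq_sqrt (by norm_num),
        show b ^ 2 / 2 ^ 2 + 3 / 2 ^ 2 * b ^ 2 = b ^ 2 by ring, sqrt_sq hb.le]
    rw [e2] at H
    refine EmitBase.emits_mono H fun a => le_of_eq ?_
    simp
  · refine le_of_eq_of_le ?_ (eLpNorm_value_sub_mean_le hd (hcont a) (mul_nonneg hK hs.le)
      fun x y => (hL a _ _).trans (le_of_eq (by
        rw [add_sub_add_left_eq_sub, ← smul_sub, norm_smul, norm_of_nonneg hs.le, mul_assoc])))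
    rw [← eLpNorm_comp_measurePreserving (g := fun w : Sp d =>
      h a (c₀ a + s • w) - ∫ z, h a (c₀ a + s • z) ∂gd d)
      ((hcont a).sub continuous_const).aestronglyMeasurable (measurePreserving_fst (μ := gd d) (ν := gd d))]
    congr 1
    funext t
    simp only [Fin.sum_univ_one, one_smul, Function.comp_apply]
    abel

variable {κ : Type} {J v : ℕ}

/-- A body moves in its first variable by its linear coefficient and its size. -/
lemma norm_eval_cons_sub_le {η L B R w : ℝ} {sc : κ → ℝ} {kap : Fin J → ℝ} (hL : 0 ≤ L)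
    (hB : 1 ≤ B) {V : κ → Sp d → Sp d} (hV : ∀ k, IsField L (V k)) (hkap : ∀ j, 0 < kap j)
    (c : Fin J → Sp d) {f : Expr κ J (v + 1)} (hg : f.Good η L sc B R w) (hF : f.Fill kap)
    (X : Fin v → Sp d) (y y' : Sp d) :
    ‖f.eval V c (Fin.cons y X) - f.eval V c (Fin.cons y' X)‖ ≤
      (|f.aff 0| + B * f.sm L sc) * ‖y - y'‖ := by
  have h := f.norm_eval_sub_aff_le hL hB hV hkap c c hg hF (Fin.cons y X) (Fin.cons y' X) ‖y - y'‖
    (Fin.cases (by simp) fun i => by simp) (by simp)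
  have e : ∑ i, f.aff i • ((Fin.cons y X : Fin (v + 1) → Sp d) i -
      (Fin.cons y' X : Fin (v + 1) → Sp d) i) = f.aff 0 • (y - y') := by
    rw [Fin.sum_univ_succ]; simp
  rw [e] at h
  refine (norm_le_norm_add_norm_sub' _ (f.aff 0 • (y - y'))).trans ?_
  rw [norm_smul, norm_eq_abs, add_mul]
  exact add_le_add le_rfl h

lemma measurable_cons {β : Type} [MeasurableSpace β] {y : β → Sp d} {X : β → Fin v → Sp d}
    (hy : Measurable y) (hX : Measurable X) :
    Measurable fun t => (Fin.cons (y t) (X t) : Fin (v + 1) → Sp d) :=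
  measurable_pi_lambda _ (Fin.cases (by simpa using hy)
    fun i => by simp only [Fin.cons_succ]; exact (measurable_pi_apply i).comp hX)

/-- The error of one value, in the units of `ScaleOn`. -/
lemma base_err_le {B Cp S a t s e0 sd ce Se : ℝ} (hB : 1 ≤ B) (hC : 0 ≤ Cp) (hS : 0 ≤ S)
    (ha : 0 ≤ a) (ht : 0 ≤ t) (ht1 : t ≤ 1) (hs : 0 ≤ s) (hst : s ≤ t) (he : 0 ≤ e0)
    (hd : 0 ≤ sd) (hc : 0 ≤ ce) (hSe : 0 ≤ Se) :
    2 * ((a + B * S) * s) * sd + ((a + B * S) * e0 + Cp * S * (t * (sd + ce) + Se) +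
        Cp * S * t * (2 * B ^ 4) * (e0 + (s + 1) * sd)) ≤
      8 * B ^ 4 * (Cp + 1) * (S + a) * (t * (sd + ce) + Se + e0) := by
  have h4 : B ≤ B ^ 4 := le_self_pow₀ hB (by norm_num)
  have h14 : 1 ≤ B ^ 4 := one_le_pow₀ hB
  set T := t * (sd + ce) + Se + e0 with hT
  set M := S + a with hM
  have hT0 : 0 ≤ T := by rw [hT]; positivity
  have hM0 : 0 ≤ M := by rw [hM]; positivity
  have hsT : s * sd ≤ T := by
    rw [hT]; nlinarith [mul_le_mul_of_nonneg_right hst hd, mul_nonneg ht hc]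
  have heT : e0 ≤ T := by rw [hT]; nlinarith [mul_nonneg ht (add_nonneg hd hc)]
  have hA : a + B * S ≤ B ^ 4 * M := by rw [hM]; nlinarith
  have p1 : (a + B * S) * (s * sd) ≤ B ^ 4 * M * T := mul_le_mul hA hsT (by positivity) (by positivity)
  have p2 : (a + B * S) * e0 ≤ B ^ 4 * M * T := mul_le_mul hA heT he (by positivity)
  have p3 : Cp * S * (t * (sd + ce) + Se) ≤ Cp * (B ^ 4 * M) * T := by
    refine mul_le_mul (mul_le_mul_of_nonneg_left ?_ hC) (by rw [hT]; linarith) (by positivity)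
      (by positivity)
    rw [hM]; nlinarith
  have hin : t * (e0 + (s + 1) * sd) ≤ 2 * T := by
    rw [hT]
    nlinarith [mul_le_mul_of_nonneg_right ht1 he, mul_nonneg ht hc,
      mul_le_mul_of_nonneg_right (mul_le_mul_of_nonneg_left (hst.trans ht1) ht) hd]
  have p4 : Cp * S * t * (2 * B ^ 4) * (e0 + (s + 1) * sd) ≤ Cp * (B ^ 4 * M) * (4 * T) := by
    have := mul_le_mul (mul_le_mul_of_nonneg_left (show S ≤ M by rw [hM]; linarith)
      (mul_nonneg hC (by positivity : (0:ℝ) ≤ 2 * B ^ 4))) hin (by positivity) (by positivity)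
    linarith
  nlinarith [mul_nonneg (mul_nonneg hC (by positivity : (0:ℝ) ≤ B ^ 4 * M)) hT0,
    mul_nonneg (by positivity : (0:ℝ) ≤ B ^ 4 * M) hT0]

/-- The error of an emitted body grows with the motion of its first variable. -/
lemma growth_le {η L B R w t : ℝ} {sc : κ → ℝ} {kap : Fin J → ℝ} (hL : 0 ≤ L) (hB : 1 ≤ B)
    (hw : η ^ w ≤ 1) {V : κ → Sp d → Sp d} (hV : ∀ k, IsField L (V k)) (hkap : ∀ j, 0 < kap j)
    {α : Type} (c : α → Fin J → Sp d) {f : Expr κ J (v + 1)} (hg : f.Good η L sc B R w)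
    (hF : f.Fill kap) (X : α → Fin v → Sp d) (c₀ : α → Sp d) (ec : Fin J → α → ℝ)
    (hsm : 0 ≤ f.sm L sc) (ht : 0 ≤ t) (hS : ∀ a, 0 ≤ ∑ j, ec j a / kap j) (C : ℝ) (a : α)
    (y g : Sp d) :
    |C * f.sm L sc * (t * (√(d : ℝ) + f.cen V (c a) (Fin.cons y (X a))) + ∑ j, ec j a / kap j)| ≤
      |C| * f.sm L sc * (t * (√(d : ℝ) + f.cen V (c a) (Fin.cons (c₀ a) (X a))) +
        ∑ j, ec j a / kap j) + |C| * f.sm L sc * t * (2 * B ^ 4) * (‖y - c₀ a‖ + ‖g‖) := by
  have hcy := f.cen_nonneg V (c a) (Fin.cons y (X a))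
  have hmove := f.cen_le_add hL hB hw hV hkap (c a) (c a) hg hF (Fin.cons y (X a))
    (Fin.cons (c₀ a) (X a)) ‖y - c₀ a‖ (Fin.cases (by simp) fun i => by simp) (by simp)
  rw [abs_mul, abs_mul, abs_of_nonneg hsm, abs_of_nonneg
    (add_nonneg (mul_nonneg ht (add_nonneg (sqrt_nonneg _) hcy)) (hS a))]
  have hsd : 0 ≤ |C| * f.sm L sc := mul_nonneg (abs_nonneg _) hsm
  nlinarith [mul_le_mul_of_nonneg_left (mul_le_mul_of_nonneg_left hmove ht) hsd,
    mul_nonneg (mul_nonneg (mul_nonneg hsd ht) (by positivity : (0:ℝ) ≤ 2 * B ^ 4)) (norm_nonneg g)]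

/-- The cost of one value. -/
lemma base_cost_le {η θ B Cp : ℝ} {A S Nb P Q₀ R Qs qs : ℕ} (hη : 0 < η) (hη1 : η ≤ 1) (hθ : 0 < θ)
    (hB : 1 ≤ B) (hS : 1 ≤ S) (hp : (P : ℝ) ≤ Q₀ + R)
    (hR : (R : ℝ) ≤ Cp * η ^ (-θ) * (S : ℝ) ^ A * ((Nb : ℝ) + 1 + (Qs : ℝ))) (hQ : Qs ≤ qs) :
    (P : ℝ) ≤ 8 * B ^ 4 * (|Cp| + 1) * η ^ (-θ) * (S : ℝ) ^ A * ((Nb : ℝ) + 1 + qs + Q₀) := by
  set X := η ^ (-θ) * (S : ℝ) ^ A with hX
  have hX1 : 1 ≤ X := one_le_mul_of_one_le_of_one_le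
    (one_le_rpow_of_pos_of_le_one_of_nonpos hη hη1 (by linarith))
    (one_le_pow₀ (by exact_mod_cast hS))
  have hQ' : (Qs : ℝ) ≤ qs := by exact_mod_cast hQ
  have hR' : (R : ℝ) ≤ |Cp| * X * ((Nb : ℝ) + 1 + qs) := by
    refine hR.trans ?_
    rw [mul_assoc Cp]
    exact mul_le_mul (mul_le_mul_of_nonneg_right (le_abs_self Cp) (zero_le_one.trans hX1))
      (by linarith) (by positivity) (mul_nonneg (abs_nonneg _) (zero_le_one.trans hX1))
  have hC : |Cp| + 1 ≤ 8 * B ^ 4 * (|Cp| + 1) :=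
    le_mul_of_one_le_left (by positivity) (by linarith [one_le_pow₀ hB (n := 4)])
  have e1 : |Cp| * X * ((Nb : ℝ) + 1 + qs) ≤
      8 * B ^ 4 * (|Cp| + 1) * X * ((Nb : ℝ) + 1 + qs) :=
    mul_le_mul_of_nonneg_right (mul_le_mul_of_nonneg_right (by linarith) (by linarith))
      (by positivity)
  have e2 : (Q₀ : ℝ) ≤ 8 * B ^ 4 * (|Cp| + 1) * X * Q₀ :=
    le_mul_of_one_le_left (Nat.cast_nonneg _)
      (one_le_mul_of_one_le_of_one_le (by linarith [abs_nonneg Cp]) hX1)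
  rw [show 8 * B ^ 4 * (|Cp| + 1) * η ^ (-θ) * (S : ℝ) ^ A = 8 * B ^ 4 * (|Cp| + 1) * X by
    rw [hX]; ring]
  linarith

/-- The emission of one value, in the units of `ScaleOn`. -/
lemma base_emits {α : Type} [MeasurableSpace α] {p q₀ : Emitter d α}
    {R : Emitter d (α × (Sp d × Sp d))} {G : Sp d → Sp d} {η L B R' s e b Cp : ℝ} {K n : ℕ}
    {sc : κ → ℝ} {V : κ → Sp d → Sp d} {kap : Fin J → ℝ} {f : Expr κ J (v + 1)}
    {X : α → Fin v → Sp d} {c : α → Fin J → Sp d} {ec : Fin J → α → ℝ} {c₀ : α → Sp d}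
    {ec₀ : α → ℝ} (hd : 1 ≤ d) (hη : 0 < η) (hη1 : η ≤ 1) (hs : s = η ^ e) (hs0 : 0 < s)
    (he : (n : ℝ) * pE K ≤ e) (hL : 0 ≤ L) (hB : 1 ≤ B) (hsc : ∀ k, 0 ≤ sc k)
    (hkap : ∀ j, 0 < kap j) (hX : Measurable X) (hG : f.Good η L sc B R' (pW K n))
    (hF : f.Fill kap) (hV : ∀ k, IsField L (V k)) (hcm : ∀ j, Measurable fun a => c a j)
    (hec : ∀ j a, 0 ≤ ec j a) (hec₀ : ∀ a, 0 ≤ ec₀ a)
    (hpe : ∀ (h : α → Sp d → Sp d) (K : ℝ) (c₀ : α → Sp d) (e : α → ℝ)
        (ε : α × (Sp d × Sp d) → ℝ) (E D : α → ℝ),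
        1 ≤ d → 0 ≤ K → Measurable (fun t : α × Sp d => h t.1 t.2) → (∀ a, Continuous (h a)) →
        (∀ a y y', ‖h a y - h a y'‖ ≤ K * ‖y - y'‖) →
        Emits q₀ G c₀ (s / 2) e → Emits R G (fun t => h t.1 t.2.1) (√3 / 2 * b) ε →
        (∀ a, 0 ≤ E a ∧ 0 ≤ D a) →
        (∀ a y g, |ε (a, (y, g))| ≤ E a + D a * (‖y - c₀ a‖ + ‖g‖)) →
        Emits p G (fun a => ∫ z, h a (c₀ a + s • z) ∂gd d) b fun a =>
          2 * (K * s) * √(d : ℝ) + (K * |e a| + E a + D a * (|e a| + (s + 1) * √(d : ℝ))))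
    (hq₀ : Emits q₀ G c₀ (s / 2) ec₀)
    (hR : Emits R G (fun t => f.eval V (c t.1) (Fin.cons t.2.1 (X t.1))) (√3 / 2 * b)
      fun t => Cp * f.sm L sc * (η ^ ((n : ℝ) * pE K) *
        (√(d : ℝ) + f.cen V (c t.1) (Fin.cons t.2.1 (X t.1))) + ∑ j, ec j t.1 / kap j)) :
    Emits p G (fun a => ∫ z, f.eval V (c a) (Fin.cons (c₀ a + s • z) (X a)) ∂gd d) b fun a =>
      8 * B ^ 4 * (|Cp| + 1) * (f.sm L sc + |f.aff 0|) *
        (η ^ ((n : ℝ) * pE K) * (√(d : ℝ) + f.cen V (c a) (Fin.cons (c₀ a) (X a))) +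
          ∑ j, ec j a / kap j + ec₀ a) := by
  have hw : η ^ pW K n ≤ 1 := eta_rpow_le_one hη hη1 (pW_pos K n).le
  have hsm0 : 0 ≤ f.sm L sc := f.sm_nonneg hL hsc
  have hK0 : 0 ≤ |f.aff 0| + B * f.sm L sc :=
    add_nonneg (abs_nonneg _) (mul_nonneg (zero_le_one.trans hB) hsm0)
  have hm : Measurable fun t : α × Sp d => f.eval V (c t.1) (Fin.cons t.2 (X t.1)) :=
    (f.continuous_eval_joint (isBoxes_of_isField hL hV)).measurable.comp
      (((measurable_pi_lambda _ hcm).comp measurable_fst).prodMk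
        (measurable_cons measurable_snd (hX.comp measurable_fst)))
  have hcont : ∀ a, Continuous fun y => f.eval V (c a) (Fin.cons y (X a)) := fun a =>
    (f.continuous_eval_joint (isBoxes_of_isField hL hV)).comp
      (continuous_const.prodMk (continuous_pi (Fin.cases
        continuous_id
        fun i => continuous_const)))
  have hcen := fun a => f.cen_nonneg V (c a) (Fin.cons (c₀ a) (X a))
  have hSum : ∀ a, 0 ≤ ∑ j, ec j a / kap j := fun a =>
    sum_nonneg fun j _ => div_nonneg (hec j a) (hkap j).le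
  have hpow : 0 ≤ η ^ ((n : ℝ) * pE K) := rpow_nonneg hη.le _
  have hE : ∀ a, 0 ≤ |Cp| * f.sm L sc * (η ^ ((n : ℝ) * pE K) *
      (√(d : ℝ) + f.cen V (c a) (Fin.cons (c₀ a) (X a))) + ∑ j, ec j a / kap j) := fun a =>
    mul_nonneg (mul_nonneg (abs_nonneg _) hsm0)
      (add_nonneg (mul_nonneg hpow (add_nonneg (sqrt_nonneg _) (hcen a))) (hSum a))
  have := hpe (fun a y => f.eval V (c a) (Fin.cons y (X a))) (|f.aff 0| + B * f.sm L sc) c₀ ec₀ _ _
    (fun _ => |Cp| * f.sm L sc * η ^ ((n : ℝ) * pE K) * (2 * B ^ 4)) hd hK0 hm hcont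
    (fun a => norm_eval_cons_sub_le hL hB hV hkap (c a) hG hF (X a)) hq₀ hR
    (fun a => ⟨hE a, by positivity⟩) (growth_le hL hB hw hV hkap c hG hF X c₀ ec hsm0 hpow hSum Cp)
  refine EmitBase.emits_mono this fun a => ?_
  have h0 := hec₀ a
  rw [abs_of_nonneg h0, abs_of_nonneg (add_nonneg (by positivity) (add_nonneg (add_nonneg
    (mul_nonneg hK0 h0) (hE a)) (by positivity)))]
  exact (base_err_le hB (abs_nonneg Cp) hsm0 (abs_nonneg _) hpow
    (eta_rpow_le_one hη hη1 (mul_nonneg (Nat.cast_nonneg n) (pE_pos K).le)) hs0.le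
    (hs ▸ eta_rpow_le hη hη1 he) h0 (sqrt_nonneg _) (hcen a) (hSum a)).trans (le_abs_self _)

/-- **The finest scale.** -/
theorem scaleOn_base {K n D : ℕ} (h : PtDepth K n D) {e : ℝ} (he : (n : ℝ) * pE K ≤ e)
    {P : ℝ → ∀ {κ : Type} {J v : ℕ}, Expr κ J (v + 1) → Prop}
    (hP : ∀ (η : ℝ) {κ : Type} {J v : ℕ} (f : Expr κ J (v + 1)), P η f → f.depth ≤ D) :
    ScaleOn K n e P := by
  intro B
  set B₂ := 2 * max B 1 with hB₂
  have hB2 : 1 ≤ B₂ := by rw [hB₂]; linarith [le_max_right B 1]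
  obtain ⟨B', A, hA⟩ := h B₂
  refine ⟨B', A, fun θ hθ Cb hCb => ?_⟩
  obtain ⟨Cp, η₀, hη₀, hC⟩ := hA θ hθ Cb hCb
  refine ⟨8 * B₂ ^ 4 * (|Cp| + 1), min η₀ 1, lt_min hη₀ one_pos, ?_⟩
  intro d J v κ α _ η L b Nb sc 𝒱 f kap X q q₀ hd hη hηle hL hL4 hb hNb hsc hkap hX hPf hG hF
    hroom hbox
  have hη1 : η ≤ 1 := hηle.trans (min_le_right _ _)
  have hsm0 : 0 ≤ f.sm L sc := f.sm_nonneg hL hsc
  have hB0 : 0 ≤ B := nonneg_of_mul_nonneg_left
    (le_trans (mul_nonneg (add_nonneg hsm0 (abs_nonneg _)) (rpow_nonneg hη.le _)) hroom) hb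
  have hBB : B ≤ B₂ := by rw [hB₂]; linarith [le_max_left B 1]
  have hG' : f.Good η L sc B₂ (B₂ * η ^ (-pA K)) (pW K n) :=
    hG.mono hη hη1 hB0 hBB (mul_le_mul_of_nonneg_right hBB (rpow_nonneg hη.le _)) le_rfl hsc
  have hw : η ^ pW K n ≤ 1 := eta_rpow_le_one hη hη1 (pW_pos K n).le
  set ρ := √3 / 2 * b with hρ
  have h3 : 1 ≤ √(3 : ℝ) := one_le_sqrt.2 (by norm_num)
  have hroom' : f.sm L sc * η ^ (-pW K n) ≤ B₂ * ρ := by
    refine ((mul_le_mul_of_nonneg_right (le_add_of_nonneg_right (abs_nonneg _))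
      (rpow_nonneg hη.le _)).trans hroom).trans ?_
    rw [hB₂, hρ]
    nlinarith [mul_le_mul_of_nonneg_right (le_max_left B 1) hb.le,
      mul_le_mul_of_nonneg_left h3 (mul_nonneg (le_trans hB0 (le_max_left B 1)) hb.le)]
  choose Q hQc hQe using fun j => emits_input (q j)
    (measurable_fst : Measurable (Prod.fst : α × (Sp d × Sp d) → α))
  obtain ⟨R, hRc, hRe⟩ := hC d J (v + 1) κ (α × (Sp d × Sp d)) η L ρ Nb sc 𝒱 f kap
    (fun t => Fin.cons t.2.1 (X t.1)) Q hd hη (hηle.trans (min_le_left _ _)) hL hL4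
    (by positivity) hNb hsc hkap
    (measurable_cons (measurable_fst.comp measurable_snd) (hX.comp measurable_fst))
    (hP η f hPf) hG' hF hroom' hbox
  set s := η ^ e with hs
  have hs0 : 0 < s := rpow_pos_of_pos hη e
  obtain ⟨p, hp, hpe⟩ := emits_value q₀ R hs0 hb
  refine ⟨p, ?_, fun G hA' c ec c₀ ec₀ hec hcm hqe hec₀ hc₀ hq₀ => ?_⟩
  · have h1 : (p.cost : ℝ) ≤ q₀.cost + R.cost := by
      have : p.cost ≤ q₀.cost + R.cost := by simpa using hp
      exact_mod_cast this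
    have hsum : (∑ j, (Q j).cost : ℕ) ≤ ∑ j, (q j).cost := sum_le_sum fun j _ => hQc j
    refine base_cost_le hη hη1 hθ hB2 f.one_le_size h1 ?_ hsum
    push_cast
    exact_mod_cast hRc
  · have hec' : ∀ (j : Fin J) (t : α × (Sp d × Sp d)), 0 ≤ ec j t.1 := fun j t => hec j t.1
    have hcm' : ∀ j, Measurable fun t : α × (Sp d × Sp d) => c t.1 j := fun j =>
      (hcm j).comp measurable_fst
    have hQ' : ∀ j, Emits (Q j) G (fun t : α × (Sp d × Sp d) => c t.1 j) (kap j)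
        fun t => ec j t.1 := fun j => hQe j G (fun a => c a j) (kap j) (ec j) (hqe j)
    have hR := hRe G hA' (fun t : α × (Sp d × Sp d) => c t.1) (fun j t => ec j t.1) hec' hcm' hQ'
    exact base_emits (V := fun k => 𝒱 k G) (ec := ec) (c := c) (X := X) (f := f) (kap := kap)
      (Cp := Cp) hd hη hη1 hs hs0 he hL hB2 hsc hkap hX hG' hF
      (fun k => (hbox k 0 (Nat.zero_le n)).1 G hA') hcm hec hec₀
      (hpe G (Adm.measurable hA')) hq₀
      hR

end Vale.Agent.P347.Shift.Level
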