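import Vale.Agent.P347.Shift.Level.Defs
import Vale.Agent.P347.Shift.NormalForm
import Vale.Agent.P347.Quarter.Gauss
import Vale.Agent.P347.Shift.EmitBase

/-!
# P347: a body as a map of its averaged variable
-/

open MeasureTheory ProbabilityTheory Real
open scoped RealInnerProductSpace ENNReal

namespace Vale.Agent.P347.Shift.Level

open Quarter

variable {κ : Type} {d J v : ℕ} {η L B R w : ℝ} {sc : κ → ℝ} {kap : Fin J → ℝ}
  {V : κ → Sp d → Sp d}

/-- The body as a map of the averaged variable. -/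
noncomputable def bmap (V : κ → Sp d → Sp d) (c : Fin J → Sp d) (f : Expr κ J (v + 1))
    (x : Fin v → Sp d) (y : Sp d) : Sp d :=
  f.eval V c (Fin.cons y x)

/-- Only the averaged variable moves. -/
theorem norm_bmap_sub_le (hL : 0 ≤ L) (hB : 1 ≤ B) (hV : ∀ k, IsField L (V k))
    (hkap : ∀ j, 0 < kap j) {f : Expr κ J (v + 1)} (hg : f.Good η L sc B R w) (hF : f.Fill kap)
    (c : Fin J → Sp d) (x : Fin v → Sp d) (y y' : Sp d) :
    ‖bmap V c f x y - bmap V c f x y'‖ ≤ (|f.aff 0| + B * f.sm L sc) * ‖y - y'‖ := by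
  have h := f.norm_eval_sub_aff_le hL hB hV hkap c c hg hF (Fin.cons y x) (Fin.cons y' x) ‖y - y'‖
    (fun i => Fin.cases (by simp) (fun i => by simp) i) (by simp)
  simp only [Fin.sum_univ_succ, Fin.cons_zero, Fin.cons_succ, sub_self, smul_zero,
    Finset.sum_const_zero, add_zero] at h
  refine (norm_le_norm_add_norm_sub' _ (f.aff 0 • (y - y'))).trans ?_
  rw [norm_smul, Real.norm_eq_abs, add_mul]
  exact add_le_add le_rfl h

/-- The node centres along the averaged variable. -/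
theorem cen_body_le (hL : 0 ≤ L) (hB : 1 ≤ B) (hw : η ^ w ≤ 1) (hV : ∀ k, IsField L (V k))
    (hkap : ∀ j, 0 < kap j) {f : Expr κ J (v + 1)} (hg : f.Good η L sc B R w) (hF : f.Fill kap)
    (c : Fin J → Sp d) (x : Fin v → Sp d) (y y' : Sp d) :
    f.cen V c (Fin.cons y x) ≤ f.cen V c (Fin.cons y' x) + 2 * B ^ 4 * ‖y - y'‖ :=
  f.cen_le_add hL hB hw hV hkap c c hg hF _ _ _
    (fun i => Fin.cases (by simp) (fun i => by simp) i) (by simp)

/-- The body is continuously differentiable. -/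
theorem contDiff_bmap (hL : 0 ≤ L) (hV : ∀ k, IsField L (V k)) (c : Fin J → Sp d)
    (f : Expr κ J (v + 1)) (x : Fin v → Sp d) : ContDiff ℝ 1 (bmap V c f x) := by
  have hB := isBoxes_of_isField hL hV
  have hd : ∀ y, HasFDerivAt (bmap V c f x)
      ((f.jac V (fun k => fderiv ℝ (V k)) c (Fin.cons y x)).comp (headL v)) y := fun y => by
    have e : bmap V c f x = fun y => f.eval V c (consL v x + headL v y) := by
      funext y; simp [bmap, consL_add_headL]
    rw [e]
    have h := (f.hasFDerivAt_eval (c := c) hB (consL v x + headL v y)).comp y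
      ((headL v).hasFDerivAt.const_add (consL v x))
    rwa [consL_add_headL] at h
  refine contDiff_one_iff_fderiv.2 ⟨fun y => (hd y).differentiableAt, ?_⟩
  rw [funext fun y => (hd y).fderiv]
  have hc : ∀ i, Continuous fun y : Sp d =>
      (f.deriv i).eval V (fun k => fderiv ℝ (V k)) c (Fin.cons y x) := fun i =>
    ((f.deriv i).continuous_eval hB).comp
      (continuous_cons.comp (f := fun y => (x, y)) (by fun_prop))
  simp only [Expr.jac]
  exact (continuous_finsetSum _ fun i _ => (hc i).clm_comp continuous_const).clm_comp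
    continuous_const

/-- The bound of the derivative. -/
theorem norm_fderiv_bmap_le (hL : 0 ≤ L) (hsc : ∀ k, 0 ≤ sc k) (hB : 1 ≤ B)
    (hV : ∀ k, IsField L (V k)) (hkap : ∀ j, 0 < kap j) {f : Expr κ J (v + 1)}
    (hg : f.Good η L sc B R w) (hF : f.Fill kap) (c : Fin J → Sp d) (x : Fin v → Sp d) (y : Sp d) :
    ‖fderiv ℝ (bmap V c f x) y‖ ≤ |f.aff 0| + B * f.sm L sc := by
  have h0 : 0 ≤ f.sm L sc := f.sm_nonneg hL hsc
  exact norm_fderiv_le_of_lip' ℝ (by positivity)
    (Filter.Eventually.of_forall fun z => norm_bmap_sub_le hL hB hV hkap hg hF c x z y)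

/-- A product that approximates `Dφᵀ g` in mean square is bounded pointwise. -/
theorem norm_prod_le {φ : Sp d → Sp d} {Φ : Sp d → Sp d → Sp d} {Lam Λ ε : ℝ} (hLam : 0 ≤ Lam)
    (hΛ : 0 ≤ Λ) (hε : 0 ≤ ε) (hd : ∀ y, ‖fderiv ℝ φ y‖ ≤ Lam)
    (hl : ∀ g g' y, ‖Φ g y - Φ g' y‖ ≤ Λ * ‖g - g'‖)
    (hL2 : ∀ y, ∫⁻ g, ENNReal.ofReal
      (‖Φ g y - ContinuousLinearMap.adjoint (fderiv ℝ φ y) g‖ ^ 2) ∂gd d ≤
        ENNReal.ofReal ((ε * √d) ^ 2)) (g y : Sp d) :
    ‖Φ g y‖ ≤ (Lam + Λ + ε) * (√d + ‖g‖) := by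
  set T := ContinuousLinearMap.adjoint (fderiv ℝ φ y)
  have hTn : ‖T‖ ≤ Lam := by simpa [T] using hd y
  have hc : Continuous fun g => Φ g y :=
    (LipschitzWith.of_dist_le' fun a b => by simpa [dist_eq_norm] using hl a b y).continuous
  have hD : Continuous fun g => Φ g y - T g := hc.sub T.continuous
  have hl0 : ∀ a : Sp d, ‖Φ 0 y‖ ≤ ‖Φ a y - T a‖ + (Lam + Λ) * ‖a‖ := fun a => by
    have h1 := hl a 0 y
    rw [sub_zero] at h1
    have h2 : ‖Φ 0 y‖ ≤ ‖Φ a y‖ + ‖Φ a y - Φ 0 y‖ := norm_le_norm_add_norm_sub _ _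
    have h3 := norm_le_norm_add_norm_sub' (Φ a y) (T a)
    have h4 := (T.le_opNorm a).trans (mul_le_mul_of_nonneg_right hTn (norm_nonneg a))
    rw [add_mul]
    linarith
  have h0 : ENNReal.ofReal ‖Φ 0 y‖ ≤
      ENNReal.ofReal ((Lam + Λ + ε) * √d) := by
    have e : eLpNorm (fun _ : Sp d => ‖Φ 0 y‖) 2 (gd d) = ENNReal.ofReal ‖Φ 0 y‖ := by
      rw [eLpNorm_const _ two_ne_zero (IsProbabilityMeasure.ne_zero _), measure_univ,
        ENNReal.one_rpow, mul_one, Real.enorm_eq_ofReal (norm_nonneg _)]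
    rw [← e]
    refine (eLpNorm_mono_real (g := fun a => ‖Φ a y - T a‖ + (Lam + Λ) * ‖a‖)
      fun a => by rw [norm_norm]; exact hl0 a).trans ?_
    refine (eLpNorm_add_le hD.norm.aestronglyMeasurable
      (continuous_norm.const_mul _).aestronglyMeasurable one_le_two).trans ?_
    rw [add_comm (Lam + Λ) ε, add_mul, ENNReal.ofReal_add (by positivity) (by positivity)]
    refine add_le_add ?_ ?_
    · rw [eLpNorm_norm, ← abs_of_nonneg (show 0 ≤ ε * √d by positivity),
        ← EmitBase.sq_err_iff]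
      exact hL2 y
    · rw [show (fun a : Sp d => (Lam + Λ) * ‖a‖) = (Lam + Λ) • fun a : Sp d => ‖a‖ from rfl,
        eLpNorm_const_smul, eLpNorm_norm, Real.enorm_eq_ofReal (by positivity),
        ENNReal.ofReal_mul (p := Lam + Λ) (by positivity)]
      exact mul_le_mul' le_rfl EmitBase.eLpNorm_id_gd_le
  have h5 := (ENNReal.ofReal_le_ofReal_iff (by positivity)).1 h0
  have h6 := norm_le_norm_add_norm_sub' (Φ g y) (Φ 0 y)
  have h7 := hl g 0 y
  rw [sub_zero] at h7
  have : 0 ≤ (Lam + ε) * ‖g‖ := by positivity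
  linarith

end Vale.Agent.P347.Shift.Level
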