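import Vale.Agent.P347.Shift.Level.Defs
import Vale.Agent.P347.Shift.NormalForm

/-!
# P347: sizes of the expressions of one level

The invariant, linear parts, size, depth, filling and number of constructors of `surr`, `res`,
`tgt` at normalised bodies and of the Picard increments `inc`. The constants depend on the bound
`B₀`, the number of nodes and the round only.
-/

open MeasureTheory ProbabilityTheory Real

namespace Vale.Agent.P347.Shift.Level

open Quarter Vale.Agent.P347.Shift.Expr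

variable {κ : Type} {J v m N : ℕ}

/-- The standing hypotheses of a level: `f₀` the body, `h₀` its product, `g`, `b` the units of the
two blocks. -/
structure Hyp (η L : ℝ) (sc : κ → ℝ) (B₀ R w w' g b : ℝ) (f₀ : Expr κ (J + 1) (v + 1))
    (h₀ : Expr κ (J + 1) (v + 2)) (P : Par N) : Prop where
  hη : 0 < η
  hη1 : η ≤ 1
  hL : 0 ≤ L
  hsc : ∀ k, 0 ≤ sc k
  hB : 1 ≤ B₀
  hR : 1 ≤ R
  hf : f₀.Good η L sc B₀ R w
  hh : h₀.Good η L sc B₀ R w'
  hw : w' ≤ w
  haff : h₀.aff = Fin.cons (f₀.aff 0) 0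
  hω : ∑ j, |P.ω j| ≤ B₀
  hpt : ∀ j, |P.pt j| ≤ 2
  hns : ∀ j, |P.ns j| ≤ 2
  hfine : |P.fine| ≤ 1
  hfull : |P.full| ≤ 1
  hay : |P.ay| * (h₀.sm L sc + |f₀.aff 0|) ≤ g
  hag : |P.ag| * (f₀.sm L sc + |f₀.aff 0|) ≤ b
  hg1 : g ≤ 1
  hb1 : b ≤ 1
  hsmall : R * (g + b) ≤ η ^ w'

/-- The bounds of a pair of expressions at the constant `C`. -/
structure Bd (η L : ℝ) (sc : κ → ℝ) (C R w' : ℝ) (u₁ u₂ : ℝ)
    (e₁ e₂ : Expr κ J m) : Prop where
  good₁ : e₁.Good η L sc C (C * R) w'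
  good₂ : e₂.Good η L sc C (C * R) w'
  row₁ : ∑ i, |e₁.aff i| ≤ C * u₁
  row₂ : ∑ i, |e₂.aff i| ≤ C * u₂
  sm₁ : e₁.sm L sc ≤ C * u₁
  sm₂ : e₂.sm L sc ≤ C * u₂

variable {η L R w w' g b B₀ C C' : ℝ} {sc : κ → ℝ} {f₀ : Expr κ (J + 1) (v + 1)}
  {h₀ : Expr κ (J + 1) (v + 2)} {P : Par N}

lemma Hyp.g_nonneg (H : Hyp η L sc B₀ R w w' g b f₀ h₀ P) : 0 ≤ g :=
  (mul_nonneg (abs_nonneg _) (add_nonneg (Expr.sm_nonneg H.hL H.hsc _) (abs_nonneg _))).trans
    H.hay

lemma Hyp.b_nonneg (H : Hyp η L sc B₀ R w w' g b f₀ h₀ P) : 0 ≤ b :=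
  (mul_nonneg (abs_nonneg _) (add_nonneg (Expr.sm_nonneg H.hL H.hsc _) (abs_nonneg _))).trans
    H.hag

/-- The constant after one substitution at points of constant `C`. -/
def step (B₀ C : ℝ) : ℝ := (12 + 8 * C) * B₀ + 8 * C * B₀ ^ 2

lemma le_step (hB : 1 ≤ B₀) (hC : 0 ≤ C) : C ≤ step B₀ C ∧ B₀ ≤ step B₀ C ∧ 1 ≤ step B₀ C := by
  unfold step
  refine ⟨?_, ?_, ?_⟩ <;> nlinarith [mul_le_mul_of_nonneg_left hB hC, sq_nonneg B₀,
    mul_nonneg hC (sq_nonneg B₀)]

/-- The Lipschitz constant of a normal form in one variable. -/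
lemma lip_nrm_le {n : ℕ} (hL : 0 ≤ L) (hB : 1 ≤ B₀) (e : Expr κ J n)
    (h : e.Good η L sc B₀ R w) (i : Fin n) :
    e.nrm.lip (fun _ => L) i ≤ |e.aff i| + B₀ * e.sm L sc := by
  simp only [Expr.nrm, Expr.lip_add, Expr.lip_linE, id_eq, Finset.sum_ite_eq', Finset.mem_univ,
    if_true]
  exact add_le_add le_rfl ((Finset.single_le_sum
    (fun j _ => e.nl.lip_nonneg (fun _ => hL) j) (Finset.mem_univ i)).trans
    (e.sum_lip_nl_le hL hB h))

/-- The invariant after substituting points of constant `C` into a normalised body. -/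
lemma good_body (H : Hyp η L sc B₀ R w w' g b f₀ h₀ P) (hC : 1 ≤ C) {n : ℕ}
    (e : Expr κ (J + 1) n) (he : e.Good η L sc B₀ R w') (s : Fin n → Expr κ (J + 1) m)
    (hrow : ∀ j, ∑ i, |(s j).aff i| ≤ 6 + 4 * C) (hs : ∀ j, (s j).sm L sc ≤ 2 * C * (g + b))
    (hg : ∀ j, (s j).Good η L sc C (C * R) w') :
    (e.nrm.subst s).Good η L sc (step B₀ C) (step B₀ C * R) w' := by
  have hC0 : 0 ≤ C := zero_le_one.trans hC
  have hR0 : 0 ≤ R := zero_le_one.trans H.hR
  have hgb : 0 ≤ g + b := add_nonneg H.g_nonneg H.b_nonneg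
  have hw0 : 0 ≤ η ^ w' := Real.rpow_nonneg H.hη.le _
  have hB0 : 0 ≤ B₀ := zero_le_one.trans H.hB
  obtain ⟨hCs, hBs, -⟩ := le_step H.hB hC0
  have h1 : 6 + 4 * C ≤ step B₀ C := by
    unfold step; nlinarith [mul_le_mul_of_nonneg_left H.hB hC0, H.hB, sq_nonneg B₀]
  refine e.good_subst_nrm H.hL H.hsc H.hB hBs (a := 6 + 4 * C) (δ := 2 * C * (g + b))
    (by linarith) (mul_nonneg (by positivity) hgb) ?_ (mul_le_mul_of_nonneg_right h1 hR0) ?_ he s hrow hs
    fun j => (hg j).mono H.hη H.hη1 hC0 hCs (mul_le_mul_of_nonneg_right hCs hR0) le_rfl H.hsc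
  · unfold step; nlinarith [mul_nonneg hC0 (sq_nonneg B₀), H.hB, hC0]
  · have hgb2 : g + b ≤ 2 := by linarith [H.hg1, H.hb1]
    have h2 := mul_le_mul_of_nonneg_left H.hsmall (by positivity : (0 : ℝ) ≤ 2 * C)
    have h3 := mul_le_mul_of_nonneg_left hgb2
      (by positivity : (0 : ℝ) ≤ B₀ * (B₀ * η ^ w') * (2 * C))
    have hC2 : 2 * C ≤ 4 * C * B₀ := by nlinarith [mul_le_mul_of_nonneg_left H.hB hC0]
    have hBB : B₀ ≤ 12 * B₀ := by linarith [H.hB]
    have h4 : (B₀ + 2 * C + 4 * C * B₀ ^ 2) * η ^ w' ≤ step B₀ C * η ^ w' :=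
      mul_le_mul_of_nonneg_right (by
        unfold step; nlinarith [mul_nonneg hC0 (sq_nonneg B₀), hC2, hBB, H.hB]) hw0
    linarith

/-! ### The three means -/

/-- The points of the surrogate. -/
def surrSub (P : Par N) (p q : Expr κ (J + 1) m) (x : Fin v → Fin m) (j : Fin N) :
    Fin (v + 2) → Expr κ (J + 1) (m + 1) :=
  Fin.cons (q.ren Fin.succ)
    (Fin.cons (.add (.smul (P.pt j) (p.ren Fin.succ)) (.smul (P.ns j) (.var 0)))
      fun i => .var (x i).succ)

/-- The points of a smoothing. -/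
def resSub (r : ℝ) (p : Expr κ (J + 1) m) (x : Fin v → Fin m) :
    Fin (v + 1) → Expr κ (J + 1) (m + 1) :=
  Fin.cons (.add (p.ren Fin.succ) (.smul r (.var 0))) fun i => .var (x i).succ

lemma sum_abs_aff_var {n : ℕ} (j : Fin n) :
    ∑ i, |(Expr.var j : Expr κ J n).aff i| = 1 := by
  simp [Expr.aff, apply_ite abs]

lemma sum_abs_aff_add_smul_var {n : ℕ} (t s : ℝ) (p : Expr κ J n) :
    ∑ i, |(Expr.add (.smul t (p.ren Fin.succ)) (.smul s (.var 0))).aff i| ≤
      |t| * ∑ i, |p.aff i| + |s| := by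
  simp only [Expr.aff]
  refine (Finset.sum_le_sum fun i _ => abs_add_le _ _).trans ?_
  simp only [abs_mul, Finset.sum_add_distrib, ← Finset.mul_sum]
  refine add_le_add (mul_le_mul_of_nonneg_left (p.sum_abs_aff_ren _) (abs_nonneg t)) ?_
  simp [apply_ite abs]

/-- The surrogate at points of constant `C`. -/
lemma surr_bounds (H : Hyp η L sc B₀ R w w' g b f₀ h₀ P) (hC : 1 ≤ C)
    (p q : Expr κ (J + 1) m) (x : Fin v → Fin m)
    (hpg : p.Good η L sc C (C * R) w') (hqg : q.Good η L sc C (C * R) w')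
    (hpr : ∑ i, |p.aff i| ≤ 1 + 2 * C) (hqr : ∑ i, |q.aff i| ≤ 1 + 2 * C)
    (hps : p.sm L sc ≤ C * (g + b)) (hqs : q.sm L sc ≤ C * (g + b)) :
    (surr h₀.nrm P p q x).Good η L sc (step B₀ C) (step B₀ C * R) w' ∧
      ∑ i, |(surr h₀.nrm P p q x).aff i| ≤ 32 * B₀ ^ 2 * C * (h₀.sm L sc + |f₀.aff 0|) ∧
      (surr h₀.nrm P p q x).sm L sc ≤ 32 * B₀ ^ 2 * C * (h₀.sm L sc + |f₀.aff 0|) := by
  have hC0 : 0 ≤ C := zero_le_one.trans hC
  have hgb : 0 ≤ g + b := add_nonneg H.g_nonneg H.b_nonneg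
  have hsm0 : 0 ≤ h₀.sm L sc := Expr.sm_nonneg H.hL H.hsc _
  have hB0 : 0 ≤ B₀ := zero_le_one.trans H.hB
  set U := h₀.sm L sc + |f₀.aff 0| with hU
  have hU0 : 0 ≤ U := add_nonneg hsm0 (abs_nonneg _)
  have hrow : ∀ j k, ∑ i, |(surrSub P p q x j k).aff i| ≤ 6 + 4 * C := fun j k => by
    refine Fin.cases ?_ (fun k => Fin.cases ?_ (fun k => ?_) k) k
    · simp only [surrSub, Fin.cons_zero]
      exact (q.sum_abs_aff_ren _).trans (by linarith)
    · simp only [surrSub, Fin.cons_succ, Fin.cons_zero]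
      refine (sum_abs_aff_add_smul_var _ _ p).trans ?_
      have := mul_le_mul (H.hpt j) hpr (Finset.sum_nonneg fun _ _ => abs_nonneg _) zero_le_two
      linarith [H.hns j]
    · simp only [surrSub, Fin.cons_succ]
      exact (sum_abs_aff_var _).le.trans (by linarith)
  have hsm : ∀ j k, (surrSub P p q x j k).sm L sc ≤ 2 * C * (g + b) := fun j k => by
    refine Fin.cases ?_ (fun k => Fin.cases ?_ (fun k => ?_) k) k
    · simp only [surrSub, Fin.cons_zero, Expr.sm_ren]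
      nlinarith
    · simp only [surrSub, Fin.cons_succ, Fin.cons_zero, Expr.sm, Expr.sm_ren, mul_zero, add_zero]
      have := mul_le_mul (H.hpt j) hps (Expr.sm_nonneg H.hL H.hsc _) zero_le_two
      linarith
    · simp only [surrSub, Fin.cons_succ, Expr.sm]
      positivity
  have hgood : ∀ j k, (surrSub P p q x j k).Good η L sc C (C * R) w' := fun j k => by
    refine Fin.cases ?_ (fun k => Fin.cases ?_ (fun k => ?_) k) k
    · simpa [surrSub] using Expr.good_ren Fin.succ hqg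
    · simpa [surrSub, Expr.Good] using Expr.good_ren Fin.succ hpg
    · simp [surrSub, Expr.Good]
  have hbody := fun j => good_body H hC h₀ H.hh (surrSub P p q x j) (hrow j) (hsm j) (hgood j)
  have haf : ∀ j i, (h₀.nrm.subst (surrSub P p q x j)).aff i =
      f₀.aff 0 * (q.ren Fin.succ).aff i := fun j i => by
    rw [Expr.aff_subst, Fin.sum_univ_succ]
    simp [Expr.aff_nrm, H.haff, surrSub]
  have haff0 : ∀ j, (h₀.nrm.subst (surrSub P p q x j)).aff 0 = 0 := fun j => by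
    rw [haf, Expr.aff_ren]
    simp [Fin.succ_ne_zero]
  have haffs : ∀ j i, (h₀.nrm.subst (surrSub P p q x j)).aff (Fin.succ i) =
      f₀.aff 0 * q.aff i := fun j i => by
    rw [haf, Expr.aff_ren]
    simp
  have hlip : ∑ k, h₀.nrm.lip (fun _ => L) k ≤ (1 + B₀) * U := by
    refine (h₀.sum_lip_nrm_le H.hL H.hB H.hh).trans ?_
    have : ∑ i, |h₀.aff i| = |f₀.aff 0| := by
      rw [Fin.sum_univ_succ]
      simp [H.haff]
    rw [this, hU]
    nlinarith [mul_nonneg hB0 (abs_nonneg (f₀.aff 0))]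
  have hbsm : ∀ j, (h₀.nrm.subst (surrSub P p q x j)).sm L sc ≤ 10 * B₀ * C * U := fun j => by
    refine (h₀.nrm.sm_subst H.hL _).trans ?_
    rw [Expr.sm_nrm]
    have h1 : ∑ k, h₀.nrm.lip (fun _ => L) k * (surrSub P p q x j k).sm L sc ≤
        (1 + B₀) * U * (2 * C * (g + b)) := by
      refine (Finset.sum_le_sum fun k _ => mul_le_mul_of_nonneg_left (hsm j k)
        (h₀.nrm.lip_nonneg (fun _ => H.hL) k)).trans ?_
      rw [← Finset.sum_mul]
      exact mul_le_mul_of_nonneg_right hlip (by positivity)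
    have h2 : (1 + B₀) * U * (2 * C * (g + b)) ≤ 8 * B₀ * C * U := by
      nlinarith [mul_le_mul_of_nonneg_left (show g + b ≤ 2 by linarith [H.hg1, H.hb1])
        (by positivity : 0 ≤ (1 + B₀) * U * (2 * C)),
        mul_le_mul_of_nonneg_right H.hB (by positivity : 0 ≤ U * C)]
    have h3 : h₀.sm L sc ≤ 2 * B₀ * C * U := by
      nlinarith [mul_le_mul_of_nonneg_right (one_le_mul_of_one_le_of_one_le H.hB hC) hU0,
        abs_nonneg (f₀.aff 0)]
    linarith
  refine ⟨Expr.good_esum fun j => hbody j, ?_, ?_⟩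
  · calc ∑ i, |(surr h₀.nrm P p q x).aff i|
        ≤ ∑ i, ∑ j, |P.ω j| * (|f₀.aff 0| * |q.aff i|) := by
          refine Finset.sum_le_sum fun i _ => ?_
          simp only [surr, Expr.aff_esum, Expr.aff]
          refine (Finset.abs_sum_le_sum_abs _ _).trans_eq (Finset.sum_congr rfl fun j _ => ?_)
          change |P.ω j * (h₀.nrm.subst (surrSub P p q x j)).aff i.succ| = _
          rw [abs_mul, haffs, abs_mul]
      _ = (∑ j, |P.ω j|) * (|f₀.aff 0| * ∑ i, |q.aff i|) := by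
          rw [Finset.sum_comm, Finset.sum_mul]
          exact Finset.sum_congr rfl fun j _ => by rw [Finset.mul_sum, Finset.mul_sum]
      _ ≤ B₀ * (U * (1 + 2 * C)) := by
          refine mul_le_mul H.hω (mul_le_mul (by linarith) hqr
            (Finset.sum_nonneg fun _ _ => abs_nonneg _) hU0) (by positivity) hB0
      _ ≤ _ := by
          nlinarith [mul_le_mul_of_nonneg_left (show 1 + 2 * C ≤ 3 * C by linarith)
            (mul_nonneg hB0 hU0), mul_le_mul_of_nonneg_right H.hB (by positivity : 0 ≤ B₀ * C * U)]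
  · simp only [surr, Expr.sm_esum, Expr.sm]
    refine (Finset.sum_le_sum (g := fun j => |P.ω j| * (10 * B₀ * C * U)) fun j _ =>
      mul_le_mul_of_nonneg_left ?_ (abs_nonneg _)).trans ?_
    · change (h₀.nrm.subst (surrSub P p q x j)).sm L sc +
        |(h₀.nrm.subst (surrSub P p q x j)).aff 0| ≤ 10 * B₀ * C * U
      rw [haff0, abs_zero, add_zero]
      exact hbsm j
    · rw [← Finset.sum_mul]
      nlinarith [mul_le_mul_of_nonneg_right H.hω (by positivity : 0 ≤ 10 * B₀ * C * U),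
        (by positivity : 0 ≤ B₀ ^ 2 * C * U)]

/-- A smoothing at a point of constant `C`. -/
lemma res_bounds (H : Hyp η L sc B₀ R w w' g b f₀ h₀ P) (hC : 1 ≤ C) {r : ℝ} (hr : |r| ≤ 1)
    (p : Expr κ (J + 1) m) (x : Fin v → Fin m) (hpg : p.Good η L sc C (C * R) w')
    (hpr : ∑ i, |p.aff i| ≤ 1 + 2 * C) (hps : p.sm L sc ≤ C * (g + b)) :
    (res f₀.nrm r p x).Good η L sc (step B₀ C) (step B₀ C * R) w' ∧
      (res f₀.nrm r p x).sm L sc ≤ 16 * B₀ * C * (f₀.sm L sc + |f₀.aff 0|) ∧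
      ∀ i, (res f₀.nrm r p x).aff i =
        f₀.aff 0 * p.aff i + ∑ k : Fin v, f₀.aff k.succ * (Expr.var (x k) : Expr κ (J + 1) m).aff i := by
  have hC0 : 0 ≤ C := zero_le_one.trans hC
  have hgb : 0 ≤ g + b := add_nonneg H.g_nonneg H.b_nonneg
  have hB0 : 0 ≤ B₀ := zero_le_one.trans H.hB
  set U := f₀.sm L sc + |f₀.aff 0| with hU
  have hsm0 : 0 ≤ f₀.sm L sc := Expr.sm_nonneg H.hL H.hsc _
  have hU0 : 0 ≤ U := add_nonneg hsm0 (abs_nonneg _)
  have hf' : f₀.Good η L sc B₀ R w' := H.hf.mono H.hη H.hη1 hB0 le_rfl le_rfl H.hw H.hsc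
  have hrow : ∀ k, ∑ i, |(resSub r p x k).aff i| ≤ 6 + 4 * C := fun k => by
    refine Fin.cases ?_ (fun k => ?_) k
    · simp only [resSub, Fin.cons_zero, Expr.aff]
      refine (Finset.sum_le_sum fun i _ => abs_add_le _ _).trans ?_
      simp only [Finset.sum_add_distrib, abs_mul, ← Finset.mul_sum]
      have h1 := p.sum_abs_aff_ren (Fin.succ)
      have h2 : ∑ i : Fin (m + 1), |(if (0 : Fin (m + 1)) = i then (1 : ℝ) else 0)| = 1 := by
        simp [apply_ite abs]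
      rw [h2]
      linarith
    · simp only [resSub, Fin.cons_succ]
      exact (sum_abs_aff_var _).le.trans (by linarith)
  have hsm : ∀ k, (resSub r p x k).sm L sc ≤ 2 * C * (g + b) := fun k => by
    refine Fin.cases ?_ (fun k => ?_) k
    · simp only [resSub, Fin.cons_zero, Expr.sm, Expr.sm_ren, mul_zero, add_zero]
      nlinarith
    · simp only [resSub, Fin.cons_succ, Expr.sm]
      positivity
  have hgood : ∀ k, (resSub r p x k).Good η L sc C (C * R) w' := fun k => by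
    refine Fin.cases ?_ (fun k => ?_) k
    · simpa [resSub, Expr.Good] using Expr.good_ren Fin.succ hpg
    · simp [resSub, Expr.Good]
  have hbody := good_body H hC f₀ hf' (resSub r p x) hrow hsm hgood
  have hbsm : (f₀.nrm.subst (resSub r p x)).sm L sc ≤ 10 * B₀ * C * U := by
    refine (f₀.nrm.sm_subst H.hL _).trans ?_
    rw [Expr.sm_nrm, Fin.sum_univ_succ]
    have h0 : ∑ k : Fin v, f₀.nrm.lip (fun _ => L) k.succ * (resSub r p x k.succ).sm L sc = 0 :=
      Finset.sum_eq_zero fun k _ => by simp [resSub, Expr.sm]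
    rw [h0, add_zero]
    have h1 : f₀.nrm.lip (fun _ => L) 0 * (resSub r p x 0).sm L sc ≤
        (1 + B₀) * U * (2 * C * (g + b)) := by
      refine mul_le_mul ((lip_nrm_le H.hL H.hB f₀ H.hf 0).trans ?_) (hsm 0)
        (Expr.sm_nonneg H.hL H.hsc _) (by positivity)
      nlinarith [mul_nonneg hB0 (abs_nonneg (f₀.aff 0))]
    have h2 : (1 + B₀) * U * (2 * C * (g + b)) ≤ 8 * B₀ * C * U := by
      nlinarith [mul_le_mul_of_nonneg_left (show g + b ≤ 2 by linarith [H.hg1, H.hb1])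
        (by positivity : 0 ≤ (1 + B₀) * U * (2 * C)),
        mul_le_mul_of_nonneg_right H.hB (by positivity : 0 ≤ U * C)]
    have h3 : f₀.sm L sc ≤ 2 * B₀ * C * U := by
      nlinarith [mul_le_mul_of_nonneg_right (one_le_mul_of_one_le_of_one_le H.hB hC) hU0,
        abs_nonneg (f₀.aff 0)]
    linarith
  have haf : ∀ i, (f₀.nrm.subst (resSub r p x)).aff i = f₀.aff 0 *
      ((p.ren Fin.succ).aff i + r * (if (0 : Fin (m + 1)) = i then 1 else 0)) +
      ∑ k : Fin v, f₀.aff k.succ *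
        (Expr.var (x k).succ : Expr κ (J + 1) (m + 1)).aff i := fun i => by
    rw [Expr.aff_subst, Fin.sum_univ_succ]
    simp [Expr.aff_nrm, resSub, Expr.aff]
  have haf0 : |(f₀.nrm.subst (resSub r p x)).aff 0| ≤ |f₀.aff 0| := by
    rw [haf, Expr.aff_ren]
    simp [Fin.succ_ne_zero, Expr.aff, abs_mul]
    exact mul_le_of_le_one_right (abs_nonneg _) hr
  refine ⟨hbody, ?_, fun i => ?_⟩
  · simp only [res, atPt, Expr.sm]
    rw [show (Fin.cons (Expr.add (p.ren Fin.succ) (.smul r (.var 0)))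
      fun i => Expr.var ((Fin.succ ∘ x) i)) = resSub r p x from rfl]
    have : |f₀.aff 0| ≤ 6 * B₀ * C * U := by
      nlinarith [mul_le_mul_of_nonneg_right (one_le_mul_of_one_le_of_one_le H.hB hC) hU0]
    linarith
  · simp only [res, atPt, Expr.aff]
    rw [show (Fin.cons (Expr.add (p.ren Fin.succ) (.smul r (.var 0)))
      fun i => Expr.var ((Fin.succ ∘ x) i)) = resSub r p x from rfl, haf, Expr.aff_ren]
    simp [Expr.aff, (Fin.succ_ne_zero i).symm]

/-- The mean of the body around the last centre. -/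
lemma tgt_bounds (H : Hyp η L sc B₀ R w w' g b f₀ h₀ P) (x : Fin v → Fin m) :
    (tgt f₀.nrm P.full x).Good η L sc (step B₀ 1) (step B₀ 1 * R) w' ∧
      (tgt f₀.nrm P.full x).sm L sc ≤ f₀.sm L sc + |f₀.aff 0| ∧
      ∀ i, (tgt f₀.nrm P.full x).aff i =
        ∑ k : Fin v, f₀.aff k.succ * (Expr.var (x k) : Expr κ (J + 1) m).aff i := by
  set s : Fin (v + 1) → Expr κ (J + 1) (m + 1) :=
    Fin.cons (.smul P.full (.var 0)) fun i => .var (x i).succ with hs
  have hB0 : 0 ≤ B₀ := zero_le_one.trans H.hB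
  have hgb : 0 ≤ g + b := add_nonneg H.g_nonneg H.b_nonneg
  have hf' : f₀.Good η L sc B₀ R w' := H.hf.mono H.hη H.hη1 hB0 le_rfl le_rfl H.hw H.hsc
  have hsm : ∀ k, (s k).sm L sc = 0 := fun k => by
    refine Fin.cases ?_ (fun k => ?_) k <;> simp [hs, Expr.sm]
  have hrow : ∀ k, ∑ i, |(s k).aff i| ≤ 6 + 4 * (1 : ℝ) := fun k => by
    refine Fin.cases ?_ (fun k => ?_) k
    · simp only [hs, Fin.cons_zero, Expr.aff, abs_mul, ← Finset.mul_sum]
      simp [apply_ite abs]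
      linarith [H.hfull]
    · simp only [hs, Fin.cons_succ]
      exact (sum_abs_aff_var _).le.trans (by norm_num)
  have hgood : ∀ k, (s k).Good η L sc 1 (1 * R) w' := fun k => by
    refine Fin.cases ?_ (fun k => ?_) k <;> simp [hs, Expr.Good]
  have hbody := good_body H le_rfl f₀ hf' s hrow
    (fun k => by rw [hsm k]; positivity) hgood
  have haf : ∀ i, (f₀.nrm.subst s).aff i = f₀.aff 0 * (P.full * if (0 : Fin (m + 1)) = i then 1
      else 0) + ∑ k : Fin v, f₀.aff k.succ *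
        (Expr.var (x k).succ : Expr κ (J + 1) (m + 1)).aff i := fun i => by
    rw [Expr.aff_subst, Fin.sum_univ_succ]
    simp [Expr.aff_nrm, hs, Expr.aff]
  refine ⟨hbody, ?_, fun i => ?_⟩
  · simp only [tgt, atPt, Expr.sm]
    rw [show (Fin.cons (Expr.smul P.full (.var 0)) fun i => Expr.var ((Fin.succ ∘ x) i)) = s from rfl]
    refine add_le_add ((f₀.nrm.sm_subst H.hL s).trans ?_) ?_
    · simp [hsm, Expr.sm_nrm]
    · rw [haf]
      simp [Expr.aff, Fin.succ_ne_zero, abs_mul]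
      exact mul_le_of_le_one_right (abs_nonneg _) H.hfull
  · simp only [tgt, atPt, Expr.aff]
    rw [show (Fin.cons (Expr.smul P.full (.var 0)) fun i => Expr.var ((Fin.succ ∘ x) i)) = s from rfl,
      haf]
    simp [Expr.aff, (Fin.succ_ne_zero i).symm]

/-! ### The increments -/

/-- The total weight of the rule of the rounds. -/
noncomputable def lam (r : ℕ) : ℝ :=
  ∑ i : Fin (r + 1), ∑ j : Fin (r + 1), |FlowStep.colw r (Quad.node (r + 1) i) j|

lemma lam_nonneg (r : ℕ) : 0 ≤ lam r :=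
  Finset.sum_nonneg fun _ _ => Finset.sum_nonneg fun _ _ => abs_nonneg _

lemma sum_colw_le (r : ℕ) (i : Fin (r + 1)) :
    ∑ j, |FlowStep.colw r (Quad.node (r + 1) i) j| ≤ lam r :=
  Finset.single_le_sum (f := fun i => ∑ j, |FlowStep.colw r (Quad.node (r + 1) i) j|)
    (fun _ _ => Finset.sum_nonneg fun _ _ => abs_nonneg _) (Finset.mem_univ i)

/-- The constant after `k` rounds. -/
noncomputable def cst (B₀ : ℝ) (r : ℕ) : ℕ → ℝ
  | 0 => 1
  | k + 1 => step B₀ (cst B₀ r k) + 32 * B₀ ^ 2 * cst B₀ r k * (1 + lam r)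

lemma one_le_cst (hB : 1 ≤ B₀) (r : ℕ) : ∀ k, 1 ≤ cst B₀ r k
  | 0 => le_rfl
  | k + 1 => by
    have hC : 0 ≤ cst B₀ r k := zero_le_one.trans (one_le_cst hB r k)
    have := lam_nonneg r
    exact (le_step hB hC).2.2.trans (le_add_of_nonneg_right (by positivity))

lemma cst_le_succ (hB : 1 ≤ B₀) (r k : ℕ) :
    cst B₀ r k ≤ cst B₀ r (k + 1) ∧ step B₀ (cst B₀ r k) ≤ cst B₀ r (k + 1) ∧
      step B₀ 1 ≤ cst B₀ r (k + 1) ∧
      32 * B₀ ^ 2 * cst B₀ r k ≤ cst B₀ r (k + 1) ∧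
      32 * B₀ ^ 2 * cst B₀ r k * lam r ≤ cst B₀ r (k + 1) := by
  have hC := one_le_cst hB r k
  have hl := lam_nonneg r
  have hs := le_step hB (zero_le_one.trans hC)
  have h2 : (0 : ℝ) ≤ 32 * B₀ ^ 2 * cst B₀ r k := by positivity
  have h3 : 0 ≤ 32 * B₀ ^ 2 * cst B₀ r k * lam r := mul_nonneg h2 hl
  have h1 : step B₀ 1 ≤ step B₀ (cst B₀ r k) := by
    unfold step
    nlinarith [mul_nonneg (sub_nonneg.2 hC) (zero_le_one.trans hB),
      mul_nonneg (sub_nonneg.2 hC) (sq_nonneg B₀)]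
  simp only [cst, mul_add, mul_one]
  refine ⟨?_, ?_, ?_, ?_, ?_⟩ <;> linarith [hs.1, hs.2.2]

/-- The point of a node. -/
lemma point_spec {m : ℕ} {d : Expr κ J m} {u s : ℝ} (l : Fin m) (hC : 0 ≤ C)
    (hg : d.Good η L sc C R w) (hr : ∑ i, |d.aff i| ≤ C * u) (hu : u ≤ 1)
    (hs : d.sm L sc ≤ C * u) (hus : u ≤ s) :
    (Expr.add (.var l) d).Good η L sc C R w ∧
      ∑ i, |(Expr.add (.var l) d).aff i| ≤ 1 + 2 * C ∧
      (Expr.add (.var l) d).sm L sc ≤ C * s := by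
  refine ⟨⟨trivial, hg⟩, ?_, ?_⟩
  · refine (Finset.sum_le_sum fun i _ => abs_add_le _ _).trans ?_
    rw [Finset.sum_add_distrib, sum_abs_aff_var]
    have := mul_le_mul_of_nonneg_left hu hC
    linarith
  · simp only [Expr.sm, zero_add]
    exact hs.trans (mul_le_mul_of_nonneg_left hus hC)

/-- The increments keep their bounds. -/
theorem inc_bd (H : Hyp η L sc B₀ R w w' g b f₀ h₀ P) (r : ℕ) :
    ∀ (k : ℕ) (i : Fin (r + 1)), Bd η L sc (cst B₀ r k) R w' g b
      (inc f₀.nrm h₀.nrm P r k i).1 (inc f₀.nrm h₀.nrm P r k i).2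
  | 0, i => by
    simp only [cst, inc]
    refine ⟨trivial, trivial, ?_, ?_, ?_, ?_⟩ <;>
      simp [Expr.aff, Expr.sm, H.g_nonneg, H.b_nonneg]
  | k + 1, i => by
    obtain ⟨hle, hst, hst1, -, hlam⟩ := cst_le_succ H.hB r k
    have hC1 := one_le_cst H.hB r k
    set C := cst B₀ r k with hCdef
    set C' := cst B₀ r (k + 1) with hC'def
    have hC0 : 0 ≤ C := zero_le_one.trans hC1
    have hB0 : 0 ≤ B₀ := zero_le_one.trans H.hB
    have hR0 : 0 ≤ R := zero_le_one.trans H.hR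
    have hl := lam_nonneg r
    have ih := inc_bd H r k
    have hsgb : g ≤ g + b ∧ b ≤ g + b := ⟨by linarith [H.b_nonneg], by linarith [H.g_nonneg]⟩
    have hp := fun j => point_spec (0 : Fin (v + 2)) hC0 (ih j).good₁ (ih j).row₁ H.hg1 (ih j).sm₁
      hsgb.1
    have hq := fun j => point_spec (1 : Fin (v + 2)) hC0 (ih j).good₂ (ih j).row₂ H.hb1 (ih j).sm₂
      hsgb.2
    have hS := fun j => surr_bounds H hC1 _ _ (old v) (hp j).1 (hq j).1 (hp j).2.1 (hq j).2.1
      (hp j).2.2 (hq j).2.2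
    have hF := fun j => res_bounds H hC1 H.hfine _ (old v) (hp j).1 (hp j).2.1 (hp j).2.2
    have hT := tgt_bounds H (old v : Fin v → Fin (v + 2))
    have hs0 : 0 ≤ step B₀ C := hC0.trans (le_step H.hB hC0).1
    have hgd : ∀ {e : Expr κ (J + 1) (v + 2)}, e.Good η L sc (step B₀ C) (step B₀ C * R) w' →
        e.Good η L sc C' (C' * R) w' := fun h =>
      h.mono H.hη H.hη1 hs0 hst (mul_le_mul_of_nonneg_right hst hR0) le_rfl H.hsc
    have hgt : (tgt f₀.nrm P.full (old v)).Good η L sc C' (C' * R) w' :=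
      hT.1.mono H.hη H.hη1 (zero_le_one.trans (le_step H.hB zero_le_one).2.2) hst1
        (mul_le_mul_of_nonneg_right hst1 hR0) le_rfl H.hsc
    have haffd : ∀ j l, (Expr.add (res f₀.nrm P.fine (.add (.var 0) (inc f₀.nrm h₀.nrm P r k j).1)
        (old v)) (.smul (-1) (tgt f₀.nrm P.full (old v)))).aff l =
        f₀.aff 0 * (Expr.add (.var 0) (inc f₀.nrm h₀.nrm P r k j).1).aff l := fun j l => by
      simp only [Expr.aff]
      rw [(hF j).2.2 l, hT.2.2 l]
      simp [Expr.aff]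
    set Uh := h₀.sm L sc + |f₀.aff 0| with hUh
    set Uf := f₀.sm L sc + |f₀.aff 0| with hUf
    have hUh0 : 0 ≤ Uh := add_nonneg (Expr.sm_nonneg H.hL H.hsc _) (abs_nonneg _)
    have hUf0 : 0 ≤ Uf := add_nonneg (Expr.sm_nonneg H.hL H.hsc _) (abs_nonneg _)
    have hX : 32 * B₀ ^ 2 * C * lam r ≤ C' := hlam
    -- sums over the nodes
    have hsum : ∀ {a c t u : ℝ} {z : Fin (r + 1) → ℝ}, (∀ j, z j ≤ a * t) → 0 ≤ a → 0 ≤ t →
        |c| * t ≤ u → a * lam r ≤ C' → 0 ≤ u →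
        |c| * ∑ j, |FlowStep.colw r (Quad.node (r + 1) i) j| * z j ≤ C' * u := by
      intro a c t u z hz ha ht hct haC hu
      calc |c| * ∑ j, |FlowStep.colw r (Quad.node (r + 1) i) j| * z j
          ≤ |c| * ∑ j, |FlowStep.colw r (Quad.node (r + 1) i) j| * (a * t) := by
            exact mul_le_mul_of_nonneg_left (Finset.sum_le_sum fun j _ =>
              mul_le_mul_of_nonneg_left (hz j) (abs_nonneg _)) (abs_nonneg _)
        _ ≤ |c| * (lam r * (a * t)) := by
            rw [← Finset.sum_mul]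
            exact mul_le_mul_of_nonneg_left (mul_le_mul_of_nonneg_right (sum_colw_le r i)
              (mul_nonneg ha ht)) (abs_nonneg _)
        _ = |c| * t * (a * lam r) := by ring
        _ ≤ u * C' := mul_le_mul hct haC (mul_nonneg ha hl) hu
        _ = C' * u := mul_comm _ _
    have habs : ∀ {c : ℝ} {e : Fin (r + 1) → Expr κ (J + 1) (v + 2)},
        ∑ l, |(Expr.smul c (Expr.esum fun j =>
          .smul (FlowStep.colw r (Quad.node (r + 1) i) j) (e j))).aff l| ≤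
        |c| * ∑ j, |FlowStep.colw r (Quad.node (r + 1) i) j| * ∑ l, |(e j).aff l| := by
      intro c e
      simp only [Expr.aff, Expr.aff_esum, abs_mul, ← Finset.mul_sum]
      refine mul_le_mul_of_nonneg_left ?_ (abs_nonneg _)
      refine (Finset.sum_le_sum fun l _ => Finset.abs_sum_le_sum_abs _ _).trans_eq ?_
      rw [Finset.sum_comm]
      simp only [abs_mul, Finset.mul_sum]
    refine ⟨Expr.good_esum fun j => hgd (hS j).1,
      Expr.good_esum fun j => ⟨hgd (hF j).1, hgt⟩, ?_, ?_, ?_, ?_⟩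
    · exact habs.trans (hsum (fun j => (hS j).2.1) (by positivity) hUh0 H.hay hX H.g_nonneg)
    · refine habs.trans (hsum (a := 3 * C) (t := Uf) (fun j => ?_) (by positivity) hUf0 H.hag ?_
        H.b_nonneg)
      · simp only [haffd, abs_mul, ← Finset.mul_sum]
        rw [mul_comm (3 * C)]
        exact mul_le_mul (by linarith [Expr.sm_nonneg H.hL H.hsc f₀]) ((hp j).2.1.trans (by linarith))
          (Finset.sum_nonneg fun _ _ => abs_nonneg _) hUf0
      · refine le_trans ?_ hX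
        exact mul_le_mul_of_nonneg_right (by nlinarith [one_le_pow₀ (n := 2) H.hB]) hl
    · simp only [inc, Expr.sm, Expr.sm_esum]
      exact hsum (fun j => (hS j).2.2) (by positivity) hUh0 H.hay hX H.g_nonneg
    · simp only [inc, Expr.sm, Expr.sm_esum, abs_neg, abs_one, one_mul]
      refine hsum (a := 17 * B₀ * C) (t := Uf) (fun j => ?_) (by positivity) hUf0 H.hag ?_
        H.b_nonneg
      · have h1 : Uf ≤ B₀ * C * Uf :=
          le_mul_of_one_le_left hUf0 (one_le_mul_of_one_le_of_one_le H.hB hC1)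
        linarith [(hF j).2.1, hT.2.1]
      · refine le_trans ?_ hX
        refine mul_le_mul_of_nonneg_right ?_ hl
        nlinarith [mul_le_mul_of_nonneg_right H.hB (mul_nonneg hB0 hC0)]

/-- The surrogate and the two smoothings at the points of a round. -/
theorem three_inc (H : Hyp η L sc B₀ R w w' g b f₀ h₀ P) (r k : ℕ) (j : Fin (r + 1)) :
    ((surr h₀.nrm P (.add (.var 0) (inc f₀.nrm h₀.nrm P r k j).1)
        (.add (.var 1) (inc f₀.nrm h₀.nrm P r k j).2) (old v)).Good η L sc (cst B₀ r (k + 1))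
        (cst B₀ r (k + 1) * R) w' ∧
      (surr h₀.nrm P (.add (.var 0) (inc f₀.nrm h₀.nrm P r k j).1)
        (.add (.var 1) (inc f₀.nrm h₀.nrm P r k j).2) (old v)).sm L sc ≤
        cst B₀ r (k + 1) * (h₀.sm L sc + |f₀.aff 0|)) ∧
    ((res f₀.nrm P.fine (.add (.var 0) (inc f₀.nrm h₀.nrm P r k j).1) (old v)).Good η L sc
        (cst B₀ r (k + 1)) (cst B₀ r (k + 1) * R) w' ∧
      (res f₀.nrm P.fine (.add (.var 0) (inc f₀.nrm h₀.nrm P r k j).1) (old v)).sm L sc ≤
        cst B₀ r (k + 1) * (f₀.sm L sc + |f₀.aff 0|)) ∧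
    ((tgt f₀.nrm P.full (old v : Fin v → Fin (v + 2))).Good η L sc (cst B₀ r (k + 1))
        (cst B₀ r (k + 1) * R) w' ∧
      (tgt f₀.nrm P.full (old v : Fin v → Fin (v + 2))).sm L sc ≤
        cst B₀ r (k + 1) * (f₀.sm L sc + |f₀.aff 0|)) := by
  obtain ⟨-, hst, hst1, h32, -⟩ := cst_le_succ H.hB r k
  have hC1 := one_le_cst H.hB r k
  have hC1' := one_le_cst H.hB r (k + 1)
  have hC0 : 0 ≤ cst B₀ r k := zero_le_one.trans hC1
  have hR0 : 0 ≤ R := zero_le_one.trans H.hR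
  have hB0 : 0 ≤ B₀ := zero_le_one.trans H.hB
  have hU₁ : 0 ≤ h₀.sm L sc + |f₀.aff 0| :=
    add_nonneg (Expr.sm_nonneg H.hL H.hsc _) (abs_nonneg _)
  have hU₂ : 0 ≤ f₀.sm L sc + |f₀.aff 0| :=
    add_nonneg (Expr.sm_nonneg H.hL H.hsc _) (abs_nonneg _)
  obtain ⟨hd₁, hd₂, hr₁, hr₂, hs₁, hs₂⟩ := inc_bd H r k j
  obtain ⟨hp₁, hp₂, hp₃⟩ := point_spec (0 : Fin (v + 2)) hC0 hd₁ hr₁ H.hg1 hs₁
    (le_add_of_nonneg_right H.b_nonneg)
  obtain ⟨hq₁, hq₂, hq₃⟩ := point_spec (1 : Fin (v + 2)) hC0 hd₂ hr₂ H.hb1 hs₂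
    (le_add_of_nonneg_left H.g_nonneg)
  have hS := surr_bounds H hC1 _ _ (old v) hp₁ hq₁ hp₂ hq₂ hp₃ hq₃
  have hF := res_bounds H hC1 H.hfine _ (old v) hp₁ hp₂ hp₃
  have hT := tgt_bounds H (old v : Fin v → Fin (v + 2))
  have hs0 : 0 ≤ step B₀ (cst B₀ r k) := hC0.trans (le_step H.hB hC0).1
  have h16 : 16 * B₀ * cst B₀ r k ≤ cst B₀ r (k + 1) :=
    le_trans (by nlinarith [mul_le_mul_of_nonneg_right H.hB (mul_nonneg hB0 hC0)]) h32
  exact ⟨⟨hS.1.mono H.hη H.hη1 hs0 hst (mul_le_mul_of_nonneg_right hst hR0) le_rfl H.hsc,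
      hS.2.2.trans (mul_le_mul_of_nonneg_right h32 hU₁)⟩,
    ⟨hF.1.mono H.hη H.hη1 hs0 hst (mul_le_mul_of_nonneg_right hst hR0) le_rfl H.hsc,
      hF.2.1.trans (mul_le_mul_of_nonneg_right h16 hU₂)⟩,
    ⟨hT.1.mono H.hη H.hη1 (zero_le_one.trans (le_step H.hB zero_le_one).2.2) hst1
        (mul_le_mul_of_nonneg_right hst1 hR0) le_rfl H.hsc,
      hT.2.1.trans (le_mul_of_one_le_left hU₂ hC1')⟩⟩

/-! ### Filling, depth and number of constructors -/

variable {D M : ℕ}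

lemma depth_surr_le (h : Expr κ (J + 1) (v + 2)) (P : Par N) (p q : Expr κ (J + 1) m)
    (x : Fin v → Fin m) (hp : p.depth ≤ D) (hq : q.depth ≤ D) :
    (surr h P p q x).depth ≤ h.depth + D + 1 := by
  refine Expr.depth_esum_le fun j => ?_
  simp only [Expr.depth]
  refine Nat.add_le_add_right (h.depth_subst_le _ fun k => ?_) 1
  refine Fin.cases ?_ (fun k => Fin.cases ?_ (fun k => ?_) k) k <;>
    simp [Expr.depth, Expr.depth_ren, hp, hq]

lemma depth_res_le (f : Expr κ J (v + 1)) (t : ℝ) (p : Expr κ J m) (x : Fin v → Fin m)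
    (hp : p.depth ≤ D) : (res f t p x).depth ≤ f.depth + D + 1 := by
  simp only [res, atPt, Expr.depth]
  refine Nat.add_le_add_right (f.depth_subst_le _ fun k => ?_) 1
  refine Fin.cases ?_ (fun k => ?_) k <;> simp [Expr.depth, Expr.depth_ren, hp]

lemma depth_tgt_le (f : Expr κ (J + 1) (v + 1)) (t : ℝ) (x : Fin v → Fin m) :
    (tgt f t x).depth ≤ f.depth + 1 := by
  simp only [tgt, atPt, Expr.depth]
  refine Nat.add_le_add_right ((f.depth_subst_le _ fun k => ?_).trans_eq (add_zero _)) 1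
  refine Fin.cases ?_ (fun k => ?_) k <;> simp [Expr.depth]

theorem depth_inc_le (f : Expr κ (J + 1) (v + 1)) (h : Expr κ (J + 1) (v + 2)) (P : Par N)
    (r : ℕ) : ∀ (k : ℕ) (i : Fin (r + 1)),
      (inc f h P r k i).1.depth ≤ k * (f.depth + h.depth + 1) ∧
        (inc f h P r k i).2.depth ≤ k * (f.depth + h.depth + 1)
  | 0, i => by simp [inc, Expr.depth]
  | k + 1, i => by
    have ih := depth_inc_le f h P r k
    have e : (k + 1) * (f.depth + h.depth + 1) =
        k * (f.depth + h.depth + 1) + (f.depth + h.depth + 1) := Nat.succ_mul _ _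
    refine ⟨Expr.depth_esum_le fun j => ?_, Expr.depth_esum_le fun j => ?_⟩
    · have := depth_surr_le h P (.add (.var 0) (inc f h P r k j).1)
        (.add (.var 1) (inc f h P r k j).2) (old v) (D := k * (f.depth + h.depth + 1))
        (by simpa [Expr.depth] using (ih j).1) (by simpa [Expr.depth] using (ih j).2)
      simp only [Expr.depth]
      omega
    · have := depth_res_le f P.fine (.add (.var 0) (inc f h P r k j).1) (old v)
        (D := k * (f.depth + h.depth + 1)) (by simpa [Expr.depth] using (ih j).1)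
      have := depth_tgt_le f P.full (old v : Fin v → Fin (v + 2))
      simp only [Expr.depth]
      omega

lemma size_surr_le (h : Expr κ (J + 1) (v + 2)) (P : Par N) (p q : Expr κ (J + 1) m)
    (x : Fin v → Fin m) (hp : p.size ≤ M) (hq : q.size ≤ M) :
    (surr h P p q x).size ≤ 1 + N * (h.size * (M + 5) + 3) := by
  rw [surr, Expr.size_esum]
  refine Nat.add_le_add_left ((Finset.sum_le_card_nsmul _ _ (h.size * (M + 5) + 3)
    fun j _ => ?_).trans_eq (by simp)) 1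
  simp only [Expr.size]
  have := h.size_subst_le (M := M + 5) (Fin.cons (q.ren Fin.succ)
    (Fin.cons (.add (.smul (P.pt j) (p.ren Fin.succ)) (.smul (P.ns j) (.var 0)))
      fun i => .var (x i).succ)) (by omega) fun k => by
    refine Fin.cases ?_ (fun k => Fin.cases ?_ (fun k => ?_) k) k <;>
      simp [Expr.size, Expr.size_ren] <;> omega
  omega

lemma size_res_le (f : Expr κ J (v + 1)) (t : ℝ) (p : Expr κ J m) (x : Fin v → Fin m)
    (hp : p.size ≤ M) : (res f t p x).size ≤ f.size * (M + 3) + 1 := by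
  simp only [res, atPt, Expr.size]
  refine Nat.add_le_add_right (f.size_subst_le _ (by omega) fun k => ?_) 1
  refine Fin.cases ?_ (fun k => ?_) k <;> simp [Expr.size, Expr.size_ren] <;> omega

lemma size_tgt_le (f : Expr κ (J + 1) (v + 1)) (t : ℝ) (x : Fin v → Fin m) :
    (tgt f t x).size ≤ f.size * 2 + 1 := by
  simp only [tgt, atPt, Expr.size]
  refine Nat.add_le_add_right (f.size_subst_le _ (by omega) fun k => ?_) 1
  refine Fin.cases ?_ (fun k => ?_) k <;> simp [Expr.size]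

theorem size_inc_le (f : Expr κ (J + 1) (v + 1)) (h : Expr κ (J + 1) (v + 2)) (P : Par N)
    (r : ℕ) : ∀ (k : ℕ) (i : Fin (r + 1)),
      (inc f h P r k i).1.size + 16 ≤ 17 * (17 * (r + 1) * ((N + 1) * f.size * h.size)) ^ k ∧
        (inc f h P r k i).2.size + 16 ≤ 17 * (17 * (r + 1) * ((N + 1) * f.size * h.size)) ^ k
  | 0, i => by simp [inc, Expr.size]
  | k + 1, i => by
    set S := (N + 1) * f.size * h.size with hS
    set T := 17 * (17 * (r + 1) * S) ^ k with hT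
    have ih : ∀ j, (inc f h P r k j).1.size + 16 ≤ T ∧ (inc f h P r k j).2.size + 16 ≤ T :=
      size_inc_le f h P r k
    have hf := f.one_le_size
    have hh := h.one_le_size
    have hT17 : 17 ≤ T := by
      have := Nat.one_le_pow k (17 * (r + 1) * S) (by positivity)
      omega
    have hS1 : 1 ≤ S := Nat.one_le_iff_ne_zero.2 (by positivity)
    have hNS : N * h.size ≤ S ∧ f.size ≤ S ∧ N ≤ S := by
      refine ⟨?_, ?_, ?_⟩ <;> nlinarith [Nat.mul_le_mul hf hh]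
    have hstep : 17 * (17 * (r + 1) * S) ^ (k + 1) = 17 * (r + 1) * (S * T) := by
      rw [hT, pow_succ]; ring
    have hfin : ∀ {c : ℝ} {e : Fin (r + 1) → Expr κ (J + 1) (v + 2)},
        (∀ j, (e j).size + 2 ≤ S * T) →
        (Expr.smul c (Expr.esum fun j => .smul (FlowStep.colw r (Quad.node (r + 1) i) j)
          (e j))).size + 16 ≤ 17 * (17 * (r + 1) * S) ^ (k + 1) := by
      intro c e he
      have h2 := Finset.sum_le_card_nsmul (Finset.univ : Finset (Fin (r + 1)))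
        (fun j => (e j).size + 1 + 1) (S * T) fun j _ => he j
      simp only [Finset.card_univ, Fintype.card_fin, smul_eq_mul] at h2
      rw [hstep, Expr.size, Expr.size_esum]
      simp only [Expr.size] at h2 ⊢
      have h3 : 17 ≤ (r + 1) * (S * T) := by
        calc 17 = 1 * (1 * 17) := rfl
          _ ≤ _ := Nat.mul_le_mul (by omega) (Nat.mul_le_mul hS1 hT17)
      rw [Nat.mul_assoc]
      omega
    refine ⟨hfin fun j => ?_, hfin fun j => ?_⟩
    · have h1 := size_surr_le h P (.add (.var 0) (inc f h P r k j).1)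
        (.add (.var 1) (inc f h P r k j).2) (old v) (M := T - 14)
        (by simp only [Expr.size]; have := (ih j).1; omega)
        (by simp only [Expr.size]; have := (ih j).2; omega)
      obtain ⟨T', hT'⟩ := Nat.exists_eq_add_of_le (show 14 ≤ T by omega)
      rw [hT', Nat.add_sub_cancel_left] at h1
      rw [hT']
      nlinarith [Nat.mul_le_mul_right T' hNS.1, Nat.mul_le_mul_right 5 hNS.1, hNS.2.2]
    · have h1 := size_res_le f P.fine (.add (.var 0) (inc f h P r k j).1) (old v) (M := T - 14)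
        (by simp only [Expr.size]; have := (ih j).1; omega)
      have h2 := size_tgt_le f P.full (old v : Fin v → Fin (v + 2))
      obtain ⟨T', hT'⟩ := Nat.exists_eq_add_of_le (show 14 ≤ T by omega)
      rw [hT', Nat.add_sub_cancel_left] at h1
      simp only [Expr.size] at h1 h2 ⊢
      rw [hT']
      nlinarith [Nat.mul_le_mul_right T' hNS.2.1, hNS.2.1, hS1]

variable {kap : Fin (J + 1) → ℝ}

lemma fill_ctr {t : ℝ} (ht : (t * kap (Fin.last J)) ^ 2 ≤ 1 / 4) :
    ∑ j, (ctr J t j * kap j) ^ 2 ≤ 1 / 4 := by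
  simpa [ctr, Fin.sum_univ_castSucc] using ht

lemma fill_surr {h : Expr κ (J + 1) (v + 2)} {p q : Expr κ (J + 1) m} (x : Fin v → Fin m)
    (hct : ∀ j, (P.ct j * kap (Fin.last J)) ^ 2 ≤ 1 / 4) (hh : h.Fill kap) (hp : p.Fill kap)
    (hq : q.Fill kap) : (surr h P p q x).Fill kap :=
  Expr.fill_esum fun j => ⟨fill_ctr (hct j), Expr.fill_subst (fun k => Fin.cases
    (by simpa using Expr.fill_ren _ hq) (fun k => Fin.cases
      (by simpa [Expr.Fill] using Expr.fill_ren _ hp) (fun k => by simp [Expr.Fill]) k) k) hh⟩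

lemma fill_res {f : Expr κ (J + 1) (v + 1)} {p : Expr κ (J + 1) m} (t : ℝ) (x : Fin v → Fin m)
    (hf : f.Fill kap) (hp : p.Fill kap) : (res f t p x).Fill kap :=
  ⟨by simp, Expr.fill_subst (fun k => Fin.cases
    (by simpa [Expr.Fill] using Expr.fill_ren _ hp) (fun k => by simp [Expr.Fill]) k) hf⟩

lemma fill_tgt {f : Expr κ (J + 1) (v + 1)} {s : ℝ} (x : Fin v → Fin m)
    (hs : (kap (Fin.last J) / s) ^ 2 ≤ 1 / 4) (hf : f.Fill kap) : (tgt f s x).Fill kap :=
  ⟨fill_ctr (by rwa [one_div_mul_eq_div]), Expr.fill_subst (fun k => Fin.cases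
    (by simp [Expr.Fill]) (fun k => by simp [Expr.Fill]) k) hf⟩

theorem fill_inc {f : Expr κ (J + 1) (v + 1)} {h : Expr κ (J + 1) (v + 2)}
    (hct : ∀ j, (P.ct j * kap (Fin.last J)) ^ 2 ≤ 1 / 4)
    (hfull : (kap (Fin.last J) / P.full) ^ 2 ≤ 1 / 4) (hf : f.Fill kap) (hh : h.Fill kap)
    (r : ℕ) : ∀ (k : ℕ) (i : Fin (r + 1)),
      (inc f h P r k i).1.Fill kap ∧ (inc f h P r k i).2.Fill kap
  | 0, i => ⟨trivial, trivial⟩
  | k + 1, i => by
    have ih := fill_inc hct hfull hf hh r k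
    exact ⟨Expr.fill_esum fun j => fill_surr _ hct hh ⟨trivial, (ih j).1⟩ ⟨trivial, (ih j).2⟩,
      Expr.fill_esum fun j => ⟨fill_res _ _ hf ⟨trivial, (ih j).1⟩, fill_tgt _ hfull hf⟩⟩

/-- **Everything about one round**: the constants depend on `B₀`, `r`, `k` only. -/
structure Out (η L : ℝ) (sc : κ → ℝ) (C : ℝ) (A : ℕ) (R w' g b : ℝ) (f₀ : Expr κ (J + 1) (v + 1))
    (h₀ : Expr κ (J + 1) (v + 2)) (P : Par N) (dy dg : Expr κ (J + 1) (v + 2)) : Prop where
  bd : Bd η L sc C R w' g b dy dg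
  good_surr : (surr h₀.nrm P (.add (.var 0) dy) (.add (.var 1) dg) (old v)).Good η L sc C (C * R) w'
  sm_surr : (surr h₀.nrm P (.add (.var 0) dy) (.add (.var 1) dg) (old v)).sm L sc ≤
    C * (h₀.sm L sc + |f₀.aff 0|)
  good_res : (res f₀.nrm P.fine (.add (.var 0) dy) (old v)).Good η L sc C (C * R) w'
  sm_res : (res f₀.nrm P.fine (.add (.var 0) dy) (old v)).sm L sc ≤
    C * (f₀.sm L sc + |f₀.aff 0|)
  good_tgt : (tgt f₀.nrm P.full (old v : Fin v → Fin (v + 2))).Good η L sc C (C * R) w'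
  sm_tgt : (tgt f₀.nrm P.full (old v : Fin v → Fin (v + 2))).sm L sc ≤
    C * (f₀.sm L sc + |f₀.aff 0|)
  depth₁ : dy.depth ≤ A * (f₀.depth + h₀.depth + 1)
  depth₂ : dg.depth ≤ A * (f₀.depth + h₀.depth + 1)
  size₁ : (dy.size : ℝ) ≤ C * ((((N + 1) * f₀.size * h₀.size : ℕ) : ℝ)) ^ A
  size₂ : (dg.size : ℝ) ≤ C * ((((N + 1) * f₀.size * h₀.size : ℕ) : ℝ)) ^ A
  fill : ∀ kap : Fin (J + 1) → ℝ, f₀.Fill kap → h₀.Fill kap →
    (∀ j, (P.ct j * kap (Fin.last J)) ^ 2 ≤ 1 / 4) → (kap (Fin.last J) / P.full) ^ 2 ≤ 1 / 4 →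
    dy.Fill kap ∧ dg.Fill kap

theorem inc_bounds (hB : 1 ≤ B₀) (r k : ℕ) :
    ∃ (C : ℝ) (A : ℕ), 1 ≤ C ∧ ∀ {κ : Type} {J v N : ℕ} {η L R w w' g b : ℝ} {sc : κ → ℝ}
      {f₀ : Expr κ (J + 1) (v + 1)} {h₀ : Expr κ (J + 1) (v + 2)} {P : Par N},
      Hyp η L sc B₀ R w w' g b f₀ h₀ P → ∀ i,
        Out η L sc C A R w' g b f₀ h₀ P (inc f₀.nrm h₀.nrm P r k i).1
          (inc f₀.nrm h₀.nrm P r k i).2 := by
  set K : ℕ := 17 * (17 * (r + 1) * 256) ^ k with hK
  have hC0 := one_le_cst hB r (k + 1)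
  refine ⟨cst B₀ r (k + 1) + (K : ℝ), 2 * k, by linarith [(Nat.cast_nonneg K : (0:ℝ) ≤ K)], ?_⟩
  intro κ J v N η L R w w' g b sc f₀ h₀ P H i
  set C := cst B₀ r (k + 1) + (K : ℝ) with hC
  have hle : cst B₀ r (k + 1) ≤ C := le_add_of_nonneg_right (Nat.cast_nonneg K)
  have hle' : cst B₀ r k ≤ C := (cst_le_succ hB r k).1.trans hle
  have hR0 : 0 ≤ R := zero_le_one.trans H.hR
  have hU₁ : 0 ≤ h₀.sm L sc + |f₀.aff 0| :=
    add_nonneg (Expr.sm_nonneg H.hL H.hsc _) (abs_nonneg _)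
  have hU₂ : 0 ≤ f₀.sm L sc + |f₀.aff 0| :=
    add_nonneg (Expr.sm_nonneg H.hL H.hsc _) (abs_nonneg _)
  have h0 : 0 ≤ cst B₀ r k := zero_le_one.trans (one_le_cst hB r k)
  have h0' : 0 ≤ cst B₀ r (k + 1) := zero_le_one.trans hC0
  have hmono : ∀ {n : ℕ} {e : Expr κ (J + 1) n},
      e.Good η L sc (cst B₀ r (k + 1)) (cst B₀ r (k + 1) * R) w' →
        e.Good η L sc C (C * R) w' := fun h =>
    h.mono H.hη H.hη1 h0' hle (mul_le_mul_of_nonneg_right hle hR0) le_rfl H.hsc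
  obtain ⟨g1, g2, r1, r2, s1, s2⟩ := inc_bd H r k i
  obtain ⟨⟨a1, a2⟩, ⟨b1, b2⟩, c1, c2⟩ := three_inc H r k i
  have hd := depth_inc_le f₀.nrm h₀.nrm P r k i
  simp only [Expr.depth_nrm] at hd
  have hk : k * (f₀.depth + h₀.depth + 1) ≤ 2 * k * (f₀.depth + h₀.depth + 1) :=
    Nat.mul_le_mul_right _ (by omega)
  have hsz : ∀ z : ℕ, z + 16 ≤
      17 * (17 * (r + 1) * ((N + 1) * f₀.nrm.size * h₀.nrm.size)) ^ k →
      (z : ℝ) ≤ C * ((((N + 1) * f₀.size * h₀.size : ℕ) : ℝ)) ^ (2 * k) := by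
    intro z hz
    have h1 : (N + 1) * f₀.nrm.size * h₀.nrm.size ≤
        256 * ((N + 1) * f₀.size * h₀.size) ^ 2 :=
      calc (N + 1) * f₀.nrm.size * h₀.nrm.size
          ≤ (N + 1) * (16 * f₀.size ^ 2) * (16 * h₀.size ^ 2) :=
            Nat.mul_le_mul (Nat.mul_le_mul_left _ f₀.size_nrm_le) h₀.size_nrm_le
        _ = 256 * ((N + 1) * (f₀.size ^ 2 * h₀.size ^ 2)) := by ring
        _ ≤ 256 * ((N + 1) ^ 2 * (f₀.size ^ 2 * h₀.size ^ 2)) :=
            Nat.mul_le_mul_left _ (Nat.mul_le_mul_right _ (Nat.le_self_pow two_ne_zero _))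
        _ = _ := by ring
    have h2 : z ≤ K * ((N + 1) * f₀.size * h₀.size) ^ (2 * k) :=
      calc z ≤ 17 * (17 * (r + 1) * ((N + 1) * f₀.nrm.size * h₀.nrm.size)) ^ k := by omega
        _ ≤ 17 * (17 * (r + 1) * (256 * ((N + 1) * f₀.size * h₀.size) ^ 2)) ^ k := by gcongr
        _ = _ := by rw [hK, pow_mul, ← mul_assoc (17 * (r + 1)) 256, mul_pow, ← mul_assoc]
    calc (z : ℝ) ≤ (K : ℝ) * (((N + 1) * f₀.size * h₀.size : ℕ) : ℝ) ^ (2 * k) := by
          exact_mod_cast h2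
      _ ≤ _ := mul_le_mul_of_nonneg_right (le_add_of_nonneg_left h0') (by positivity)
  exact
    { bd := ⟨g1.mono H.hη H.hη1 h0 hle' (mul_le_mul_of_nonneg_right hle' hR0) le_rfl H.hsc,
        g2.mono H.hη H.hη1 h0 hle' (mul_le_mul_of_nonneg_right hle' hR0) le_rfl H.hsc,
        r1.trans (mul_le_mul_of_nonneg_right hle' H.g_nonneg),
        r2.trans (mul_le_mul_of_nonneg_right hle' H.b_nonneg),
        s1.trans (mul_le_mul_of_nonneg_right hle' H.g_nonneg),
        s2.trans (mul_le_mul_of_nonneg_right hle' H.b_nonneg)⟩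
      good_surr := hmono a1
      sm_surr := a2.trans (mul_le_mul_of_nonneg_right hle hU₁)
      good_res := hmono b1
      sm_res := b2.trans (mul_le_mul_of_nonneg_right hle hU₂)
      good_tgt := hmono c1
      sm_tgt := c2.trans (mul_le_mul_of_nonneg_right hle hU₂)
      depth₁ := hd.1.trans hk
      depth₂ := hd.2.trans hk
      size₁ := hsz _ (size_inc_le f₀.nrm h₀.nrm P r k i).1
      size₂ := hsz _ (size_inc_le f₀.nrm h₀.nrm P r k i).2
      fill := fun kap hf hh hct hfull =>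
        fill_inc hct hfull (f₀.fill_nrm hf) (h₀.fill_nrm hh) r k i }

end Vale.Agent.P347.Shift.Level
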