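import Vale.Agent.P347.Shift.PtParts
import Vale.Agent.P347.Shift.SyntaxSize
import Vale.Agent.P347.Shift.EmFlow

/-!
# P347: one level of the emission of a mean

`ScaleOn K n e P`: the mean of a body satisfying `P` over a Gaussian vector of scale `η ^ e` at a
centre known at half that scale is emitted to order `n`. The level from `e + pE K` to `e` runs the
invariant flow; its Picard points are the expressions `inc` in the centres, extended by the centre
of the level, and the variables `(y, g)` put in front of the known ones.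
-/

open MeasureTheory ProbabilityTheory Real
open scoped RealInnerProductSpace ENNReal

namespace Vale.Agent.P347.Shift

open Quarter

/-- Means of the bodies satisfying `P` at scale `η ^ e` are emitted to order `n`; the first variable
of a body is the averaged one. -/
def ScaleOn (K n : ℕ) (e : ℝ)
    (P : ℝ → ∀ {κ : Type} {J v : ℕ}, Expr κ J (v + 1) → Prop) : Prop :=
  ∀ B : ℝ, ∃ (B' : ℝ) (A : ℕ), ∀ θ : ℝ, 0 < θ → ∀ Cb : ℝ, 0 ≤ Cb → ∃ C η₀ : ℝ,
    0 < η₀ ∧ ∀ (d J v : ℕ) (κ α : Type) [MeasurableSpace α] (η L b : ℝ) (Nb : ℕ) (sc : κ → ℝ)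
      (𝒱 : κ → (Sp d → Sp d) → Sp d → Sp d) (f : Expr κ J (v + 1)) (kap : Fin J → ℝ)
      (X : α → Fin v → Sp d) (q : Fin J → Emitter d α) (q₀ : Emitter d α),
      1 ≤ d → 0 < η → η ≤ η₀ → 0 ≤ L → L ≤ 4 * η → 0 < b → 1 ≤ Nb →
      (∀ k, 0 ≤ sc k) → (∀ j, 0 < kap j) → Measurable X → P η f →
      f.Good η L sc B (B * η ^ (-pA K)) (pW K n) → f.Fill kap →
      (f.sm L sc + |f.aff 0|) * η ^ (-pW K n) ≤ B * b →
      (∀ k, ∀ m ≤ n, IsBox d K η L (sc k) m B' Cb Nb (𝒱 k)) →
      ∃ p : Emitter d α,
        (p.cost : ℝ) ≤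
          C * η ^ (-θ) * (f.size : ℝ) ^ A * ((Nb : ℝ) + 1 + ∑ j, (q j).cost + q₀.cost) ∧
        ∀ G, Adm η G → ∀ (c : α → Fin J → Sp d) (ec : Fin J → α → ℝ) (c₀ : α → Sp d)
          (ec₀ : α → ℝ), (∀ j a, 0 ≤ ec j a) → (∀ j, Measurable fun a => c a j) →
          (∀ j, Emits (q j) G (fun a => c a j) (kap j) (ec j)) →
          (∀ a, 0 ≤ ec₀ a) → Measurable c₀ → Emits q₀ G c₀ (η ^ e / 2) ec₀ →
          Emits p G
            (fun a => ∫ z, f.eval (fun k => 𝒱 k G) (c a)
              (Fin.cons (c₀ a + η ^ e • z) (X a)) ∂gd d) b fun a =>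
            C * (f.sm L sc + |f.aff 0|) *
              (η ^ ((n : ℝ) * pE K) *
                  (√d + f.cen (fun k => 𝒱 k G) (c a) (Fin.cons (c₀ a) (X a))) +
                ∑ j, ec j a / kap j + ec₀ a)

namespace Level

/-- The coefficients of one level: the quadrature nodes of the surrogate and the scales. -/
structure Par (N : ℕ) where
  /-- weights -/
  ω : Fin N → ℝ
  /-- coefficients of the point -/
  pt : Fin N → ℝ
  /-- coefficients of the noise -/
  ns : Fin N → ℝ
  /-- coefficients of the centre of the level, in units of the noise -/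
  ct : Fin N → ℝ
  /-- the factor of the first block -/
  ay : ℝ
  /-- the factor of the second block -/
  ag : ℝ
  /-- the finer scale -/
  fine : ℝ
  /-- the scale -/
  full : ℝ

variable {κ : Type} {J v m N : ℕ}

/-- The coefficients at scale `σ`, ratio `τ` and room `b`, from a rule `w, u` for the time
average on `[0, √(1 - τ)]` with weights of total size at most `Ω`, which is moved into `ay`. -/
noncomputable def par (σ τ b Ω : ℝ) (w u : Fin N → ℝ) : Par N where
  ω j := w j / Ω
  pt j := u j / √(1 - τ)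
  ns j := σ * √(1 - u j ^ 2)
  ct j := (1 - u j / √(1 - τ)) / (σ * √(1 - u j ^ 2))
  ay := -(σ * √(1 - τ) * (σ / b)) * Ω
  ag := b⁻¹
  fine := σ * √τ
  full := σ

/-- The coefficients of the last centre alone. -/
def ctr (J : ℕ) (t : ℝ) : Fin (J + 1) → ℝ := Fin.snoc (fun _ => 0) t

/-- A body read at the point `p`. -/
def atPt (f : Expr κ J (v + 1)) (p : Expr κ J m) (x : Fin v → Fin m) : Expr κ J m :=
  f.subst (Fin.cons p fun i => .var (x i))

/-- The smoothing of a body at scale `r` around `p`. -/
def res (f : Expr κ J (v + 1)) (r : ℝ) (p : Expr κ J m) (x : Fin v → Fin m) : Expr κ J m :=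
  .mean 0 (atPt f (.add (p.ren Fin.succ) (.smul r (.var 0))) (Fin.succ ∘ x))

/-- The mean of a body at scale `s` around the last centre. -/
noncomputable def tgt (f : Expr κ (J + 1) (v + 1)) (s : ℝ) (x : Fin v → Fin m) :
    Expr κ (J + 1) m :=
  .mean (ctr J (1 / s)) (atPt f (.smul s (.var 0)) (Fin.succ ∘ x))

/-- The surrogate of the first block: `g` is the first variable of the product `h`, the point the
second. -/
def surr (h : Expr κ (J + 1) (v + 2)) (P : Par N) (p g : Expr κ (J + 1) m) (x : Fin v → Fin m) :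
    Expr κ (J + 1) m :=
  Expr.esum fun j => .smul (P.ω j) (.mean (ctr J (P.ct j))
    (h.subst (Fin.cons (g.ren Fin.succ)
      (Fin.cons (.add (.smul (P.pt j) (p.ren Fin.succ)) (.smul (P.ns j) (.var 0)))
        fun i => .var (x i).succ))))

/-- The two variables in front of the known ones. -/
def old (v : ℕ) (i : Fin v) : Fin (v + 2) := i.succ.succ

/-- The increments of the Picard rounds at the nodes. -/
noncomputable def inc (f : Expr κ (J + 1) (v + 1)) (h : Expr κ (J + 1) (v + 2)) (P : Par N)
    (r : ℕ) : ℕ → Fin (r + 1) → Expr κ (J + 1) (v + 2) × Expr κ (J + 1) (v + 2)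
  | 0, _ => (.zero, .zero)
  | k + 1, i =>
    (.smul P.ay (Expr.esum fun j => .smul (FlowStep.colw r (Quad.node (r + 1) i) j)
        (surr h P (.add (.var 0) (inc f h P r k j).1) (.add (.var 1) (inc f h P r k j).2) (old v))),
      .smul P.ag (Expr.esum fun j => .smul (FlowStep.colw r (Quad.node (r + 1) i) j)
        (.add (res f P.fine (.add (.var 0) (inc f h P r k j).1) (old v))
          (.smul (-1) (tgt f P.full (old v))))))

end Level

end Vale.Agent.P347.Shift
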