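import Vale.Agent.P347.Shift.Level.Defs
import Vale.Agent.P347.Shift.EmitBase

/-!
# P347: from the emission of means at scales to `MeanSpec`
-/

open MeasureTheory ProbabilityTheory Real
open scoped RealInnerProductSpace ENNReal

namespace Vale.Agent.P347.Shift.Level

open Quarter

/-- The bodies of depth at most `D`. -/
def Deep (D : ℕ) : ℝ → ∀ {κ : Type} {J v : ℕ}, Expr κ J (v + 1) → Prop :=
  fun _ {_ _ _} f => f.depth ≤ D

/-- The levels are descended one by one. -/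
theorem scaleOn_zero {K n : ℕ} {P : ℝ → ∀ {κ : Type} {J v : ℕ}, Expr κ J (v + 1) → Prop}
    (hbase : ScaleOn K n ((n : ℝ) * pE K) P)
    (hstep : ∀ i : ℕ, i < n → ScaleOn K n ((i : ℝ) * pE K + pE K) P →
      ScaleOn K n ((i : ℝ) * pE K) P) :
    ScaleOn K n 0 P := by
  have key : ∀ i ≤ n, ScaleOn K n (((n - i : ℕ) : ℝ) * pE K) P := by
    intro i
    induction i with
    | zero => intro _; simpa using hbase
    | succ i ih =>
      intro hi
      have h1 := ih (by omega)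
      rw [show n - i = (n - (i + 1)) + 1 by omega, Nat.cast_add, Nat.cast_one, add_one_mul] at h1
      exact hstep _ (by omega) h1
  simpa using key n le_rfl

/-- **Means, from their emission at scale one.** -/
theorem ptOn_mean_of_scaleOn {K n D : ℕ} (h : ScaleOn K n 0 (Deep D)) :
    PtOn K n fun {_ J _} e => ∃ (C : Fin J → ℝ) (e₀ : _), e = Expr.mean C e₀ ∧ e₀.depth ≤ D := by
  intro B
  obtain ⟨B', A, h⟩ := h B
  refine ⟨B', A, fun θ hθ Cb hCb => ?_⟩
  obtain ⟨C, η₀, hη₀, h⟩ := h θ hθ Cb hCb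
  refine ⟨2 * |C|, η₀, hη₀, ?_⟩
  intro d J v κ α _ η L b Nb sc 𝒱 e kap X q hd hη hηle hL hL4 hb hNb hsc hkap hX hP hG hF hsm hbox
  obtain ⟨Cf, f, rfl, hfD⟩ := hP
  obtain ⟨q₁, hq₁, hq₁e⟩ := emits_sum q Cf
  obtain ⟨q₀, hq₀, hq₀e⟩ := emits_pad (ρ := √(∑ j, (Cf j * kap j) ^ 2)) (ρ' := 1 / 2) q₁
    (Real.sqrt_nonneg _) (Real.sqrt_le_iff.2 ⟨by norm_num, hF.1.trans_eq (by norm_num)⟩)
  obtain ⟨p, hpc, hpe⟩ := h d J v κ α η L b Nb sc 𝒱 f kap X q q₀ hd hη hηle hL hL4 hb hNb hsc hkap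
    hX hfD hG hF.2 hsm hbox
  refine ⟨p, ?_, ?_⟩
  · refine hpc.trans ?_
    have h0 : 0 ≤ η ^ (-θ) := rpow_nonneg hη.le _
    have hq : (q₀.cost : ℝ) ≤ ∑ j, ((q j).cost : ℝ) := by exact_mod_cast hq₀.trans hq₁
    have hsz : (f.size : ℝ) ^ A ≤ ((Expr.mean Cf f).size : ℝ) ^ A := by
      gcongr; simp [Expr.size]
    push_cast
    calc C * η ^ (-θ) * (f.size : ℝ) ^ A * (↑Nb + 1 + ∑ j, ((q j).cost : ℝ) + q₀.cost)
        ≤ |C| * η ^ (-θ) * ((Expr.mean Cf f).size : ℝ) ^ A *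
            (2 * (↑Nb + 1 + ∑ j, ((q j).cost : ℝ))) := by
          have hN : (0:ℝ) ≤ Nb := Nat.cast_nonneg _
          gcongr
          · exact le_abs_self C
          · linarith
      _ = _ := by ring
  intro G hG' c ec hec hc hq
  have hGm := Adm.measurable hG'
  have hμm : Measurable fun a => ∑ j, Cf j • c a j :=
    Finset.measurable_sum _ fun j _ => (hc j).fun_const_smul _
  have hq' : Emits q₀ G (fun a => ∑ j, Cf j • c a j) (η ^ (0:ℝ) / 2)
      fun a => ∑ j, |Cf j * ec j a| := by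
    rw [Real.rpow_zero]
    exact hq₀e G hGm _ _ (hq₁e G hGm _ _ _ hq)
  have h1 := hpe G hG' c ec _ _ hec hc hq (fun a => Finset.sum_nonneg fun j _ => abs_nonneg _)
    hμm hq'
  simp only [Real.rpow_zero, one_smul] at h1
  have ht : (fun a => ∫ z, f.eval (fun k => 𝒱 k G) (c a)
      (Fin.cons ((∑ j, Cf j • c a j) + z) (X a)) ∂gd d) =
      fun a => (Expr.mean Cf f).eval (fun k => 𝒱 k G) (c a) (X a) := by
    funext a
    simp only [Expr.eval, add_comm _ (∑ j, Cf j • c a j)]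
  rw [ht] at h1
  refine EmitBase.emits_mono h1 fun a => ?_
  have hec' : ∑ j, |Cf j * ec j a| ≤ ∑ j, ec j a / kap j := by
    refine Finset.sum_le_sum fun j _ => ?_
    have h2 : (Cf j * kap j) ^ 2 ≤ 1 / 4 :=
      (Finset.single_le_sum (fun i _ => sq_nonneg (Cf i * kap i)) (Finset.mem_univ j)).trans hF.1
    have h3 : |Cf j| * kap j ≤ 1 := by
      rw [← abs_of_pos (hkap j), ← abs_mul]
      exact abs_le_of_sq_le_sq' (by linarith) zero_le_one |> abs_le.2
    rw [abs_mul, abs_of_nonneg (hec j a), le_div_iff₀ (hkap j), mul_right_comm]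
    exact mul_le_of_le_one_left (hec j a) h3
  have hpos : 0 ≤ ∑ j, ec j a / kap j :=
    Finset.sum_nonneg fun j _ => div_nonneg (hec j a) (hkap j).le
  simp only [Expr.sm, Expr.cen]
  set ξ : ℝ := η ^ ((n : ℝ) * pE K) *
    (√d + f.cen (fun k => 𝒱 k G) (c a) (Fin.cons (∑ j, Cf j • c a j) (X a))) with hξ
  have hcen : ∀ {m : ℕ} (e : Expr κ J m) (x : Fin m → Sp d),
      0 ≤ e.cen (fun k => 𝒱 k G) (c a) x := by
    intro m e
    induction e with
    | var i => intro x; exact le_rfl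
    | zero => intro x; exact le_rfl
    | add e f he hf => intro x; exact le_max_of_le_left (he x)
    | smul t e he => intro x; exact he x
    | node k σ e he => intro x; exact le_max_of_le_left (norm_nonneg _)
    | mean C e he => intro x; exact he _
  have hξ0 : 0 ≤ ξ :=
    mul_nonneg (rpow_nonneg hη.le _) (add_nonneg (Real.sqrt_nonneg _) (hcen f _))
  have hs0 : 0 ≤ ∑ j, |Cf j * ec j a| := Finset.sum_nonneg fun j _ => abs_nonneg _
  simp only [abs_mul] at hec' hs0 ⊢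
  rw [abs_two, abs_abs, abs_of_nonneg (a := ξ + _ + _) (by linarith),
    abs_of_nonneg (a := ξ + _) (by linarith)]
  have hM0 := abs_nonneg (f.sm L sc + |f.aff 0|)
  calc |C| * |f.sm L sc + (|f.aff 0|)| * (ξ + ∑ j, ec j a / kap j + ∑ j, |Cf j| * |ec j a|)
      ≤ |C| * |f.sm L sc + (|f.aff 0|)| * (2 * (ξ + ∑ j, ec j a / kap j)) :=
        mul_le_mul_of_nonneg_left (by linarith) (mul_nonneg (abs_nonneg C) hM0)
    _ = _ := by ring

end Vale.Agent.P347.Shift.Level
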