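import Vale.Agent.P347.Shift.Level.Defs
import Vale.Agent.P347.Shift.SpecArith

/-!
# P347: the numbers of one level
-/

open Real

namespace Vale.Agent.P347.Shift.Level

variable {N : ℕ} {σ τ b : ℝ}

lemma sqrt_bounds (h0 : 0 < τ) (h8 : τ ≤ 1 / 8) :
    1 / 2 ≤ √(1 - τ) ∧ √(1 - τ) < 1 ∧ τ / 2 ≤ 1 - √(1 - τ) := by
  have hs := Real.sq_sqrt (show (0:ℝ) ≤ 1 - τ by linarith)
  have hn := Real.sqrt_nonneg (1 - τ)
  refine ⟨by nlinarith, by nlinarith, by nlinarith⟩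

/-- The coefficients of a node of the time average. -/
lemma node_bounds (h0 : 0 < τ) (h8 : τ ≤ 1 / 8) {u : ℝ} (hu0 : 0 ≤ u)
    (hu : u ≤ √√(1 - τ)) :
    u ^ 2 < 1 ∧ |u / √(1 - τ)| ≤ 2 ∧ √(1 - u ^ 2) ≤ 1 ∧
      (1 - u / √(1 - τ)) ^ 2 ≤ 1 - u ^ 2 := by
  obtain ⟨hq2, hq1, hqτ⟩ := sqrt_bounds h0 h8
  have hs := Real.sq_sqrt (show (0:ℝ) ≤ 1 - τ by linarith)
  set q := √(1 - τ)
  have hu2 : u ^ 2 ≤ q := by
    have := Real.sq_sqrt (show (0:ℝ) ≤ q by linarith)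
    nlinarith [Real.sqrt_nonneg q]
  have hu1 : u ≤ 1 := by nlinarith
  refine ⟨by linarith, ?_, Real.sqrt_le_one.2 (by nlinarith), ?_⟩
  · rw [abs_of_nonneg (div_nonneg hu0 (by linarith)), div_le_iff₀ (by linarith)]
    linarith
  · rw [show 1 - u / q = (q - u) / q by field_simp, div_pow, div_le_iff₀ (by nlinarith)]
    rcases le_or_gt u q with h | h
    · nlinarith [mul_nonneg hu0 (sub_nonneg.2 h), mul_nonneg (sq_nonneg u) (show 0 ≤ 1 - q by linarith)]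
    · have e1 : (u - q) * (u + q) ≤ q * (1 - q) := by nlinarith
      have e2 : (u - q) ≤ 1 - q := by linarith
      have h1 : (q - u) ^ 2 ≤ (1 - q) * (q * (1 - q)) := by nlinarith
      nlinarith

/-- The scalar hypotheses of the rounds. -/
theorem par_bounds (hσ : 0 < σ) (hσ1 : σ ≤ 1) (h0 : 0 < τ) (h8 : τ ≤ 1 / 8) (hb : 0 < b)
    {Ω : ℝ} (hΩ : 0 ≤ Ω) (w u : Fin N → ℝ) (hu : ∀ j, 0 ≤ u j ∧ u j ≤ √√(1 - τ)) :
    (∀ j, u j ^ 2 < 1) ∧ (∀ j, |(par σ τ b Ω w u).pt j| ≤ 2) ∧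
      (∀ j, |(par σ τ b Ω w u).ns j| ≤ 2) ∧
      (∀ j, (par σ τ b Ω w u).ns j * (par σ τ b Ω w u).ct j = 1 - (par σ τ b Ω w u).pt j) ∧
      (∀ j, ((par σ τ b Ω w u).ct j * (σ / 2)) ^ 2 ≤ 1 / 4) ∧
      |(par σ τ b Ω w u).ay| ≤ σ ^ 2 / b * Ω ∧ |(par σ τ b Ω w u).ag| = 1 / b ∧
      |(par σ τ b Ω w u).fine| ≤ 1 ∧ |(par σ τ b Ω w u).full| ≤ 1 := by
  obtain ⟨hq2, hq1, -⟩ := sqrt_bounds h0 h8
  have hn := fun j => node_bounds h0 h8 (hu j).1 (hu j).2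
  refine ⟨fun j => (hn j).1, fun j => (hn j).2.1, fun j => ?_, fun j => ?_, fun j => ?_, ?_, ?_,
    ?_, ?_⟩
  · simp only [par, abs_mul, abs_of_pos hσ, abs_of_nonneg (Real.sqrt_nonneg _)]
    have := mul_le_mul hσ1 (hn j).2.2.1 (Real.sqrt_nonneg _) zero_le_one
    linarith
  · simp only [par]
    exact mul_div_cancel₀ _ (mul_ne_zero hσ.ne' (Real.sqrt_pos.2 (by linarith [(hn j).1])).ne')
  · have h1 : 0 < 1 - u j ^ 2 := by linarith [(hn j).1]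
    have e : (par σ τ b Ω w u).ct j * (σ / 2) = (1 - u j / √(1 - τ)) / (2 * √(1 - u j ^ 2)) := by
      simp only [par]
      field_simp
    rw [e, div_pow, div_le_iff₀ (by positivity), mul_pow, Real.sq_sqrt h1.le]
    linarith [(hn j).2.2.2]
  · simp only [par, abs_neg, abs_mul, abs_div, abs_of_pos hσ, abs_of_pos hb, abs_of_nonneg hΩ,
      abs_of_nonneg (Real.sqrt_nonneg _)]
    rw [show σ ^ 2 / b = σ * 1 * (σ / b) by ring]
    gcongr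
  · simp [par, abs_of_pos hb]
  · simp only [par, abs_mul, abs_of_pos hσ, abs_of_nonneg (Real.sqrt_nonneg _)]
    exact mul_le_one₀ hσ1 (Real.sqrt_nonneg _) (Real.sqrt_le_one.2 (by linarith))
  · simp [par, abs_of_pos hσ, hσ1]

/-- The exponents of one level. -/
theorem exponents (K : ℕ) {n : ℕ} (hn : 0 < n) :
    1 / 20 ≤ pW K n - 2 * pA K - 2 * pE K ∧
      (n : ℝ) * pE K + 2 * pA K + 2 * pE K ≤ ((n : ℝ) + 1) / 20 ∧
      1 / 16 ≤ pW K n - 3 * pA K := by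
  have h1 := pW_sub_pD K hn
  have h2 := pW_ge K (n - pD K)
  have h3 := pA_le K
  have h4 := pE_le_pA K
  have h5 := pA_pos K
  have h6 : (n : ℝ) * pE K ≤ (n : ℝ) / 600 := by
    rw [div_eq_mul_one_div]; exact mul_le_mul_of_nonneg_left (pE_le K) (Nat.cast_nonneg n)
  have h7 : (1 : ℝ) ≤ n := by exact_mod_cast hn
  exact ⟨by linarith, by linarith, by linarith⟩

end Vale.Agent.P347.Shift.Level
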