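import Vale.Agent.P347.Shift.Level.Body
import Vale.Agent.P347.Shift.Pt
import Vale.Agent.P347.Shift.SpecArith

/-!
# P347: the product of the body of a level
-/

open MeasureTheory ProbabilityTheory Real
open scoped RealInnerProductSpace ENNReal

namespace Vale.Agent.P347.Shift.Level

open Quarter

variable {κ : Type} {J v : ℕ}

/-- What one level uses of the product `h` of the body `f`: `M` is the size of the body, `B₁`, `CA`,
`Hc` are constants. -/
structure Prod' (d K n Dh A : ℕ) (η L B₁ CA Cm Hc θ : ℝ) (sc : κ → ℝ) (f : Expr κ J (v + 1))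
    (h : Expr κ J (v + 2)) : Prop where
  depth : h.depth ≤ Dh
  size : (h.size : ℝ) ≤ CA * η ^ (-θ) * (f.size : ℝ) ^ A
  good : h.Good η L sc B₁ (B₁ * η ^ (-pA K)) (pW K n - 4 * pA K)
  fill : ∀ kap, f.Fill kap → h.Fill kap
  aff : h.aff = Fin.cons (f.aff 0) 0
  sm : h.sm L sc + |f.aff 0| ≤ CA * η ^ (-(2 * pA K)) * (f.sm L sc + |f.aff 0|)
  lip : ∀ (V : κ → Sp d → Sp d), (∀ k, IsField L (V k)) → ∀ kap : Fin J → ℝ, (∀ j, 0 < kap j) →
    f.Fill kap → ∀ (c : Fin J → Sp d) (x : Fin v → Sp d) g g' y y',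
      ‖h.nrm.eval V c (Fin.cons g (Fin.cons y x)) - h.nrm.eval V c (Fin.cons g' (Fin.cons y' x))‖ ≤
        CA * η ^ (-(2 * pA K)) * (f.sm L sc + |f.aff 0|) * (‖g - g'‖ + ‖y - y'‖)
  grow : ∀ (V : κ → Sp d → Sp d), (∀ k, IsField L (V k)) → ∀ kap : Fin J → ℝ, (∀ j, 0 < kap j) →
    f.Fill kap → ∀ (c : Fin J → Sp d) (x : Fin v → Sp d) g y,
      ‖h.nrm.eval V c (Fin.cons g (Fin.cons y x))‖ ≤
        CA * η ^ (-(2 * pA K)) * (f.sm L sc + |f.aff 0|) * (√d + ‖g‖)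
  err : ∀ (V : κ → Sp d → Sp d), (∀ k, IsField L (V k)) →
    ∀ (c : Fin J → Sp d) (x : Fin v → Sp d) y,
      ∫⁻ g, ENNReal.ofReal (‖h.nrm.eval V c (Fin.cons g (Fin.cons y x)) -
        ContinuousLinearMap.adjoint (fderiv ℝ (bmap V c f.nrm x) y) g‖ ^ 2) ∂gd d ≤
      ENNReal.ofReal ((Cm * η ^ (n + 1) * (f.sm L sc + |f.aff 0|) * √d) ^ 2)
  cen : ∀ (V : κ → Sp d → Sp d), (∀ k, IsField L (V k)) → ∀ kap : Fin J → ℝ, (∀ j, 0 < kap j) →
    f.Fill kap → ∀ (c : Fin J → Sp d) (x : Fin v → Sp d) g y c₀,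
      h.nrm.cen V c (Fin.cons g (Fin.cons y x)) ≤ Hc * η ^ (-pA K) *
        (√d + ‖g‖ + f.cen V c (Fin.cons c₀ x) + ‖y - c₀‖)

/-- `MVSpec` gives the product. -/
theorem exists_product {K n D : ℕ} (hmv : MVSpec K) (hnT : n ≤ pTop K) {B₀ : ℝ} (hB₀ : 1 ≤ B₀) :
    ∃ (Dh A : ℕ) (B₁ : ℝ), B₀ ≤ B₁ ∧ ∀ θ : ℝ, 0 < θ → ∃ CA Cm Hc η₀ : ℝ, 1 ≤ CA ∧ 0 ≤ Cm ∧
      1 ≤ Hc ∧ 2 * B₀ ^ 4 ≤ Hc ∧ 0 < η₀ ∧
      ∀ (d J v : ℕ) (κ : Type) (η L : ℝ) (sc : κ → ℝ) (f : Expr κ J (v + 1)),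
        1 ≤ d → 0 < η → η ≤ η₀ → 0 ≤ L → L ≤ 4 * η → (∀ k, 0 ≤ sc k) → f.depth ≤ D →
        f.Good η L sc B₀ (B₀ * η ^ (-pA K)) (pW K n) →
        ∃ h : Expr κ J (v + 2), Prod' d K n Dh A η L B₁ CA Cm Hc θ sc f h := by
  obtain ⟨Dh, A, Bv, hmv⟩ := hmv D (n + 1) B₀
  refine ⟨Dh, A, max B₀ Bv, le_max_left _ _, fun θ hθ => ?_⟩
  obtain ⟨C, η₀, hη₀, hmv⟩ := hmv θ hθ
  refine ⟨3 * max B₀ Bv * (|C| + 1), |C|, (|C| + 1) * (2 * B₀ ^ 4), min η₀ 1, ?_, abs_nonneg C,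
    ?_, le_mul_of_one_le_left (by positivity) (by linarith [abs_nonneg C]), lt_min hη₀ one_pos, ?_⟩
  · have h1 : 1 ≤ max B₀ Bv := hB₀.trans (le_max_left _ _)
    nlinarith [abs_nonneg C]
  · have h2 : 1 ≤ B₀ ^ 4 := one_le_pow₀ hB₀
    nlinarith [abs_nonneg C]
  intro d J v κ η L sc f hd hη hle hL hL4 hsc hD hG
  have hη1 : η ≤ 1 := hle.trans (min_le_right _ _)
  set B₁ := max B₀ Bv with hB₁
  have hB₁0 : 1 ≤ B₁ := hB₀.trans (le_max_left _ _)
  obtain ⟨e', he1, he2, he3, he4, he5, he6, he7⟩ := hmv d J (v + 1) κ η L sc f 0 (pW K n) hd hη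
    (hle.trans (min_le_left _ _)) hL hL4 hsc (pW_ge K n) (pW_le_half K hnT) hD hG
  have hGe : e'.Good η L sc B₁ (B₁ * η ^ (-pA K)) (pW K n - 4 * pA K) :=
    Pt.good_mono hη.le hsc (le_max_right _ _)
      (mul_le_mul_of_nonneg_right (le_max_right _ _) (rpow_nonneg hη.le _)) _ he3
  set M := f.sm L sc + |f.aff 0| with hM
  set ℓ := η ^ (-(2 * pA K)) with hℓ
  have hℓ1 : 1 ≤ ℓ := one_le_eta_rpow_neg hη hη1 (by linarith [pA_pos K])
  have hsm0 : 0 ≤ f.sm L sc := f.sm_nonneg hL hsc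
  have hesm0 : 0 ≤ e'.sm L sc := e'.sm_nonneg hL hsc
  have hM0 : 0 ≤ M := by positivity
  have hB₁' : 0 ≤ B₁ := by linarith
  have hC0 : 0 ≤ |C| := abs_nonneg C
  have hsm : e'.sm L sc ≤ |C| * ℓ * f.sm L sc :=
    he6.trans (mul_le_mul_of_nonneg_right
      (mul_le_mul_of_nonneg_right (le_abs_self C) (by positivity)) hsm0)
  have hb1 : |f.aff 0| + B₁ * e'.sm L sc ≤ B₁ * (|C| + 1) * ℓ * M := by
    have h1 : |f.aff 0| ≤ B₁ * ℓ * |f.aff 0| :=
      le_mul_of_one_le_left (abs_nonneg _) (one_le_mul_of_one_le_of_one_le hB₁0 hℓ1)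
    have h2 := mul_le_mul_of_nonneg_left hsm hB₁'
    have h3 : 0 ≤ B₁ * |C| * ℓ * |f.aff 0| := by positivity
    have h4 : 0 ≤ B₁ * ℓ * f.sm L sc := by positivity
    linarith
  have hpos : 0 ≤ B₁ * (|C| + 1) * ℓ * M := by positivity
  have hlip : ∀ (V : κ → Sp d → Sp d), (∀ k, IsField L (V k)) → ∀ kap : Fin J → ℝ,
      (∀ j, 0 < kap j) → f.Fill kap → ∀ (c : Fin J → Sp d) (x : Fin v → Sp d) g g' y y',
      ‖e'.nrm.eval V c (Fin.cons g (Fin.cons y x)) - e'.nrm.eval V c (Fin.cons g' (Fin.cons y' x))‖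
        ≤ B₁ * (|C| + 1) * ℓ * M * (‖g - g'‖ + ‖y - y'‖) := by
    intro V hV kap hkap hF c x g g' y y'
    simp only [Expr.eval_nrm (isBoxes_of_isField hL hV)]
    have h := e'.norm_eval_sub_le_sm hL hB₁0 hV hkap c c hGe (he4 kap hF) (Fin.cons g (Fin.cons y x))
      (Fin.cons g' (Fin.cons y' x)) (‖g - g'‖ + ‖y - y'‖)
      (fun i => Fin.cases (by simp) (fun i => Fin.cases (by simp) (fun i => by
        simp only [Fin.cons_succ, sub_self, norm_zero]; positivity) i) i)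
      (by simp only [sub_self, norm_zero, zero_div, Finset.sum_const_zero]; positivity)
    refine h.trans (mul_le_mul_of_nonneg_right ?_ (by positivity))
    simpa [he5, Fin.sum_univ_succ] using hb1
  refine ⟨e', he1, ?_, hGe, he4, he5, ?_, ?_, ?_, ?_, ?_⟩
  · refine he2.trans (mul_le_mul_of_nonneg_right (mul_le_mul_of_nonneg_right ?_ (by positivity))
      (by positivity))
    have := mul_le_mul hB₁0 (le_refl (|C| + 1)) (by positivity) hB₁'
    linarith [le_abs_self C]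
  · have h1 : e'.sm L sc ≤ B₁ * e'.sm L sc := le_mul_of_one_le_left hesm0 hB₁0
    linarith
  · intro V hV kap hkap hF c x g g' y y'
    refine (hlip V hV kap hkap hF c x g g' y y').trans (mul_le_mul_of_nonneg_right ?_ (by positivity))
    linarith
  · intro V hV kap hkap hF c x g y
    have hd' := fun y => norm_fderiv_bmap_le hL hsc hB₀ hV hkap hG hF c x y
    refine (norm_prod_le (φ := bmap V c f x)
      (Φ := fun g y => e'.nrm.eval V c (Fin.cons g (Fin.cons y x))) (ε := |C| * η ^ (n + 1) * M)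
      (by positivity) hpos (by positivity) hd'
      (fun g g' y => by simpa using hlip V hV kap hkap hF c x g g' y y) (fun y => ?_) g y).trans
      (mul_le_mul_of_nonneg_right ?_ (by positivity))
    · have h := (he7 V hV c (Fin.cons y x)).1
      simp only [Fin.update_cons_zero, Fin.cons_zero] at h
      simp only [Expr.eval_nrm (isBoxes_of_isField hL hV)]
      refine h.trans (ENNReal.ofReal_le_ofReal ?_)
      rw [← sq_abs]
      refine pow_le_pow_left₀ (abs_nonneg _) ?_ 2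
      rw [abs_mul, abs_mul, abs_mul, abs_of_nonneg (pow_nonneg hη.le _), abs_of_nonneg hsm0,
        abs_of_nonneg (Real.sqrt_nonneg _)]
      gcongr
      exact le_add_of_nonneg_right (abs_nonneg _)
    · have h1 : |f.aff 0| + B₀ * f.sm L sc ≤ B₁ * ℓ * M := by
        have h0 : B₀ * M ≤ B₁ * ℓ * M := mul_le_mul_of_nonneg_right
          ((le_max_left _ _).trans (le_mul_of_one_le_right hB₁' hℓ1)) hM0
        have h0' : |f.aff 0| ≤ B₀ * |f.aff 0| := le_mul_of_one_le_left (abs_nonneg _) hB₀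
        linarith
      have h2 : |C| * η ^ (n + 1) * M ≤ B₁ * (|C| + 1) * ℓ * M := by
        have h3 : η ^ (n + 1) ≤ 1 := pow_le_one₀ hη.le hη1
        have h4 : |C| * η ^ (n + 1) ≤ B₁ * (|C| + 1) * ℓ := by
          calc |C| * η ^ (n + 1) ≤ |C| * 1 := mul_le_mul_of_nonneg_left h3 hC0
            _ ≤ 1 * (|C| + 1) * 1 := by linarith
            _ ≤ _ := by gcongr
        exact mul_le_mul_of_nonneg_right h4 hM0
      have h5 : B₁ * ℓ * M ≤ B₁ * (|C| + 1) * ℓ * M := by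
        have : 0 ≤ B₁ * |C| * ℓ * M := by positivity
        linarith
      linarith
  · intro V hV c x y
    have h := (he7 V hV c (Fin.cons y x)).1
    simp only [Fin.update_cons_zero, Fin.cons_zero] at h
    have e : bmap V c f.nrm x = fun y => f.eval V c (Fin.cons y x) := by
      funext y; simp [bmap, Expr.eval_nrm (isBoxes_of_isField hL hV)]
    rw [e]
    simp only [Expr.eval_nrm (isBoxes_of_isField hL hV)]
    refine h.trans (ENNReal.ofReal_le_ofReal ?_)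
    rw [← sq_abs]
    refine pow_le_pow_left₀ (abs_nonneg _) ?_ 2
    rw [abs_mul, abs_mul, abs_mul, abs_of_nonneg (pow_nonneg hη.le _), abs_of_nonneg hsm0,
      abs_of_nonneg (Real.sqrt_nonneg _)]
    gcongr
    exact le_add_of_nonneg_right (abs_nonneg _)
  · intro V hV kap hkap hF c x g y c₀
    rw [Expr.cen_nrm (isBoxes_of_isField hL hV)]
    refine ((he7 V hV c (Fin.cons y x)).2 g).trans ?_
    have h1 := cen_body_le hL hB₀ (rpow_le_one hη.le hη1 (pW_pos K n).le) hV hkap hG hF c x y c₀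
    have h2 : (1:ℝ) ≤ 2 * B₀ ^ 4 := by linarith [one_le_pow₀ (n := 4) hB₀]
    have h3 : 0 ≤ f.cen V c (Fin.cons c₀ x) := f.cen_nonneg V c _
    have h4 : 0 ≤ f.cen V c (Fin.cons y x) := f.cen_nonneg V c _
    calc C * η ^ (-pA K) * (√d + ‖g‖ + f.cen V c (Fin.cons y x))
        ≤ (|C| + 1) * η ^ (-pA K) * (√d + ‖g‖ + f.cen V c (Fin.cons y x)) := by
          refine mul_le_mul_of_nonneg_right (mul_le_mul_of_nonneg_right ?_ (by positivity))
            (by positivity)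
          linarith [le_abs_self C]
      _ ≤ (|C| + 1) * η ^ (-pA K) *
            (2 * B₀ ^ 4 * (√d + ‖g‖ + f.cen V c (Fin.cons c₀ x) + ‖y - c₀‖)) := by
          refine mul_le_mul_of_nonneg_left ?_ (by positivity)
          have h5 : 0 ≤ (2 * B₀ ^ 4 - 1) * (√d + ‖g‖ + f.cen V c (Fin.cons c₀ x)) :=
            mul_nonneg (by linarith) (by positivity)
          linarith
      _ = _ := by ring

end Vale.Agent.P347.Shift.Level
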