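import Vale.Agent.P347.Shift.Level.Eval
import Vale.Agent.P347.Shift.SyntaxCen

/-!
# P347: size and node centres of the Picard rounds of a level
-/

open MeasureTheory ProbabilityTheory Real

namespace Vale.Agent.P347.Shift.Level

open Quarter

variable {κ : Type} {d J m : ℕ}

lemma cen_esum_le (V : κ → Sp d → Sp d) (c : Fin J → Sp d) {M : ℝ} (hM : 0 ≤ M)
    (x : Fin m → Sp d) :
    ∀ {N : ℕ} (e : Fin N → Expr κ J m), (∀ j, (e j).cen V c x ≤ M) → (Expr.esum e).cen V c x ≤ M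
  | 0, _, _ => hM
  | _ + 1, _, h => max_le (h 0) (cen_esum_le V c hM x _ fun j => h j.succ)

lemma integral_norm_gd_le : ∫ z, ‖z‖ ∂gd d ≤ √d := by
  obtain ⟨i2, e2⟩ := integral_norm_sq (ι := Fin d)
  rw [Fintype.card_fin] at e2
  refine (le_sqrt (integral_nonneg fun _ => norm_nonneg _) (Nat.cast_nonneg d)).2 ?_
  have h := variance_nonneg (fun z : Sp d => ‖z‖) (gd d)
  rw [variance_eq_sub ((memLp_two_iff_integrable_sq
    (by fun_prop : AEStronglyMeasurable (fun z : Sp d => ‖z‖) (gd d))).2 i2)] at h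
  simp only [Pi.pow_apply] at h
  linarith

/-- Two smoothings of a Lipschitz function differ by the motion of point and scale. -/
lemma norm_smth_sub_smth_le {φ : Sp d → Sp d} {Lam : ℝ} (hLam : 0 ≤ Lam)
    (hφ : ∀ y y', ‖φ y - φ y'‖ ≤ Lam * ‖y - y'‖) (r s : ℝ) (p q : Sp d) :
    ‖smth 1 r φ p - smth 1 s φ q‖ ≤ Lam * (‖p - q‖ + |r - s| * √d) := by
  have hc : Continuous φ :=
    (LipschitzWith.of_dist_le' (K := Lam) fun y y' => by simpa [dist_eq_norm] using hφ y y').continuous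
  have hi : ∀ (t : ℝ) (a : Sp d), Integrable (fun z => φ ((1 : ℝ) • a + t • z)) (gd d) := by
    intro t a
    refine ((integrable_const ‖φ a‖).fun_add (integrable_norm_gd.const_mul (Lam * |t|))).mono'
      (hc.comp (by fun_prop)).aestronglyMeasurable (Filter.Eventually.of_forall fun z => ?_)
    refine (norm_le_norm_add_norm_sub' _ (φ a)).trans (add_le_add le_rfl ?_)
    refine (hφ _ _).trans_eq ?_
    simp [norm_smul, mul_assoc]
  simp only [smth]
  rw [← integral_sub (hi r p) (hi s q)]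
  refine (norm_integral_le_of_norm_le (g := fun z => Lam * (‖p - q‖ + |r - s| * ‖z‖))
    (((integrable_const _).fun_add (integrable_norm_gd.const_mul _)).const_mul _)
    (Filter.Eventually.of_forall fun z => ?_)).trans ?_
  · refine (hφ _ _).trans (mul_le_mul_of_nonneg_left ?_ hLam)
    rw [show (1 : ℝ) • p + r • z - ((1 : ℝ) • q + s • z) = (p - q) + (r - s) • z by
      simp only [one_smul, sub_smul]; abel]
    exact (norm_add_le _ _).trans_eq (by rw [norm_smul, norm_eq_abs])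
  · rw [integral_const_mul, integral_add (integrable_const _) (integrable_norm_gd.const_mul _),
      integral_const_mul]
    simp only [integral_const, probReal_univ, smul_eq_mul, one_mul]
    exact mul_le_mul_of_nonneg_left
      (add_le_add le_rfl (mul_le_mul_of_nonneg_left integral_norm_gd_le (abs_nonneg _))) hLam

section Step

variable {v N : ℕ} (V : κ → Sp d → Sp d) (c : Fin (J + 1) → Sp d) (f : Expr κ (J + 1) (v + 1))
  (h : Expr κ (J + 1) (v + 2)) (P : Par N) (x : Fin v → Sp d) (z : Fin m → Sp d)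
  (o : Fin v → Fin m) (p g : Expr κ (J + 1) m)

lemma norm_eval_surr_le (hz : z ∘ o = x) {A a Ω : ℝ} (hA : 0 ≤ A) (hω : ∑ l, |P.ω l| ≤ Ω)
    (hhA : ∀ g y, ‖h.eval V c (Fin.cons g (Fin.cons y x))‖ ≤ A * (√d + ‖g‖))
    (hg : √d + ‖g.eval V c z‖ ≤ a) :
    ‖(surr h P p g o).eval V c z‖ ≤ Ω * (A * a) := by
  have ha : 0 ≤ a := le_trans (by positivity) hg
  rw [eval_surr, hz]
  refine (norm_sum_le _ _).trans (le_trans ?_ (mul_le_mul_of_nonneg_right hω (by positivity)))
  rw [Finset.sum_mul]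
  refine Finset.sum_le_sum fun l _ => ?_
  rw [norm_smul, norm_eq_abs]
  refine mul_le_mul_of_nonneg_left ((norm_integral_le_of_norm_le_const (C := A * a)
    (Filter.Eventually.of_forall fun w => (hhA _ _).trans
      (mul_le_mul_of_nonneg_left hg hA))).trans_eq ?_) (abs_nonneg _)
  rw [probReal_univ, mul_one]

lemma norm_eval_res_sub_tgt_le (hz : z ∘ o = x) {Lam a : ℝ} (hLam : 0 ≤ Lam) (hne : P.full ≠ 0)
    (hfine : |P.fine| ≤ 1) (hfull : |P.full| ≤ 1)
    (hfl : ∀ y y', ‖f.eval V c (Fin.cons y x) - f.eval V c (Fin.cons y' x)‖ ≤ Lam * ‖y - y'‖)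
    (hp : ‖p.eval V c z - c (Fin.last J)‖ ≤ a) :
    ‖(Expr.add (res f P.fine p o) (.smul (-1) (tgt f P.full o))).eval V c z‖ ≤
      Lam * (a + 2 * √d) := by
  simp only [Expr.eval, eval_res, eval_tgt V c f hne, hz, neg_smul, one_smul, ← sub_eq_add_neg]
  refine (norm_smth_sub_smth_le hLam hfl _ _ _ _).trans (mul_le_mul_of_nonneg_left ?_ hLam)
  have h2 : |P.fine - P.full| ≤ 2 := (abs_sub _ _).trans (by linarith)
  exact add_le_add hp (mul_le_mul_of_nonneg_right h2 (Real.sqrt_nonneg _))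

lemma cen_surr_le (hz : z ∘ o = x) {H a Φ M : ℝ} (hH : 0 ≤ H) (hΦ : 0 ≤ Φ)
    (hct : ∀ l, P.ns l * P.ct l = 1 - P.pt l) (hpt : ∀ l, |P.pt l| ≤ 2)
    (hhc : ∀ g y, h.cen V c (Fin.cons g (Fin.cons y x)) ≤
      H * (√d + ‖g‖ + Φ + ‖y - c (Fin.last J)‖))
    (hp : ‖p.eval V c z - c (Fin.last J)‖ ≤ a) (hg : √d + ‖g.eval V c z‖ ≤ a)
    (hpM : p.cen V c z ≤ M) (hgM : g.cen V c z ≤ M) (hM : H * (3 * a + Φ) ≤ M) :
    (surr h P p g o).cen V c z ≤ M := by
  have ha : 0 ≤ a := (norm_nonneg _).trans hp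
  have hM0 : 0 ≤ M := le_trans (by positivity) hM
  refine cen_esum_le V c hM0 z _ fun l => ?_
  simp only [Expr.cen, sum_ctr_smul]
  refine (Expr.cen_subst_le V c h _ _ _ hM0 fun q => ?_).trans (max_le (le_trans ?_ hM) le_rfl)
  · refine Fin.cases ?_ (fun q => ?_) q
    · simpa [Expr.cen_ren, Function.comp_def] using hgM
    · refine Fin.cases ?_ (fun q => ?_) q
      · simpa [Expr.cen, Expr.cen_ren, Function.comp_def] using ⟨hpM, hM0⟩
      · simpa [Expr.cen] using hM0
  have hargs : (fun q => ((Fin.cons (g.ren Fin.succ)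
      (Fin.cons (.add (.smul (P.pt l) (p.ren Fin.succ)) (.smul (P.ns l) (.var 0)))
        fun i => .var (o i).succ) : Fin (v + 2) → Expr κ (J + 1) (m + 1)) q).eval V c
          (Fin.cons (P.ct l • c (Fin.last J)) z)) =
      Fin.cons (g.eval V c z)
        (Fin.cons (P.pt l • p.eval V c z + P.ns l • P.ct l • c (Fin.last J)) x) := by
    funext q
    refine Fin.cases ?_ (fun q => ?_) q
    · simp [Expr.eval_ren, Function.comp_def]
    · refine Fin.cases ?_ (fun q => ?_) q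
      · simp [Expr.eval, Expr.eval_ren, Function.comp_def]
      · simp [Expr.eval, ← hz]
  rw [hargs]
  refine (hhc _ _).trans (mul_le_mul_of_nonneg_left ?_ hH)
  have : ‖P.pt l • p.eval V c z + P.ns l • P.ct l • c (Fin.last J) - c (Fin.last J)‖ ≤ 2 * a := by
    rw [smul_smul, hct, show P.pt l • p.eval V c z + (1 - P.pt l) • c (Fin.last J) -
      c (Fin.last J) = P.pt l • (p.eval V c z - c (Fin.last J)) by module, norm_smul, norm_eq_abs]
    exact mul_le_mul (hpt l) hp (norm_nonneg _) (by norm_num)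
  linarith

lemma cen_res_le (hz : z ∘ o = x) {H a Φ M : ℝ} (r : ℝ) (hH : 0 ≤ H) (hΦ : 0 ≤ Φ)
    (hfc : ∀ y, f.cen V c (Fin.cons y x) ≤ H * (Φ + ‖y - c (Fin.last J)‖))
    (hp : ‖p.eval V c z - c (Fin.last J)‖ ≤ a) (hpM : p.cen V c z ≤ M)
    (hM : H * (3 * a + Φ) ≤ M) : (res f r p o).cen V c z ≤ M := by
  have ha : 0 ≤ a := (norm_nonneg _).trans hp
  have hM0 : 0 ≤ M := le_trans (by positivity) hM
  simp only [res, atPt, Expr.cen, Pi.zero_apply, zero_smul, Finset.sum_const_zero]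
  refine (Expr.cen_subst_le V c f _ _ _ hM0 fun q => ?_).trans (max_le (le_trans ?_ hM) le_rfl)
  · refine Fin.cases ?_ (fun q => ?_) q
    · simpa [Expr.cen, Expr.cen_ren, Function.comp_def] using ⟨hpM, hM0⟩
    · simpa [Expr.cen] using hM0
  have hargs : (fun q => ((Fin.cons (.add (p.ren Fin.succ) (.smul r (.var 0)))
      fun i => .var ((Fin.succ ∘ o) i) : Fin (v + 1) → Expr κ (J + 1) (m + 1)) q).eval V c
        (Fin.cons 0 z)) = Fin.cons (p.eval V c z) x := by
    funext q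
    refine Fin.cases ?_ (fun q => ?_) q
    · simp [Expr.eval, Expr.eval_ren, Function.comp_def]
    · simp [Expr.eval, ← hz]
  rw [hargs]
  exact (hfc _).trans (mul_le_mul_of_nonneg_left (by linarith) hH)

lemma cen_tgt_le (hz : z ∘ o = x) {H Φ M : ℝ} {s : ℝ} (hs : s ≠ 0) (hM0 : 0 ≤ M)
    (hfc : ∀ y, f.cen V c (Fin.cons y x) ≤ H * (Φ + ‖y - c (Fin.last J)‖)) (hM : H * Φ ≤ M) :
    (tgt f s o).cen V c z ≤ M := by
  simp only [tgt, atPt, Expr.cen, sum_ctr_smul]
  refine (Expr.cen_subst_le V c f _ _ _ hM0 fun q => ?_).trans (max_le (le_trans ?_ hM) le_rfl)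
  · refine Fin.cases ?_ (fun q => ?_) q <;> simpa [Expr.cen] using hM0
  have hargs : (fun q => ((Fin.cons (.smul s (.var 0))
      fun i => .var ((Fin.succ ∘ o) i) : Fin (v + 1) → Expr κ (J + 1) (m + 1)) q).eval V c
        (Fin.cons ((1 / s) • c (Fin.last J)) z)) = Fin.cons (c (Fin.last J)) x := by
    funext q
    refine Fin.cases ?_ (fun q => ?_) q
    · simp [Expr.eval, smul_smul, hs]
    · simp [Expr.eval, ← hz]
  rw [hargs]
  simpa using hfc (c (Fin.last J))

end Step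

/-- The Picard increments of a level and their node centres, by the unit of the level. -/
theorem rounds_norm_cen (r k : ℕ) : ∃ C : ℝ, 1 ≤ C ∧
    ∀ {d J v N : ℕ} {κ : Type} (V : κ → Sp d → Sp d) (c : Fin (J + 1) → Sp d)
      (f : Expr κ (J + 1) (v + 1)) (h : Expr κ (J + 1) (v + 2)) (P : Par N) (x : Fin v → Sp d)
      (A Lam H Φ Ω : ℝ), 0 ≤ A → 0 ≤ Lam → 1 ≤ H → 0 ≤ Φ → |P.ay| * Ω * A ≤ 1 → |P.ag| * Lam ≤ 1 →
      ∑ l, |P.ω l| ≤ Ω → (∀ l, |P.pt l| ≤ 2) → |P.fine| ≤ 1 → |P.full| ≤ 1 → P.full ≠ 0 →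
      (∀ l, P.ns l * P.ct l = 1 - P.pt l) →
      (∀ y y', ‖f.eval V c (Fin.cons y x) - f.eval V c (Fin.cons y' x)‖ ≤ Lam * ‖y - y'‖) →
      (∀ g y, ‖h.eval V c (Fin.cons g (Fin.cons y x))‖ ≤ A * (√d + ‖g‖)) →
      (∀ y, f.cen V c (Fin.cons y x) ≤ H * (Φ + ‖y - c (Fin.last J)‖)) →
      (∀ g y, h.cen V c (Fin.cons g (Fin.cons y x)) ≤
        H * (√d + ‖g‖ + Φ + ‖y - c (Fin.last J)‖)) →
      ∀ (i : Fin (r + 1)) (y g : Sp d),
        ‖(inc f h P r k i).1.eval V c (Fin.cons y (Fin.cons g x))‖ ≤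
          C * (√d + ‖g‖ + ‖y - c (Fin.last J)‖) ∧
        ‖(inc f h P r k i).2.eval V c (Fin.cons y (Fin.cons g x))‖ ≤
          C * (√d + ‖g‖ + ‖y - c (Fin.last J)‖) ∧
        (inc f h P r k i).1.cen V c (Fin.cons y (Fin.cons g x)) ≤
          C * H * (√d + ‖g‖ + ‖y - c (Fin.last J)‖ + Φ) ∧
        (inc f h P r k i).2.cen V c (Fin.cons y (Fin.cons g x)) ≤
          C * H * (√d + ‖g‖ + ‖y - c (Fin.last J)‖ + Φ) := by
  induction k with
  | zero =>
    refine ⟨1, le_rfl, fun {d J v N κ} V c f h P x A Lam H Φ Ω _ _ hH hΦ _ _ _ _ _ _ _ _ _ _ _ _ i y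
      g => ?_⟩
    have : 0 ≤ H := zero_le_one.trans hH
    refine ⟨?_, ?_, ?_, ?_⟩ <;> simp [inc, Expr.eval, Expr.cen] <;> positivity
  | succ k ih =>
    obtain ⟨C, hC, ih⟩ := ih
    set W : ℝ := ∑ i : Fin (r + 1), ∑ j, |FlowStep.colw r (Quad.node (r + 1) i) j| with hW
    have hW0 : 0 ≤ W := Finset.sum_nonneg fun i _ => Finset.sum_nonneg fun j _ => abs_nonneg _
    refine ⟨3 * (W + 1) * (1 + C), by nlinarith only [hC, mul_nonneg hW0 (by linarith : 0 ≤ C), hW0],
      fun {d J v N κ} V c f h P x A Lam H Φ Ω hA hLam hH hΦ hay hag hω hpt hfine hfull hne hct hfl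
        hhA hfc hhc i y g => ?_⟩
    have ih' := fun j => ih V c f h P x A Lam H Φ Ω hA hLam hH hΦ hay hag hω hpt hfine hfull hne hct
      hfl hhA hfc hhc j y g
    have hWi : ∑ j, |FlowStep.colw r (Quad.node (r + 1) i) j| ≤ W :=
      Finset.single_le_sum (f := fun i => ∑ j, |FlowStep.colw r (Quad.node (r + 1) i) j|)
        (fun i _ => Finset.sum_nonneg fun j _ => abs_nonneg _) (Finset.mem_univ i)
    set c₀ := c (Fin.last J) with hc₀
    set S := √(d : ℝ) + ‖g‖ + ‖y - c₀‖ with hS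
    have hS0 : 0 ≤ S := by positivity
    have hy : ‖y - c₀‖ ≤ S := by linarith [Real.sqrt_nonneg (d : ℝ), norm_nonneg g]
    have hC0 : 0 ≤ C := zero_le_one.trans hC
    have hH0 : 0 ≤ H := zero_le_one.trans hH
    have h1C : 1 + C ≤ (W + 1) * (1 + C) := le_mul_of_one_le_left (by linarith) (by linarith)
    set z : Fin (v + 2) → Sp d := Fin.cons y (Fin.cons g x) with hz
    have hzold : z ∘ old v = x := by funext l; simp [hz, old]
    have hz1 : z 1 = g := rfl
    have hz0 : z 0 = y := rfl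
    set D₁ := fun j => (inc f h P r k j).1.eval V c z with hD₁
    set D₂ := fun j => (inc f h P r k j).2.eval V c z with hD₂
    -- the shifted point and the shifted variable
    have hp : ∀ j, ‖y + D₁ j - c₀‖ ≤ (1 + C) * S := fun j => by
      rw [add_sub_right_comm, add_mul, one_mul]
      exact (norm_add_le _ _).trans (add_le_add hy (ih' j).1)
    have hg : ∀ j, √(d : ℝ) + ‖g + D₂ j‖ ≤ (1 + C) * S := fun j => by
      rw [add_mul, one_mul]
      have := (norm_add_le g (D₂ j)).trans (add_le_add le_rfl (ih' j).2.1)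
      linarith [norm_nonneg (y - c₀)]
    have hS1 : 0 ≤ S + Φ := add_nonneg hS0 hΦ
    have hM : 0 ≤ 3 * (W + 1) * (1 + C) * H * (S + Φ) := by positivity
    have hCH : C * H * (S + Φ) ≤ 3 * (W + 1) * (1 + C) * H * (S + Φ) :=
      mul_le_mul_of_nonneg_right (mul_le_mul_of_nonneg_right (by linarith) hH0) hS1
    have h3 : ∀ t, t ≤ 3 * ((1 + C) * (H * (S + Φ))) → t ≤ 3 * (W + 1) * (1 + C) * H * (S + Φ) :=
      fun t ht => ht.trans (by
        rw [show 3 * (W + 1) * (1 + C) * H * (S + Φ) =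
          3 * ((W + 1) * (1 + C) * (H * (S + Φ))) by ring]
        exact mul_le_mul_of_nonneg_left
          (mul_le_mul_of_nonneg_right h1C (mul_nonneg hH0 hS1)) (by norm_num))
    set a := (1 + C) * S with ha
    have ha0 : 0 ≤ a := by positivity
    have hd' : √(d : ℝ) ≤ a := by
      refine le_trans ?_ (le_mul_of_one_le_left hS0 (by linarith))
      linarith [norm_nonneg g, norm_nonneg (y - c₀)]
    have hpe : ∀ j, ‖(Expr.add (.var 0) (inc f h P r k j).1).eval V c z - c₀‖ ≤ a := fun j => by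
      simpa [Expr.eval, hz0, hD₁] using hp j
    have hge : ∀ j, √(d : ℝ) + ‖(Expr.add (.var 1) (inc f h P r k j).2).eval V c z‖ ≤ a :=
      fun j => by simpa [Expr.eval, hz1, hD₂] using hg j
    have hpM : ∀ j, (Expr.add (.var 0) (inc f h P r k j).1).cen V c z ≤
        3 * (W + 1) * (1 + C) * H * (S + Φ) := fun j => max_le hM ((ih' j).2.2.1.trans hCH)
    have hgM : ∀ j, (Expr.add (.var 1) (inc f h P r k j).2).cen V c z ≤
        3 * (W + 1) * (1 + C) * H * (S + Φ) := fun j => max_le hM ((ih' j).2.2.2.trans hCH)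
    have hMa : H * (3 * a + Φ) ≤ 3 * (W + 1) * (1 + C) * H * (S + Φ) := h3 _ (by
      rw [ha, show 3 * ((1 + C) * (H * (S + Φ))) =
        H * (3 * ((1 + C) * S) + 3 * (1 + C) * Φ) by ring]
      exact mul_le_mul_of_nonneg_left
        (add_le_add le_rfl (le_mul_of_one_le_left hΦ (by linarith))) hH0)
    have hblk : ∀ (t : ℝ) (e : Fin (r + 1) → Expr κ (J + 1) (v + 2)) (B : ℝ),
        (∀ j, ‖(e j).eval V c z‖ ≤ B) →
        ‖(Expr.smul t (Expr.esum fun j =>
          .smul (FlowStep.colw r (Quad.node (r + 1) i) j) (e j))).eval V c z‖ ≤ |t| * (W * B) := by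
      intro t e B he
      simp only [Expr.eval, Expr.eval_esum, norm_smul, norm_eq_abs]
      refine mul_le_mul_of_nonneg_left ((norm_sum_le _ _).trans (le_trans ?_
        (mul_le_mul_of_nonneg_right hWi ((norm_nonneg _).trans (he i))))) (abs_nonneg _)
      rw [Finset.sum_mul]
      exact Finset.sum_le_sum fun j _ => by
        rw [norm_smul, norm_eq_abs]
        exact mul_le_mul_of_nonneg_left (he j) (abs_nonneg _)
    have hfin : ∀ t : ℝ, t ≤ W * (3 * a) → t ≤ 3 * (W + 1) * (1 + C) * S := fun t ht => by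
      refine ht.trans ?_
      rw [ha, show 3 * (W + 1) * (1 + C) * S = W * (3 * ((1 + C) * S)) + 3 * ((1 + C) * S) by ring]
      exact le_add_of_nonneg_right (by positivity)
    refine ⟨?_, ?_, ?_, ?_⟩
    · refine (hblk P.ay _ _ fun j =>
        norm_eval_surr_le V c h P x z (old v) _ _ hzold hA hω hhA (hge j)).trans (hfin _ ?_)
      calc |P.ay| * (W * (Ω * (A * a))) = |P.ay| * Ω * A * (W * a) := by ring
        _ ≤ 1 * (W * a) := mul_le_mul_of_nonneg_right hay (by positivity)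
        _ ≤ W * (3 * a) := by rw [one_mul]; exact mul_le_mul_of_nonneg_left (by linarith) hW0
    · refine (hblk P.ag _ _ fun j => norm_eval_res_sub_tgt_le V c f P x z (old v) _ hzold hLam hne
        hfine hfull hfl (hpe j)).trans (hfin _ ?_)
      calc |P.ag| * (W * (Lam * (a + 2 * √d))) = |P.ag| * Lam * (W * (a + 2 * √d)) := by ring
        _ ≤ 1 * (W * (a + 2 * √d)) := mul_le_mul_of_nonneg_right hag (by positivity)
        _ ≤ W * (3 * a) := by rw [one_mul]; exact mul_le_mul_of_nonneg_left (by linarith) hW0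
    · exact cen_esum_le V c hM z _ fun j => cen_surr_le V c h P x z (old v) _ _ hzold hH0 hΦ hct
        hpt hhc (hpe j) (hge j) (hpM j) (hgM j) hMa
    · exact cen_esum_le V c hM z _ fun j => max_le
        (cen_res_le V c f x z (old v) _ hzold _ hH0 hΦ hfc (hpe j) (hpM j) hMa)
        (cen_tgt_le V c f x z (old v) hzold hne hM hfc
          (le_trans (mul_le_mul_of_nonneg_left (by linarith) hH0) hMa))

end Vale.Agent.P347.Shift.Level
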