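import Vale.Agent.P347.Shift.Level.StepAux

/-!
# P347: the smallness conditions and the error arithmetic of one level
-/

open Real

namespace Vale.Agent.P347.Shift.Level

/-- All smallness conditions of one level follow from one: `pW` is the threshold, `a` the loss,
`Sm` the size of the product, `A` its Lipschitz constant. -/
theorem level_nums {η σ b' M Lam Sm A CA CL pW a e₁ K₁ B₁ Cb Cem Ω : ℝ}
    (hη : 0 < η) (hη1 : η ≤ 1) (hσ : 0 < σ) (hσ1 : σ ≤ 1) (hb : 0 < b') (ha : 0 < a)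
    (hw : 1 / 20 ≤ pW - 2 * a) (ha20 : a ≤ 1 / 100) (he₁ : e₁ ≤ a) (hCA : 1 ≤ CA) (hCL : 1 ≤ CL)
    (hB₁ : 1 ≤ B₁) (hCb : 1 ≤ Cb) (hCem : 1 ≤ Cem) (hΩ : 1 ≤ Ω)
    (hM : M / b' ≤ CL * η ^ pW) (hM0 : 0 ≤ M) (hLam : Lam ≤ B₁ * M) (hLam0 : 0 ≤ Lam)
    (hSm : Sm ≤ CA * η ^ (-(2 * a)) * M) (hSm0 : 0 ≤ Sm)
    (hA : A ≤ CA * η ^ (-(2 * a)) * M) (hA0 : 0 ≤ A)
    (hK : 8 * Cem * Cb * Ω * CA * CL * B₁ ≤ K₁) (hsmall : K₁ * η ^ (a / 2) ≤ 1) :
    σ ^ 2 / b' * Sm ≤ σ * η ^ (pW - 5 / 2 * a) ∧ 1 / b' * M ≤ η ^ (pW - a) ∧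
      σ * η ^ (pW - 5 / 2 * a) ≤ 1 ∧ η ^ (pW - a) ≤ 1 ∧
      B₁ * η ^ (-a) * (σ * η ^ (pW - 5 / 2 * a) + η ^ (pW - a)) ≤ η ^ (pW - 4 * a) ∧
      Cb * (σ * η ^ (pW - 5 / 2 * a)) * η ^ (-(pW - 4 * a)) ≤ σ * η ^ e₁ / 2 ∧
      σ ^ 2 / b' * Ω * A ≤ 1 ∧ 1 / b' * Lam ≤ 1 ∧
      Cem * (Lam * σ / b' + σ / b' * Ω * A * (1 + σ)) ≤ 1 := by
  have hK0 : 0 ≤ K₁ := le_trans (by positivity) hK
  have small : ∀ {c x y : ℝ}, 0 ≤ c → c ≤ 8 * Cem * Cb * Ω * CA * CL * B₁ → y + a / 2 ≤ x →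
      c * η ^ x ≤ η ^ y := fun hc hcK hxy =>
    le_rpow_of_small hη hη1 hc
      ((mul_le_mul_of_nonneg_right (hcK.trans hK) (rpow_nonneg hη.le _)).trans hsmall) hxy
  have small1 : ∀ {c x : ℝ}, 0 ≤ c → c ≤ 8 * Cem * Cb * Ω * CA * CL * B₁ → a / 2 ≤ x →
      c * η ^ x ≤ 1 := fun hc hcK hx =>
    (small (y := 0) hc hcK (by linarith)).trans_eq (rpow_zero η)
  have big : ∀ {c : ℝ}, c ≤ CA * CL → 0 ≤ c → c ≤ 8 * Cem * Cb * Ω * CA * CL * B₁ := fun hc _ => by
    refine hc.trans ?_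
    rw [show 8 * Cem * Cb * Ω * CA * CL * B₁ = CA * CL * (8 * Cem * Cb * Ω * B₁) by ring]
    refine le_mul_of_one_le_right (by positivity) ?_
    nlinarith [one_le_mul_of_one_le_of_one_le hCem hCb, one_le_mul_of_one_le_of_one_le hΩ hB₁]
  have hMb : 1 / b' * M ≤ CL * η ^ pW := by rwa [one_div_mul_eq_div]
  have hprod : ∀ {X : ℝ}, X ≤ CA * η ^ (-(2 * a)) * M →
      1 / b' * X ≤ CA * CL * η ^ (pW - 2 * a) := fun {X} hX => by
    calc 1 / b' * X ≤ 1 / b' * (CA * η ^ (-(2 * a)) * M) :=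
          mul_le_mul_of_nonneg_left hX (by positivity)
      _ = CA * η ^ (-(2 * a)) * (1 / b' * M) := by ring
      _ ≤ CA * η ^ (-(2 * a)) * (CL * η ^ pW) := by gcongr
      _ = _ := by rw [sub_eq_add_neg pW, rpow_add hη]; ring
  have hgg : σ * η ^ (pW - 5 / 2 * a) ≤ 1 :=
    mul_le_one₀ hσ1 (rpow_nonneg hη.le _) (rpow_le_one hη.le hη1 (by linarith))
  refine ⟨?_, ?_, hgg, rpow_le_one hη.le hη1 (by linarith), ?_, ?_, ?_, ?_, ?_⟩
  · calc σ ^ 2 / b' * Sm = σ * σ * (1 / b' * Sm) := by ring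
      _ ≤ σ * 1 * (CA * CL * η ^ (pW - 2 * a)) :=
          mul_le_mul (mul_le_mul_of_nonneg_left hσ1 hσ.le) (hprod hSm) (by positivity) (by positivity)
      _ ≤ σ * 1 * η ^ (pW - 5 / 2 * a) := mul_le_mul_of_nonneg_left
          (small (by positivity) (big le_rfl (by positivity)) (by linarith)) (by positivity)
      _ = _ := by ring
  · exact hMb.trans (small (by positivity)
      (big (le_mul_of_one_le_left (by positivity) hCA) (by positivity)) (by linarith))
  · have h1 : σ * η ^ (pW - 5 / 2 * a) + η ^ (pW - a) ≤ 2 * η ^ (pW - 5 / 2 * a) := by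
      have := mul_le_of_le_one_left (rpow_nonneg hη.le (pW - 5 / 2 * a)) hσ1
      have := rpow_le_rpow_of_exponent_ge hη hη1 (show pW - 5 / 2 * a ≤ pW - a by linarith)
      linarith
    calc B₁ * η ^ (-a) * (σ * η ^ (pW - 5 / 2 * a) + η ^ (pW - a))
        ≤ B₁ * η ^ (-a) * (2 * η ^ (pW - 5 / 2 * a)) :=
          mul_le_mul_of_nonneg_left h1 (by positivity)
      _ = 2 * B₁ * η ^ (pW - 7 / 2 * a) := by
          rw [show pW - 7 / 2 * a = -a + (pW - 5 / 2 * a) by ring, rpow_add hη]; ring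
      _ ≤ _ := small (by positivity) (by
            rw [show 8 * Cem * Cb * Ω * CA * CL * B₁ = 2 * B₁ * (4 * Cem * Cb * Ω * CA * CL) by
              ring]
            refine le_mul_of_one_le_right (by positivity) ?_
            nlinarith [one_le_mul_of_one_le_of_one_le hCem hCb,
              one_le_mul_of_one_le_of_one_le hΩ hCA, hCL,
              one_le_mul_of_one_le_of_one_le (one_le_mul_of_one_le_of_one_le hCem hCb)
                (one_le_mul_of_one_le_of_one_le hΩ (one_le_mul_of_one_le_of_one_le hCA hCL))])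
          (by linarith)
  · calc Cb * (σ * η ^ (pW - 5 / 2 * a)) * η ^ (-(pW - 4 * a))
        = σ / 2 * ((2 * Cb) * η ^ (3 / 2 * a)) := by
          rw [show 3 / 2 * a = (pW - 5 / 2 * a) + -(pW - 4 * a) by ring, rpow_add hη]; ring
      _ ≤ σ / 2 * η ^ e₁ := mul_le_mul_of_nonneg_left (small (by positivity) (by
          rw [show 8 * Cem * Cb * Ω * CA * CL * B₁ = 2 * Cb * (4 * Cem * Ω * CA * CL * B₁) by
            ring]
          refine le_mul_of_one_le_right (by positivity) ?_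
          nlinarith [one_le_mul_of_one_le_of_one_le hCem hΩ,
            one_le_mul_of_one_le_of_one_le (one_le_mul_of_one_le_of_one_le hCem hΩ)
              (one_le_mul_of_one_le_of_one_le hCA (one_le_mul_of_one_le_of_one_le hCL hB₁))])
          (by linarith)) (by positivity)
      _ = _ := by ring
  · calc σ ^ 2 / b' * Ω * A = σ ^ 2 * (Ω * (1 / b' * A)) := by ring
      _ ≤ 1 * (Ω * (CA * CL * η ^ (pW - 2 * a))) :=
          mul_le_mul (pow_le_one₀ hσ.le hσ1) (mul_le_mul_of_nonneg_left (hprod hA) (by positivity))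
            (by positivity) zero_le_one
      _ = (Ω * (CA * CL)) * η ^ (pW - 2 * a) := by ring
      _ ≤ 1 := small1 (by positivity) (by
          rw [show 8 * Cem * Cb * Ω * CA * CL * B₁ = Ω * (CA * CL) * (8 * Cem * Cb * B₁) by ring]
          refine le_mul_of_one_le_right (by positivity) ?_
          nlinarith [one_le_mul_of_one_le_of_one_le (one_le_mul_of_one_le_of_one_le hCem hCb) hB₁])
          (by linarith)
  · calc 1 / b' * Lam ≤ 1 / b' * (B₁ * M) := mul_le_mul_of_nonneg_left hLam (by positivity)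
      _ = B₁ * (1 / b' * M) := by ring
      _ ≤ B₁ * (CL * η ^ pW) := by gcongr
      _ = (B₁ * CL) * η ^ pW := by ring
      _ ≤ 1 := small1 (by positivity) (by
          rw [show 8 * Cem * Cb * Ω * CA * CL * B₁ = B₁ * CL * (8 * Cem * Cb * Ω * CA) by ring]
          refine le_mul_of_one_le_right (by positivity) ?_
          nlinarith [one_le_mul_of_one_le_of_one_le (one_le_mul_of_one_le_of_one_le hCem hCb)
            (one_le_mul_of_one_le_of_one_le hΩ hCA)]) (by linarith)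
  · have e1 : Lam * σ / b' ≤ B₁ * CL * η ^ (pW - 2 * a) := by
      calc Lam * σ / b' = σ * (1 / b' * Lam) := by ring
        _ ≤ 1 * (1 / b' * (B₁ * M)) := by gcongr
        _ = B₁ * (1 / b' * M) := by ring
        _ ≤ B₁ * (CL * η ^ pW) := by gcongr
        _ ≤ B₁ * CL * η ^ (pW - 2 * a) := by
            rw [← mul_assoc]
            exact mul_le_mul_of_nonneg_left
              (rpow_le_rpow_of_exponent_ge hη hη1 (by linarith)) (by positivity)
    have e2 : σ / b' * Ω * A * (1 + σ) ≤ 2 * Ω * CA * CL * η ^ (pW - 2 * a) := by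
      calc σ / b' * Ω * A * (1 + σ) = (σ * (1 + σ)) * Ω * (1 / b' * A) := by ring
        _ ≤ (1 * 2) * Ω * (CA * CL * η ^ (pW - 2 * a)) :=
            mul_le_mul (mul_le_mul_of_nonneg_right
              (mul_le_mul hσ1 (by linarith) (by positivity) zero_le_one) (by positivity))
              (hprod hA) (by positivity) (by positivity)
        _ = _ := by ring
    calc Cem * (Lam * σ / b' + σ / b' * Ω * A * (1 + σ))
        ≤ Cem * (B₁ * CL * η ^ (pW - 2 * a) + 2 * Ω * CA * CL * η ^ (pW - 2 * a)) :=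
          mul_le_mul_of_nonneg_left (add_le_add e1 e2) (by linarith)
      _ = Cem * CL * (B₁ + 2 * Ω * CA) * η ^ (pW - 2 * a) := by ring
      _ ≤ 1 := small1 (by positivity) (by
          rw [show 8 * Cem * Cb * Ω * CA * CL * B₁ = Cem * CL * (8 * Cb * Ω * CA * B₁) by ring]
          refine mul_le_mul_of_nonneg_left ?_ (by positivity)
          have e3 := one_le_mul_of_one_le_of_one_le hΩ hCA
          have e4 := le_mul_of_one_le_left (zero_le_one.trans hB₁) e3
          have e5 := le_mul_of_one_le_right (show 0 ≤ Ω * CA by positivity) hB₁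
          have e6 := le_mul_of_one_le_right (show 0 ≤ Ω * CA * B₁ by positivity) hCb
          linarith)
          (by linarith)

/-- The error of one step against the bound of the level: `q` is the ratio of the quadrature, `p`
the contraction, `t` is `η ^ (n pE)` and `T` the bracket of the level. -/
theorem step_err_le {Cem b' M q p sd t T S Lam e₀ B₁ Cq' Cp' Cs' : ℝ} {n : ℕ} {ι : Type}
    [Fintype ι] {w E D : ι → ℝ} {CE σ : ℝ} (hCem : 0 ≤ Cem) (hM : 0 ≤ M)
    (hsd : 0 ≤ sd) (ht : 0 ≤ t) (hT1 : t * sd ≤ T) (he₀ : 0 ≤ e₀) (hT2 : e₀ ≤ T)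
    (hq : b' * q ^ (n + 2) ≤ Cq' * M * t) (hp : b' * p ^ (n + 2) ≤ Cp' * M * t)
    (hs : b' * S ≤ Cs' * M * t * sd) (hLam : Lam ≤ B₁ * M) (hB₁ : 0 ≤ B₁)
    (hCq : 0 ≤ Cq') (hCp : 0 ≤ Cp') (hCs : 0 ≤ Cs') (hCE : 0 ≤ CE) (hσ : 0 ≤ σ) (hσ1 : σ ≤ 1)
    (hE : ∀ i, E i ≤ CE * M * T) (hD : ∀ i, D i ≤ CE * M * t)
    (ht1 : t ≤ 1) :
    Cem * b' * ((q ^ (n + 2) + p ^ (n + 2)) * sd + S) + Cem * Lam * e₀ +
        ∑ i, |w i| * (E i + D i * (e₀ + (σ + 1) * sd)) ≤
      (Cem * (Cq' + Cp' + Cs' + B₁) + (∑ i, |w i|) * (CE * 4)) * M * T := by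
  have hT0 : 0 ≤ T := (mul_nonneg ht hsd).trans hT1
  have h1 : Cem * b' * ((q ^ (n + 2) + p ^ (n + 2)) * sd + S) ≤
      Cem * (Cq' + Cp' + Cs') * M * T := by
    have h2 := mul_le_mul_of_nonneg_right hq hsd
    have h3 := mul_le_mul_of_nonneg_right hp hsd
    have h4 : (Cq' + Cp' + Cs') * M * (t * sd) ≤ (Cq' + Cp' + Cs') * M * T :=
      mul_le_mul_of_nonneg_left hT1 (by positivity)
    calc Cem * b' * ((q ^ (n + 2) + p ^ (n + 2)) * sd + S)
        = Cem * (b' * q ^ (n + 2) * sd + b' * p ^ (n + 2) * sd + b' * S) := by ring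
      _ ≤ Cem * ((Cq' + Cp' + Cs') * M * T) := mul_le_mul_of_nonneg_left (by linarith) hCem
      _ = _ := by ring
  have h5 : Cem * Lam * e₀ ≤ Cem * B₁ * M * T := by
    calc Cem * Lam * e₀ ≤ Cem * (B₁ * M) * T := by gcongr
      _ = _ := by ring
  have h6 : ∀ i, |w i| * (E i + D i * (e₀ + (σ + 1) * sd)) ≤ |w i| * (CE * 4) * M * T := fun i => by
    rw [mul_assoc |w i|, mul_assoc |w i|]
    refine mul_le_mul_of_nonneg_left ?_ (abs_nonneg _)
    have h7 : D i * (e₀ + (σ + 1) * sd) ≤ CE * M * (3 * T) := by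
      calc D i * (e₀ + (σ + 1) * sd) ≤ CE * M * t * (e₀ + 2 * sd) :=
            mul_le_mul (hD i) (by nlinarith) (by positivity) (by positivity)
        _ = CE * M * (t * e₀ + 2 * (t * sd)) := by ring
        _ ≤ CE * M * (3 * T) := by
            refine mul_le_mul_of_nonneg_left ?_ (by positivity)
            have := mul_le_of_le_one_left he₀ ht1
            linarith
    linarith [hE i]
  have h8 := Finset.sum_le_sum fun i (_ : i ∈ Finset.univ) => h6 i
  rw [← Finset.sum_mul, ← Finset.sum_mul, ← Finset.sum_mul] at h8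
  linarith

end Vale.Agent.P347.Shift.Level
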