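import Vale.Agent.P347.Shift.Level.StepPoint
import Vale.Agent.P347.Shift.Level.Bounds
import Vale.Agent.P347.Shift.MehlerRule

/-!
# P347: one level down

If the means at scale `η ^ (e + pE)` are emitted, so are the means at scale `η ^ e`: one invariant
flow step, whose Picard points are emitted by `PtSpec` `pD` orders below and fed to the finer level.
-/

open MeasureTheory ProbabilityTheory Real
open scoped RealInnerProductSpace ENNReal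

namespace Vale.Agent.P347.Shift.Level

open Quarter EmFlow

/-- The gap of the rule at the ratio of one level. -/
private lemma gap_of_small {η e₁ : ℝ} (hη : 0 < η) (h8 : 8 * η ^ (2 * e₁) ≤ 1)
    (h2 : 2 * η ^ (1 - 2 * e₁) ≤ 1) :
    0 < η ^ (2 * e₁) ∧ η ^ (2 * e₁) ≤ 1 / 8 ∧ η ^ 1 ≤ 1 - √(1 - η ^ (2 * e₁)) := by
  have h0 : 0 < η ^ (2 * e₁) := rpow_pos_of_pos hη _
  obtain ⟨-, -, h⟩ := sqrt_bounds h0 (by linarith)
  refine ⟨h0, by linarith, le_trans ?_ h⟩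
  have h1 := mul_le_mul_of_nonneg_left h2 h0.le
  rw [show η ^ (2 * e₁) * (2 * η ^ (1 - 2 * e₁)) = 2 * (η ^ (2 * e₁) * η ^ (1 - 2 * e₁)) by ring,
    ← rpow_add hη, show 2 * e₁ + (1 - 2 * e₁) = (1 : ℝ) by ring, rpow_one, mul_one] at h1
  rw [pow_one]
  linarith

/-- The rooms of one level. -/
private lemma rooms {r : ℕ} {b W : ℝ} {cw : Fin (r + 1) → ℝ} (hb : 0 < b) (hW : W = ∑ i, cw i ^ 2) :
    0 < b / (2 * √(1 + W)) ∧
      b / 2 ≤ √(b ^ 2 - ∑ i, (cw i * (b / (2 * √(1 + W)))) ^ 2) ∧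
      √(√(b ^ 2 - ∑ i, (cw i * (b / (2 * √(1 + W)))) ^ 2) ^ 2 +
        ∑ i, (cw i * (b / (2 * √(1 + W)))) ^ 2) = b := by
  have hW0 : 0 ≤ W := hW ▸ Finset.sum_nonneg fun i _ => sq_nonneg _
  have h0 : 0 ≤ ∑ i, (cw i * (b / (2 * √(1 + W)))) ^ 2 := Finset.sum_nonneg fun i _ => sq_nonneg _
  have h4 : ∑ i, (cw i * (b / (2 * √(1 + W)))) ^ 2 ≤ b ^ 2 / 4 := by
    simp only [mul_pow, ← Finset.sum_mul]
    rw [← hW, div_pow, mul_pow, Real.sq_sqrt (by linarith), ← mul_div_assoc,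
      div_le_iff₀ (by positivity)]
    linarith [sq_nonneg b]
  refine ⟨by positivity, Real.le_sqrt_of_sq_le (by linarith [sq_nonneg b]), ?_⟩
  rw [Real.sq_sqrt (by linarith [sq_nonneg b]), sub_add_cancel, Real.sqrt_sq hb.le]

/-- The exponent of the cost. -/
private lemma rpow_pow_split {η θ : ℝ} (hη : 0 < η) (a : ℕ) (ha : 0 < a) :
    (η ^ (-(θ / a))) ^ a = η ^ (-θ) := by
  rw [← rpow_natCast, ← rpow_mul hη.le]
  congr 1
  field_simp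

variable {κ α : Type} [MeasurableSpace α] {d J v N K n Dh Av : ℕ}
  {η L B₀ B₁ CA Cm Hc θ σ τ b' Ω : ℝ} {sc : κ → ℝ} {f : Expr κ J (v + 1)}
  {h : Expr κ (J + 1) (v + 2)} {kap : Fin J → ℝ} {ω u : Fin N → ℝ}

/-- The data of one level. -/
structure Ctx (d K n Dh Av : ℕ) (η L B₀ B₁ CA Cm Hc θ σ τ b' Ω : ℝ) (sc : κ → ℝ)
    (f : Expr κ J (v + 1)) (h : Expr κ (J + 1) (v + 2)) (kap : Fin J → ℝ) (ω u : Fin N → ℝ) :
    Prop where
  hη : 0 < η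
  hη1 : η ≤ 1
  hL : 0 ≤ L
  hsc : ∀ k, 0 ≤ sc k
  hB₀ : 1 ≤ B₀
  hB₁ : 1 ≤ B₁
  hCA : 1 ≤ CA
  hCm : 0 ≤ Cm
  hHc : 1 ≤ Hc
  hHf : 2 * B₀ ^ 4 ≤ Hc
  hn : 0 < n
  hkap : ∀ j, 0 < kap j
  hG : f.Good η L sc B₀ (B₀ * η ^ (-pA K)) (pW K n)
  hF : f.Fill kap
  hh : Prod' d K n Dh Av η L B₁ CA Cm Hc θ sc f.wk h
  hσ : 0 < σ
  hσ1 : σ ≤ 1
  hτ0 : 0 < τ
  hτ8 : τ ≤ 1 / 8
  hb' : 0 < b'
  hΩ : 1 ≤ Ω
  hu : ∀ j, 0 ≤ u j ∧ u j ≤ √√(1 - τ)
  hω : ∑ j, |ω j| ≤ Ω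
  hay : |(par σ τ b' Ω ω u).ay| * (CA * η ^ (-(2 * pA K)) * (f.sm L sc + |f.aff 0|)) ≤ 1
  hag : |(par σ τ b' Ω ω u).ag| * (|f.aff 0| + B₀ * f.sm L sc) ≤ 1

/-- The emissions at one point of a level. -/
private lemma node_ctx (H : Ctx d K n Dh Av η L B₀ B₁ CA Cm Hc θ σ τ b' Ω sc f h kap ω u) {k : ℕ}
    {Cr : ℝ} (hCr : 1 ≤ Cr)
    (hrounds : ∀ {d J v N : ℕ} {κ : Type} (V : κ → Sp d → Sp d) (c : Fin (J + 1) → Sp d)
      (f : Expr κ (J + 1) (v + 1)) (h : Expr κ (J + 1) (v + 2)) (P : Par N) (x : Fin v → Sp d)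
      (A Lam H Φ Ω : ℝ), 0 ≤ A → 0 ≤ Lam → 1 ≤ H → 0 ≤ Φ → |P.ay| * Ω * A ≤ 1 → |P.ag| * Lam ≤ 1 →
      ∑ l, |P.ω l| ≤ Ω → (∀ l, |P.pt l| ≤ 2) → |P.fine| ≤ 1 → |P.full| ≤ 1 → P.full ≠ 0 →
      (∀ l, P.ns l * P.ct l = 1 - P.pt l) →
      (∀ y y', ‖f.eval V c (Fin.cons y x) - f.eval V c (Fin.cons y' x)‖ ≤ Lam * ‖y - y'‖) →
      (∀ g y, ‖h.eval V c (Fin.cons g (Fin.cons y x))‖ ≤ A * (√d + ‖g‖)) →
      (∀ y, f.cen V c (Fin.cons y x) ≤ H * (Φ + ‖y - c (Fin.last J)‖)) →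
      (∀ g y, h.cen V c (Fin.cons g (Fin.cons y x)) ≤
        H * (√d + ‖g‖ + Φ + ‖y - c (Fin.last J)‖)) →
      ∀ (i : Fin (n + 1)) (y g : Sp d),
        ‖(inc f h P n k i).1.eval V c (Fin.cons y (Fin.cons g x))‖ ≤
          Cr * (√d + ‖g‖ + ‖y - c (Fin.last J)‖) ∧
        ‖(inc f h P n k i).2.eval V c (Fin.cons y (Fin.cons g x))‖ ≤
          Cr * (√d + ‖g‖ + ‖y - c (Fin.last J)‖) ∧
        (inc f h P n k i).1.cen V c (Fin.cons y (Fin.cons g x)) ≤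
          Cr * H * (√d + ‖g‖ + ‖y - c (Fin.last J)‖ + Φ) ∧
        (inc f h P n k i).2.cen V c (Fin.cons y (Fin.cons g x)) ≤
          Cr * H * (√d + ‖g‖ + ‖y - c (Fin.last J)‖ + Φ))
    {G : Sp d → Sp d} {V : κ → Sp d → Sp d} (hV : ∀ k, IsField L (V k)) {X : α → Fin v → Sp d}
    {c : α → Fin J → Sp d} {c₀ : α → Sp d} {ec : Fin J → α → ℝ} {ec₀ : α → ℝ}
    (hec : ∀ j a, 0 ≤ ec j a) (hec₀ : ∀ a, 0 ≤ ec₀ a) {e ρ Cb₀ Cp Cs : ℝ} (hσe : σ * √τ = η ^ e)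
    (i : Fin (n + 1)) {pQ R : Emitter d (α × (Sp d × Sp d))} (hCb₀ : 0 ≤ Cb₀)
    (hpW : 5 / 2 * pA K ≤ pW K n)
    (hδ : (inc f.wk.nrm h.nrm (par σ τ b' Ω ω u) n k i).1.sm L sc ≤
      Cb₀ * (σ * η ^ (pW K n - 5 / 2 * pA K)))
    (hD : Emits pQ G (fun s => s.2.1 + (inc f.wk.nrm h.nrm (par σ τ b' Ω ω u) n k i).1.eval V
        (Fin.snoc (c s.1) (c₀ s.1)) (Fin.cons s.2.1 (Fin.cons s.2.2 (X s.1)))) (η ^ e / 2)
      fun s => Cp * (inc f.wk.nrm h.nrm (par σ τ b' Ω ω u) n k i).1.sm L sc *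
        (η ^ (((n - pD K : ℕ) : ℝ) * pE K) * (√d + (inc f.wk.nrm h.nrm (par σ τ b' Ω ω u) n k i).1.cen
            V (Fin.snoc (c s.1) (c₀ s.1)) (Fin.cons s.2.1 (Fin.cons s.2.2 (X s.1)))) +
          (∑ j, ec j s.1 / kap j + ec₀ s.1 / (σ / 2))))
    (hR : ∀ eD : α × (Sp d × Sp d) → ℝ, (∀ s, 0 ≤ eD s) →
      Emits pQ G (fun s => s.2.1 + (inc f.wk.nrm h.nrm (par σ τ b' Ω ω u) n k i).1.eval V
        (Fin.snoc (c s.1) (c₀ s.1)) (Fin.cons s.2.1 (Fin.cons s.2.2 (X s.1)))) (η ^ e / 2) eD →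
      Emits R G (fun s => ∫ z, f.eval V (c s.1)
        (Fin.cons ((s.2.1 + (inc f.wk.nrm h.nrm (par σ τ b' Ω ω u) n k i).1.eval V
          (Fin.snoc (c s.1) (c₀ s.1)) (Fin.cons s.2.1 (Fin.cons s.2.2 (X s.1)))) +
            η ^ e • z) (X s.1)) ∂gd d) ρ fun s => Cs * (f.sm L sc + |f.aff 0|) *
        (η ^ ((n : ℝ) * pE K) * (√d + f.cen V (c s.1) (Fin.cons (s.2.1 +
          (inc f.wk.nrm h.nrm (par σ τ b' Ω ω u) n k i).1.eval V (Fin.snoc (c s.1) (c₀ s.1))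
            (Fin.cons s.2.1 (Fin.cons s.2.2 (X s.1)))) (X s.1))) +
          ∑ j, ec j s.1 / kap j + eD s)) :
    ∃ ε : α × (Sp d × Sp d) → ℝ,
      Emits R G (fun s => fb σ τ (bmap V (Fin.snoc (c s.1) (c₀ s.1)) f.wk.nrm (X s.1))
        (iter n k σ τ b' (bmap V (Fin.snoc (c s.1) (c₀ s.1)) f.wk.nrm (X s.1))
          ((Fin.snoc (c s.1) (c₀ s.1) : Fin (J + 1) → Sp d) (Fin.last J))
          (psurE V (Fin.snoc (c s.1) (c₀ s.1)) h.nrm (X s.1) σ b' ω u) i s.2)) ρ ε ∧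
      ∀ a y g, |ε (a, (y, g))| ≤
        |Cs| * (2 + 2 * (2 * B₀ ^ 4) * Cr + |Cp| * Cb₀ * (2 * Cr * Hc + 2)) *
            (f.sm L sc + |f.aff 0|) * (η ^ ((n : ℝ) * pE K) *
              (√d + f.cen V (c a) (Fin.cons (c₀ a) (X a))) + ∑ j, ec j a / kap j + ec₀ a) +
          |Cs| * (2 + 2 * (2 * B₀ ^ 4) * Cr + |Cp| * Cb₀ * (2 * Cr * Hc + 2)) *
            (f.sm L sc + |f.aff 0|) * η ^ ((n : ℝ) * pE K) *
            (‖y - (Fin.snoc (c a) (c₀ a) : Fin (J + 1) → Sp d) (Fin.last J)‖ + ‖g‖) := by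
  have hη := H.hη
  have hσ := H.hσ
  have hpA0 := pA_pos K
  have hHη : 1 ≤ Hc * η ^ (-pA K) :=
    one_le_mul_of_one_le_of_one_le H.hHc (one_le_eta_rpow_neg hη H.hη1 hpA0.le)
  have hM0 : 0 ≤ f.sm L sc + |f.aff 0| := add_nonneg (f.sm_nonneg H.hL H.hsc) (abs_nonneg _)
  obtain ⟨hu2, hPpt, hPns, hPct, -, -, -, hPfine, hPfull⟩ :=
    par_bounds hσ H.hσ1 H.hτ0 H.hτ8 H.hb' (Ω := Ω) (zero_le_one.trans H.hΩ) ω u H.hu
  have hPω : ∑ j, |(par σ τ b' Ω ω u).ω j| ≤ 1 := by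
    simp only [par, abs_div, abs_of_nonneg (zero_le_one.trans H.hΩ), ← Finset.sum_div]
    exact div_le_one_of_le₀ H.hω (zero_le_one.trans H.hΩ)
  set dy := (inc f.wk.nrm h.nrm (par σ τ b' Ω ω u) n k i).1
  have hgain : η ^ (pW K n - 5 / 2 * pA K) *
      (η ^ (((n - pD K : ℕ) : ℝ) * pE K) * (Hc * η ^ (-pA K))) ≤ Hc * η ^ ((n : ℝ) * pE K) := by
    have h1 := eta_order_gain K n hη H.hη1 (g := pW K n - 7 / 2 * pA K)
      (by linarith [pW_sub_pD K H.hn, pW_ge K (n - pD K)])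
    calc η ^ (pW K n - 5 / 2 * pA K) * (η ^ (((n - pD K : ℕ) : ℝ) * pE K) * (Hc * η ^ (-pA K)))
        = Hc * (η ^ (pW K n - 7 / 2 * pA K) * η ^ (((n - pD K : ℕ) : ℝ) * pE K)) := by
          rw [show pW K n - 7 / 2 * pA K = (pW K n - 5 / 2 * pA K) + -pA K by ring, rpow_add hη]
          ring
      _ ≤ _ := mul_le_mul_of_nonneg_left h1 (zero_le_one.trans H.hHc)
  set eD : α × (Sp d × Sp d) → ℝ := fun s =>
    |Cp| * Cb₀ * (σ * η ^ (pW K n - 5 / 2 * pA K)) * (η ^ (((n - pD K : ℕ) : ℝ) * pE K) *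
        (√d + dy.cen V (Fin.snoc (c s.1) (c₀ s.1)) (Fin.cons s.2.1 (Fin.cons s.2.2 (X s.1)))) +
      (∑ j, ec j s.1 / kap j + ec₀ s.1 / (σ / 2))) with heDdef
  have hbr : ∀ s : α × (Sp d × Sp d), 0 ≤ η ^ (((n - pD K : ℕ) : ℝ) * pE K) *
      (√d + dy.cen V (Fin.snoc (c s.1) (c₀ s.1)) (Fin.cons s.2.1 (Fin.cons s.2.2 (X s.1)))) +
      (∑ j, ec j s.1 / kap j + ec₀ s.1 / (σ / 2)) := fun s =>
    add_nonneg (mul_nonneg (rpow_nonneg hη.le _)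
      (add_nonneg (Real.sqrt_nonneg _) (Expr.cen_nonneg _ _ _ _)))
      (add_nonneg (Finset.sum_nonneg fun j _ => div_nonneg (hec j s.1) (H.hkap j).le)
        (div_nonneg (hec₀ _) (by linarith)))
  have heD0 : ∀ s, 0 ≤ eD s := fun s => mul_nonneg (by positivity) (hbr s)
  have hD' : Emits pQ G (fun s => s.2.1 + dy.eval V (Fin.snoc (c s.1) (c₀ s.1))
      (Fin.cons s.2.1 (Fin.cons s.2.2 (X s.1)))) (η ^ e / 2) eD := by
    refine EmitBase.emits_mono hD fun s => ?_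
    rw [abs_of_nonneg (heD0 s), abs_mul, abs_mul, abs_of_nonneg (dy.sm_nonneg H.hL H.hsc),
      abs_of_nonneg (hbr s), heDdef]
    refine mul_le_mul_of_nonneg_right ?_ (hbr s)
    rw [mul_assoc |Cp| Cb₀]
    exact mul_le_mul_of_nonneg_left hδ (abs_nonneg _)
  have hRi' := EmitBase.emits_mono (e' := fun s => |Cs| * (f.sm L sc + |f.aff 0|) *
      (η ^ ((n : ℝ) * pE K) * (√d + f.cen V (c s.1) (Fin.cons (s.2.1 + dy.eval V
        (Fin.snoc (c s.1) (c₀ s.1)) (Fin.cons s.2.1 (Fin.cons s.2.2 (X s.1)))) (X s.1))) +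
        ∑ j, ec j s.1 / kap j + eD s)) (hR eD heD0 hD') fun s => by
    rw [abs_mul, abs_mul, abs_mul (|Cs| * (f.sm L sc + |f.aff 0|)), abs_mul |Cs|, abs_abs]
  rw [← hσe] at hRi'
  exact point_emits (Ω := Ω) (b := b') (tm := η ^ (((n - pD K : ℕ) : ℝ) * pE K))
    (H := Hc * η ^ (-pA K)) (gam := η ^ (pW K n - 5 / 2 * pA K)) (Cd := |Cp| * Cb₀) (Cs := |Cs|)
    (Cr := Cr) (Hc := Hc) (h := h) (eD := eD) i (rpow_le_one hη.le H.hη1 (pW_pos K n).le) H.hL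
    H.hB₀ hV H.hkap H.hG H.hF hec hec₀ hM0 (rpow_nonneg hη.le _) (rpow_nonneg hη.le _)
    (rpow_nonneg hη.le _) hσ H.hσ1 (by linarith [H.hτ8]) hu2 (zero_lt_one.trans_le H.hΩ).ne'
    (mul_nonneg (abs_nonneg _) hCb₀) (abs_nonneg _) hCr H.hHc hHη hgain
    (rpow_le_one hη.le H.hη1 (by linarith))
    (fun a y g => rounds_at hrounds H.hh hη H.hη1 H.hL H.hsc H.hB₀ (zero_le_one.trans H.hCA) H.hHc
      H.hHf H.hkap (half_pos hσ) H.hG H.hF hV H.hay H.hag hPω hPpt hPfine hPfull hσ.ne' hPct (c a)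
      (c₀ a) (X a) i y g)
    heD0 (fun a y g => le_rfl) hRi'

/-- The error of one level in the form of `ScaleOn`. -/
private lemma err_ctx (H : Ctx d K n Dh Av η L B₀ B₁ CA Cm Hc θ σ τ b' Ω sc f h kap ω u)
    {Cem Cq CE C : ℝ} (hCem : 1 ≤ Cem) (hCq : 0 ≤ Cq) (hCE : 0 ≤ CE) (hB₀₁ : B₀ ≤ B₁)
    (hτ : τ = η ^ (2 * pE K))
    (hβ : (f.sm L sc + |f.aff 0|) / b' ≤ 2 * B₀ * η ^ pW K n)
    (hC : Cem * (B₁ * (B₁ * (2 * B₀)) ^ (n + 1) +
      (Cem * (B₁ + 2 * Ω * CA)) * (Cem * (B₁ + 2 * Ω * CA) * (2 * B₀)) ^ (n + 1) +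
      (Ω * Cm + Cq * B₁) + B₁) + (∑ i, |FlowStep.colw n 1 i|) * (CE * 4) ≤ C)
    {sd Φ S₁ e₀ : ℝ} (hsd : 0 ≤ sd) (hΦ : 0 ≤ Φ) (hS : 0 ≤ S₁) (he : 0 ≤ e₀) :
    |Cem * b' * ((((|f.aff 0| + B₀ * f.sm L sc) * σ / (b' * τ)) ^ (n + 2) +
          (Cem * ((|f.aff 0| + B₀ * f.sm L sc) * σ / b' + σ / b' * (∑ j, |ω j|) *
            (CA * η ^ (-(2 * pA K)) * (f.sm L sc + |f.aff 0|)) * (1 + σ))) ^ (n + 2)) * sd +
        σ / b' * ((∑ j, |ω j|) * (Cm * η ^ (n + 1) * (f.sm L sc + |f.aff 0|) * sd) +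
          Cq * η ^ (n + 1) * (|f.aff 0| + B₀ * f.sm L sc) * sd)) +
      Cem * (|f.aff 0| + B₀ * f.sm L sc) * |e₀| + ∑ i, |FlowStep.colw n 1 i| *
        (CE * (f.sm L sc + |f.aff 0|) * (η ^ ((n : ℝ) * pE K) * (sd + Φ) + S₁ + e₀) +
          CE * (f.sm L sc + |f.aff 0|) * η ^ ((n : ℝ) * pE K) * (|e₀| + (σ + 1) * sd))| ≤
    |C * (f.sm L sc + |f.aff 0|) * (η ^ ((n : ℝ) * pE K) * (sd + Φ) + S₁ + e₀)| := by
  have hη := H.hη
  have hσ := H.hσ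
  have hb' := H.hb'
  obtain ⟨hx1, hx2, -⟩ := exponents K H.hn
  have hsm0 : 0 ≤ f.sm L sc := f.sm_nonneg H.hL H.hsc
  have hB₀ : 0 ≤ B₀ := zero_le_one.trans H.hB₀
  have hB₁ : 0 ≤ B₁ := zero_le_one.trans H.hB₁
  have hCA : 0 ≤ CA := zero_le_one.trans H.hCA
  have hCm := H.hCm
  have hΩ : 0 ≤ Ω := zero_le_one.trans H.hΩ
  have hτ0 := H.hτ0
  set M := f.sm L sc + |f.aff 0| with hM
  set Lam := |f.aff 0| + B₀ * f.sm L sc with hL'
  have hM0 : 0 ≤ M := by positivity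
  have hLam0 : 0 ≤ Lam := by positivity
  have hLam : Lam ≤ B₁ * M := by
    have h1 : |f.aff 0| ≤ B₁ * |f.aff 0| := le_mul_of_one_le_left (abs_nonneg _) H.hB₁
    have h2 := mul_le_mul_of_nonneg_right hB₀₁ hsm0
    linarith
  obtain ⟨h1, h2, h3⟩ := errs_le (n := n) (Cem := Cem) (Cm := Cm) (Cq := Cq) (CA := CA)
    (CL := 2 * B₀) (B₁ := B₁) (A := CA * η ^ (-(2 * pA K)) * M) (T := ∑ j, |ω j|) (Ω := Ω) hη H.hη1
    hσ H.hσ1 hτ hb' (pA_pos K) (pE_pos K) hx1 hx2 (by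
      have := mul_le_mul_of_nonneg_left (pE_le K) (Nat.cast_nonneg (α := ℝ) n)
      linarith [Nat.cast_nonneg (α := ℝ) n]) hCem H.hB₁ hCA (by linarith) hM0 hβ hLam0 hLam
    (by positivity) le_rfl hΩ H.hω (Finset.sum_nonneg fun j _ => abs_nonneg _) hCm hCq
  have ht : 0 ≤ η ^ ((n : ℝ) * pE K) := rpow_nonneg hη.le _
  have hT0 : 0 ≤ η ^ ((n : ℝ) * pE K) * (sd + Φ) + S₁ + e₀ := by positivity
  have hCem0 : 0 ≤ Cem := zero_le_one.trans hCem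
  rw [abs_of_nonneg he, abs_of_nonneg (by positivity)]
  refine le_trans (step_err_le (Cq' := _) (Cp' := _) (Cs' := _) (B₁ := B₁) (CE := CE)
    (T := η ^ ((n : ℝ) * pE K) * (sd + Φ) + S₁ + e₀) (t := η ^ ((n : ℝ) * pE K)) (sd := sd)
    hCem0 hM0 hsd ht (by linarith [mul_nonneg ht hΦ]) he
    (by linarith [mul_nonneg ht (add_nonneg hsd hΦ)]) h1 h2 (h3 _ hsd) hLam hB₁
    (by positivity) (by positivity) (by positivity) hCE hσ.le H.hσ1 (fun i => le_rfl)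
    (fun i => le_rfl) (rpow_le_one hη.le H.hη1 (by have := pE_pos K; positivity))) ?_
  rw [abs_mul, abs_mul, abs_of_nonneg hM0, abs_of_nonneg hT0]
  exact mul_le_mul_of_nonneg_right
    (mul_le_mul_of_nonneg_right (hC.trans (le_abs_self _)) hM0) hT0

set_option maxHeartbeats 800000 in
/-- **One level down.** -/
theorem scaleOn_step {K n D : ℕ} (hmv : MVSpec K) (hpt : PtSpec K (n - pD K)) (hn : 0 < n)
    (hnT : n ≤ pTop K) {e : ℝ} (he : 0 ≤ e)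
    {P : ℝ → ∀ {κ : Type} {J v : ℕ}, Expr κ J (v + 1) → Prop}
    (hP : ∀ (η : ℝ) {κ : Type} {J v : ℕ} (f : Expr κ J (v + 1)), P η f → f.depth ≤ D)
    (hres : ScaleOn K n (e + pE K) P) : ScaleOn K n e P := by
  intro B
  set B₀ : ℝ := max B 1
  have hB₀1 : 1 ≤ B₀ := le_max_right B 1
  obtain ⟨Dh, Av, B₁, hB₀₁, hprod⟩ := exists_product (K := K) (n := n) (D := D) hmv hnT hB₀1
  have hB₁1 : 1 ≤ B₁ := hB₀1.trans hB₀₁
  obtain ⟨Cem, hCem, hem⟩ := level_emits n (n + 2)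
  obtain ⟨Cr, hCr, hrounds⟩ := rounds_norm_cen n (n + 2)
  obtain ⟨Cb₀, Ab, hCb₀, hinc⟩ := inc_bounds (B₀ := B₁) hB₁1 n (n + 2)
  set W : ℝ := ∑ i, FlowStep.colw n 1 i ^ 2 with hW
  obtain ⟨Br, Ar, hres⟩ := hres (B₀ * (2 * √(1 + W)))
  obtain ⟨Bp, Ap, hpt⟩ := hpt (Ab * (D + Dh + 1)) (Cb₀ * B₁)
  refine ⟨max Br Bp, Ar + (Av + 1) * Ab * Ap, fun θ hθ Cb hCb => ?_⟩
  set θ' : ℝ := θ / (2 * Ab * Ap + 2 : ℕ) with hθ'
  have hθ'0 : 0 < θ' := div_pos hθ (by positivity)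
  obtain ⟨CA, Cm, Hc, ηh, hCA, hCm, hHc, hHf, hηh, hprod⟩ := hprod θ' hθ'0
  obtain ⟨Cp, ηp, hηp, hpt⟩ := hpt θ' hθ'0 Cb hCb
  obtain ⟨Cs, ηs, hηs, hres⟩ := hres θ' hθ'0 Cb hCb
  obtain ⟨Cq, ηq, hCq, hηq, hrule⟩ := mehler_rule (n + 1) 1 hθ'0
  set Ω : ℝ := max Cq 1 with hΩ
  have hΩ1 : 1 ≤ Ω := le_max_right _ _
  have hpA0 : 0 < pA K := pA_pos K
  have hpE0 : 0 < pE K := pE_pos K
  obtain ⟨η₁, hη₁, hsmall₁⟩ := exists_small (8 * Cem * Cb₀ * Ω * (Ω * CA) * (2 * B₀) * B₁)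
    (γ := pA K / 2) (by positivity)
  obtain ⟨η₂, hη₂, hsmall₂⟩ := exists_small 8 (γ := 2 * pE K) (by positivity)
  obtain ⟨η₃, hη₃, hsmall₃⟩ := exists_small 2 (γ := 1 - 2 * pE K) (by linarith [pE_le K])
  set CE : ℝ := |Cs| * (2 + 2 * (2 * B₀ ^ 4) * Cr + |Cp| * Cb₀ * (2 * Cr * Hc + 2)) with hCE
  set Cerr : ℝ := Cem * (B₁ * (B₁ * (2 * B₀)) ^ (n + 1) +
      (Cem * (B₁ + 2 * Ω * CA)) * (Cem * (B₁ + 2 * Ω * CA) * (2 * B₀)) ^ (n + 1) +
      (Ω * Cm + Cq * B₁) + B₁) + (∑ i, |FlowStep.colw n 1 i|) * (CE * 4) with hCerr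
  refine ⟨max (((n + 2 : ℕ) : ℝ) * (1 + |Cs| * (1 + |Cp| * (Cb₀ * ((Cq + 1) * CA) ^ Ab) ^ Ap))) Cerr,
    min (min (min ηh ηp) (min ηs ηq)) (min 1 (min η₁ (min η₂ η₃))), by positivity, ?_⟩
  intro d J v κ α _ η L b Nb sc 𝒱 f kap X q q₀ hd hη hηle hL hL4 hb hNb hsc hkap hX hPf hG hF hsm
    hbox
  simp only [le_min_iff] at hηle
  obtain ⟨⟨⟨hle_h, hle_p⟩, hle_s, hle_q⟩, hη1, hle₁, hle₂, hle₃⟩ := hηle
  -- scales and rooms
  set σ : ℝ := η ^ e with hσ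
  have hσ0 : 0 < σ := rpow_pos_of_pos hη _
  have hσ1 : σ ≤ 1 := rpow_le_one hη.le hη1 he
  set τ : ℝ := η ^ (2 * pE K) with hτ
  obtain ⟨hτ0, hτ8, hgap⟩ := gap_of_small hη (hsmall₂ η hη hle₂) (hsmall₃ η hη hle₃)
  have hfine : σ * √τ = η ^ (e + pE K) := by
    rw [hτ, sqrt_eq_rpow, ← rpow_mul hη.le, hσ, ← rpow_add hη]
    ring_nf
  obtain ⟨hρ0, hb'2, hbb⟩ := rooms (cw := FlowStep.colw n 1) hb hW
  set ρ : ℝ := b / (2 * √(1 + W)) with hρ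
  set b' : ℝ := √(b ^ 2 - ∑ i, (FlowStep.colw n 1 i * ρ) ^ 2) with hb'
  have hb'0 : 0 < b' := (half_pos hb).trans_le hb'2
  -- the body and its product
  have hGB : f.Good η L sc B₀ (B₀ * η ^ (-pA K)) (pW K n) :=
    Pt.good_mono hη.le hsc (le_max_left B 1)
      (mul_le_mul_of_nonneg_right (le_max_left B 1) (rpow_nonneg hη.le _)) f hG
  set M : ℝ := f.sm L sc + |f.aff 0| with hMdef
  have hsm0 : 0 ≤ f.sm L sc := f.sm_nonneg hL hsc
  have hM0 : 0 ≤ M := by positivity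
  have hMb : M * η ^ (-pW K n) ≤ B₀ * b :=
    hsm.trans (mul_le_mul_of_nonneg_right (le_max_left B 1) hb.le)
  have hβ : M / b' ≤ 2 * B₀ * η ^ pW K n := by
    have h1 : M ≤ B₀ * b * η ^ pW K n := by
      rwa [rpow_neg hη.le, ← div_eq_mul_inv, div_le_iff₀ (rpow_pos_of_pos hη _)] at hMb
    rw [div_le_iff₀ hb'0]
    exact h1.trans (by
      have := mul_le_mul_of_nonneg_left hb'2 (show 0 ≤ 2 * B₀ * η ^ pW K n by positivity)
      linarith)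
  set Lam : ℝ := |f.aff 0| + B₀ * f.sm L sc with hLamdef
  have hLam0 : 0 ≤ Lam := by positivity
  have hLam : Lam ≤ B₁ * M := by
    have h1 : |f.aff 0| ≤ B₁ * |f.aff 0| := le_mul_of_one_le_left (abs_nonneg _) hB₁1
    have h2 := mul_le_mul_of_nonneg_right hB₀₁ hsm0
    linarith
  obtain ⟨h, hh⟩ := hprod d (J + 1) v κ η L sc f.wk hd hη hle_h hL hL4 hsc
    (f.depth_wk.trans_le (hP η f hPf)) (f.good_wk hGB)
  have hM1 : f.wk.sm L sc + |f.wk.aff 0| = M := by rw [f.sm_wk, f.aff_wk]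
  -- the rule
  obtain ⟨hq2, hq1, -⟩ := sqrt_bounds hτ0 hτ8
  obtain ⟨N, ω, u, hN, hω, hu, hqr⟩ := hrule η √(1 - τ) hη hle_q hq2 hq1 hgap
  have hωΩ : ∑ j, |ω j| ≤ Ω := hω.trans (le_max_left _ _)
  obtain ⟨hu2, hPpt, hPns, hPct, hPfill, hPay, hPag, hPfine, hPfull⟩ :=
    par_bounds hσ0 hσ1 hτ0 hτ8 hb'0 (Ω := Ω) (by linarith) ω u hu
  have hPω : ∑ j, |(par σ τ b' Ω ω u).ω j| ≤ 1 := by
    simp only [par, abs_div, abs_of_nonneg (zero_le_one.trans hΩ1), ← Finset.sum_div]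
    exact div_le_one_of_le₀ hωΩ (zero_le_one.trans hΩ1)
  have hhsm : h.sm L sc + |f.aff 0| ≤ CA * η ^ (-(2 * pA K)) * M := by
    have := hh.sm
    rwa [hM1, f.aff_wk] at this
  have hA0 : 0 ≤ CA * η ^ (-(2 * pA K)) * M := by positivity
  obtain ⟨hx1, hx2, hx3⟩ := exponents K hn
  -- the smallness conditions
  obtain ⟨hgy, hgb, hg1, hb1, hRsm, hroom, hayA, hagL, hcontr⟩ :=
    level_nums (σ := σ) (b' := b') (M := M) (Lam := Lam) (Sm := Ω * (h.sm L sc + |f.aff 0|))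
      (A := CA * η ^ (-(2 * pA K)) * M) (CA := Ω * CA) (CL := 2 * B₀) (pW := pW K n) (a := pA K)
      (e₁ := pE K) (B₁ := B₁) (Cb := Cb₀) (Cem := Cem) (Ω := Ω) hη hη1 hσ0 hσ1 hb'0 hpA0
      (by linarith) (by linarith [pA_le K]) (pE_le_pA K)
      (one_le_mul_of_one_le_of_one_le hΩ1 hCA) (by linarith) hB₁1 hCb₀ hCem hΩ1 hβ hM0 hLam hLam0
      (by rw [mul_assoc Ω, mul_assoc Ω]; exact mul_le_mul_of_nonneg_left hhsm (by linarith))
      (by have := h.sm_nonneg hL hsc; positivity)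
      (by rw [mul_assoc Ω, mul_assoc Ω]; exact le_mul_of_one_le_left hA0 hΩ1) hA0 le_rfl
      (hsmall₁ η hη hle₁)
  have hpAneg : 1 ≤ η ^ (-pA K) := one_le_eta_rpow_neg hη hη1 hpA0.le
  have hagL' : |(par σ τ b' Ω ω u).ag| * Lam ≤ 1 := by rw [hPag]; exact hagL
  have hayA' : |(par σ τ b' Ω ω u).ay| * (CA * η ^ (-(2 * pA K)) * M) ≤ 1 :=
    (mul_le_mul_of_nonneg_right hPay hA0).trans hayA
  -- the increments
  have hH : Hyp η L sc B₁ (B₁ * η ^ (-pA K)) (pW K n) (pW K n - 4 * pA K)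
      (σ * η ^ (pW K n - 5 / 2 * pA K)) (η ^ (pW K n - pA K)) f.wk h (par σ τ b' Ω ω u) :=
    { hη := hη, hη1 := hη1, hL := hL, hsc := hsc, hB := hB₁1
      hR := one_le_mul_of_one_le_of_one_le hB₁1 hpAneg
      hf := Pt.good_mono hη.le hsc hB₀₁ (mul_le_mul_of_nonneg_right hB₀₁ (rpow_nonneg hη.le _)) _
        (f.good_wk hGB)
      hh := hh.good, hw := by linarith, haff := hh.aff
      hω := hPω.trans hB₁1, hpt := hPpt, hns := hPns, hfine := hPfine, hfull := hPfull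
      hay := by
        rw [f.aff_wk]
        refine (mul_le_mul_of_nonneg_right hPay (by have := h.sm_nonneg hL hsc; positivity)).trans ?_
        rw [mul_assoc]
        exact hgy
      hag := by rw [hM1, hPag]; exact hgb
      hg1 := hg1, hb1 := hb1, hsmall := hRsm }
  have hC : Ctx d K n Dh Av η L B₀ B₁ CA Cm Hc θ' σ τ b' Ω sc f h kap ω u :=
    { hη := hη, hη1 := hη1, hL := hL, hsc := hsc, hB₀ := hB₀1, hB₁ := hB₁1, hCA := hCA, hCm := hCm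
      hHc := hHc, hHf := hHf, hn := hn, hkap := hkap, hG := hGB, hF := hF, hh := hh, hσ := hσ0
      hσ1 := hσ1, hτ0 := hτ0, hτ8 := hτ8, hb' := hb'0, hΩ := hΩ1, hu := hu, hω := hωΩ
      hay := hayA', hag := hagL' }
  have hpW25 : 5 / 2 * pA K ≤ pW K n := by linarith
  have hout := fun i => hinc hH i
  have hwm : pW K (n - pD K) = pW K n - 4 * pA K := by linarith [pW_sub_pD K hn]
  -- the emitters of the increments
  set kap₂ : Fin (J + 1) → ℝ := Fin.snoc kap (σ / 2) with hkap₂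
  have hkap₂0 : ∀ j, 0 < kap₂ j := Fin.lastCases (by simp [kap₂, hσ0]) fun j => by
    simpa [kap₂] using hkap j
  have hfill₂ : f.wk.Fill kap₂ := f.fill_wk _ hF
  choose pI hpIc hpIe using fun j => emits_input (q j)
    (u := fun s : α × (Sp d × Sp d) => s.1) measurable_fst
  obtain ⟨p0, hp0c, hp0e⟩ := emits_input q₀ (u := fun s : α × (Sp d × Sp d) => s.1) measurable_fst
  set X₂ : α × (Sp d × Sp d) → Fin (v + 2) → Sp d :=
    fun s => Fin.cons s.2.1 (Fin.cons s.2.2 (X s.1)) with hX₂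
  have hX₂m : Measurable X₂ := measurable_cons₁ (measurable_fst.comp measurable_snd)
    (measurable_cons₁ (measurable_snd.comp measurable_snd) (hX.comp measurable_fst))
  set dy : Fin (n + 1) → Expr κ (J + 1) (v + 2) :=
    fun i => (inc f.wk.nrm h.nrm (par σ τ b' Ω ω u) n (n + 2) i).1 with hdy
  have hδ : ∀ i, (dy i).sm L sc ≤ Cb₀ * (σ * η ^ (pW K n - 5 / 2 * pA K)) := fun i => (hout i).bd.sm₁
  choose pD' hpDc hpDe using fun i => hpt d (J + 1) (v + 2) κ (α × (Sp d × Sp d)) η L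
    (η ^ (e + pE K) / 2) Nb sc 𝒱 (dy i) kap₂ X₂ (Fin.snoc pI p0) hd hη hle_p hL hL4
    (by have := rpow_pos_of_pos hη (e + pE K); positivity) hNb hsc hkap₂0 hX₂m
    ((hout i).depth₁.trans (Nat.mul_le_mul_left Ab (by
      have := hh.depth
      have := f.depth_wk.trans_le (hP η f hPf)
      omega)))
    (by
      rw [hwm]
      refine Pt.good_mono hη.le hsc (le_mul_of_one_le_right (by linarith) hB₁1) ?_ _
        (hout i).bd.good₁
      rw [mul_assoc])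
    ((hout i).fill kap₂ hfill₂ (hh.fill _ hfill₂) (fun j => by simpa [kap₂] using hPfill j)
      (by simp [kap₂, par]; field_simp; norm_num)).1
    (by
      rw [hwm]
      refine (mul_le_mul_of_nonneg_right (hδ i) (rpow_nonneg hη.le _)).trans (hroom.trans ?_)
      rw [hσ, ← rpow_add hη]
      exact le_mul_of_one_le_left (by positivity) (one_le_mul_of_one_le_of_one_le hCb₀ hB₁1))
    (fun k m hm => (hbox k m (hm.trans (Nat.sub_le _ _))).mono hη.le hL (hsc k) hCb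
      (le_max_right _ _) le_rfl le_rfl)
  choose pQ hpQc hpQe using fun i => emits_affine (pD' i) 1
    (f := fun s : α × (Sp d × Sp d) => s.2.1) (measurable_fst.comp measurable_snd)
  -- the emitters of the finer means
  choose R hRc hRe using fun i => hres d J v κ (α × (Sp d × Sp d)) η L ρ Nb sc 𝒱 f kap
    (fun s => X s.1) pI (pQ i) hd hη hle_s hL hL4 hρ0 hNb hsc hkap (hX.comp measurable_fst) hPf
    (Pt.good_mono hη.le hsc (le_mul_of_one_le_right (by linarith) (by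
        have := Real.one_le_sqrt.2 (le_add_of_nonneg_right (a := (1:ℝ))
          (hW ▸ Finset.sum_nonneg fun i _ => sq_nonneg _ : (0:ℝ) ≤ W))
        linarith))
      (mul_le_mul_of_nonneg_right (le_mul_of_one_le_right (by linarith) (by
        have := Real.one_le_sqrt.2 (le_add_of_nonneg_right (a := (1:ℝ))
          (hW ▸ Finset.sum_nonneg fun i _ => sq_nonneg _ : (0:ℝ) ≤ W))
        linarith)) (rpow_nonneg hη.le _)) f hGB) hF
    (hMb.trans_eq (by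
      have : 0 < 2 * √(1 + W) := by
        rcases lt_or_ge 0 (2 * √(1 + W)) with h | h
        · exact h
        · exfalso; rw [hρ] at hρ0; exact absurd hρ0 (not_lt.2 (div_nonpos_of_nonneg_of_nonpos hb.le h))
      have h1 : √(1 + W) ≠ 0 := fun h => by rw [h] at this; simp at this
      rw [hρ]; field_simp))
    (fun k m hm => (hbox k m hm).mono hη.le hL (hsc k) hCb (le_max_left _ _) le_rfl le_rfl)
  -- the step
  obtain ⟨p, hpc, hpe⟩ := hem (v := v) (N := N) (κ := κ) (J := J) q₀ R σ τ b' Lam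
    (CA * η ^ (-(2 * pA K)) * M) ω u (fun _ => ρ) hσ0 hτ0 (by linarith) hb'0 hLam0 hA0
    (fun j => ((sq_lt_one_iff_abs_lt_one _).1 (hu2 j)).le)
    (le_trans (by gcongr) hcontr)
  refine ⟨p, ?_, ?_⟩
  · -- cost
    have hS1 : (1 : ℝ) ≤ f.size := by exact_mod_cast f.one_le_size
    have hsum : ∑ j, ((pI j).cost : ℝ) ≤ ∑ j, ((q j).cost : ℝ) :=
      Finset.sum_le_sum fun j _ => by exact_mod_cast hpIc j
    have hsum0 : (0:ℝ) ≤ ∑ j, ((q j).cost : ℝ) := Finset.sum_nonneg fun j _ => Nat.cast_nonneg _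
    have hNb0 : (0:ℝ) ≤ Nb := Nat.cast_nonneg _
    have hq0 : (0:ℝ) ≤ q₀.cost := Nat.cast_nonneg _
    refine (cost_le (E := η ^ (-θ')) (S := f.size) (Ab := Ab) (Ap := Ap) (Av := Av) (Ar := Ar)
      (Q := (Nb : ℝ) + 1 + ∑ j, ((q j).cost : ℝ) + q₀.cost) (q₀ := q₀.cost)
      (qd := fun i => ((pQ i).cost : ℝ)) (cR := fun i => ((R i).cost : ℝ))
      (sz := fun i => ((dy i).size : ℝ)) (N := N) (hs := h.size) (Cs := |Cs|) (Cp := |Cp|)
      (Cb := Cb₀) (CA := CA) (Cq := Cq)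
      (one_le_eta_rpow_neg hη hη1 hθ'0.le) hS1 (by linarith) (by linarith) (abs_nonneg _)
      (abs_nonneg _) (by linarith) hCA hCq (Nat.cast_nonneg _) hN (Nat.cast_nonneg _)
      (by simpa [f.size_wk] using hh.size) (fun i => Nat.cast_nonneg _)
      (fun i => by simpa [f.size_wk] using (hout i).size₁) (fun i => ?_) (fun i => ?_)
      (by exact_mod_cast hpc)).trans ?_
    · refine (Nat.cast_le.2 (hpQc i)).trans ((hpDc i).trans ?_)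
      simp only [Fin.sum_univ_castSucc, Fin.snoc_castSucc, Fin.snoc_last]
      push_cast
      have h1 : (p0.cost : ℝ) ≤ q₀.cost := by exact_mod_cast hp0c
      gcongr ?_ * _ * _ * ?_
      · exact le_abs_self Cp
      · linarith
    · refine (hRc i).trans ?_
      push_cast
      gcongr ?_ * _ * _ * ?_
      · exact le_abs_self Cs
      · linarith
    · rw [rpow_pow_split hη _ (by omega)]
      push_cast
      gcongr
      exact le_max_left _ _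
  -- errors
  intro G hAdm c ec c₀ ec₀ hec hc hq hec₀ hc₀ hq₀
  have hGm := Adm.measurable hAdm
  set V : κ → Sp d → Sp d := fun k => 𝒱 k G with hVdef
  have hV : ∀ k, IsField L (V k) := fun k => (hbox k 0 (Nat.zero_le _)).1 G hAdm
  have hbox' := isBoxes_of_isField hL hV
  set c₂ : α → Fin (J + 1) → Sp d := fun a => Fin.snoc (c a) (c₀ a) with hc₂
  set ec₂ : Fin (J + 1) → α → ℝ := Fin.snoc ec ec₀ with hec₂
  have hc₂m : Measurable c₂ := measurable_pi_lambda _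
    (Fin.lastCases (by simpa [c₂] using hc₀) fun j => by simpa [c₂] using hc j)
  have hq₂ : ∀ j, Emits ((Fin.snoc pI p0 : Fin (J + 1) → Emitter d (α × (Sp d × Sp d))) j) G
      (fun s => c₂ s.1 j) (kap₂ j) fun s => ec₂ j s.1 :=
    Fin.lastCases (by simpa [c₂, ec₂, kap₂] using hp0e G c₀ _ ec₀ hq₀)
      fun j => by simpa [c₂, ec₂, kap₂] using hpIe j G (fun a => c a j) (kap j) (ec j) (hq j)
  have hec₂0 : ∀ j s, 0 ≤ ec₂ j s := Fin.lastCases (fun s => by simpa [ec₂] using hec₀ s)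
    fun j s => by simpa [ec₂] using hec j s
  have hnode := fun i => node_ctx (G := G) (V := V) (X := X) (c := c) (c₀ := c₀) (ec := ec)
    (ec₀ := ec₀) (e := e + pE K) (ρ := ρ) (Cb₀ := Cb₀) (Cp := Cp) (Cs := Cs) (pQ := pQ i) (R := R i)
    hC hCr hrounds hV hec hec₀ hfine i (by linarith) (by linarith [hpW25]) (hδ i)
    (by
      have h1 := hpQe i G _ _ _ (hpDe i G hAdm (fun s => c₂ s.1) (fun j s => ec₂ j s.1)
        (fun j s => hec₂0 j s.1) (fun j => ((measurable_pi_apply j).comp hc₂m).comp measurable_fst)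
        hq₂)
      simp only [one_smul, one_mul, Fin.sum_univ_castSucc, ec₂, kap₂, Fin.snoc_castSucc,
        Fin.snoc_last] at h1
      exact h1)
    (fun eD heD0 hD' => hRe i G hAdm (fun s => c s.1) (fun j s => ec j s.1)
      (fun s => s.2.1 + (dy i).eval V (c₂ s.1) (X₂ s)) eD (fun j s => hec j s.1)
      (fun j => (hc j).comp measurable_fst)
      (fun j => hpIe j G (fun a => c a j) (kap j) (ec j) (hq j)) heD0
      ((measurable_fst.comp measurable_snd).add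
        (measurable_eval₂ hL hV (dy i) (hc₂m.comp measurable_fst) hX₂m)) hD')
  choose ε hε1 hε2 using hnode
  have hCE0 : 0 ≤ CE := by positivity
  have hT0 : ∀ a, 0 ≤ η ^ ((n : ℝ) * pE K) * (√d + f.cen V (c a) (Fin.cons (c₀ a) (X a))) +
      ∑ j, ec j a / kap j + ec₀ a := fun a => add_nonneg (add_nonneg (mul_nonneg
    (rpow_nonneg hη.le _) (add_nonneg (Real.sqrt_nonneg _) (f.cen_nonneg V _ _)))
    (Finset.sum_nonneg fun j _ => div_nonneg (hec j a) (hkap j).le)) (hec₀ a)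
  have h1 := hpe G hGm η L B₀ (B₀ * η ^ (-pA K)) (pW K n) (Cm * η ^ (n + 1) * M * √d)
    (Cq * η ^ (n + 1)) sc V kap₂ f.wk.nrm h.nrm c₂ X ec₀ ε
    (fun _ a => CE * M * (η ^ ((n : ℝ) * pE K) * (√d + f.cen V (c a) (Fin.cons (c₀ a) (X a))) +
      ∑ j, ec j a / kap j + ec₀ a)) (fun _ _ => CE * M * η ^ ((n : ℝ) * pE K))
    hL hsc hB₀1 hV hkap₂0 (Expr.good_nrm _ (f.good_wk hGB)) (Expr.fill_nrm _ hfill₂)
    (by simp [Expr.aff_nrm, Expr.sm_nrm, f.sm_wk, f.aff_wk, Lam]) hc₂m hX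
    (mul_nonneg (mul_nonneg (mul_nonneg hCm (pow_nonneg hη.le _)) hM0) (Real.sqrt_nonneg _))
    (mul_nonneg hCq (pow_nonneg hη.le _))
    (fun a g g' y y' => by
      have := hh.lip V hV kap₂ hkap₂0 hfill₂ (c₂ a) (X a) g g' y y'
      rwa [hM1] at this)
    (fun a y => by have := hh.err V hV (c₂ a) (X a) y; rwa [hM1] at this)
    (hqr d) (by simpa [c₂] using hq₀) hε1
    (fun i a => ⟨mul_nonneg (mul_nonneg hCE0 hM0) (hT0 a),
      mul_nonneg (mul_nonneg hCE0 hM0) (rpow_nonneg hη.le _)⟩) hε2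
  rw [hbb] at h1
  have htarget : (fun a => smth 1 σ (bmap V (c₂ a) f.wk.nrm (X a)) (c₂ a (Fin.last J))) =
      fun a => ∫ z, f.eval V (c a) (Fin.cons (c₀ a + σ • z) (X a)) ∂gd d := by
    funext a
    simp only [c₂, Fin.snoc_last, smth, one_smul, bmap, f.wk.eval_nrm hbox', f.eval_wk]
  rw [htarget] at h1
  exact EmitBase.emits_mono h1 fun a => err_ctx hC hCem hCq hCE0 hB₀₁ hτ hβ (le_max_right _ _)
    (Real.sqrt_nonneg _) (f.cen_nonneg V _ _)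
    (Finset.sum_nonneg fun j _ => div_nonneg (hec j a) (hkap j).le) (hec₀ a)

end Vale.Agent.P347.Shift.Level
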