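import Vale.Agent.P347.Shift.Level.Scal

/-!
# P347: the arithmetic of the errors, the rooms and the cost of one level
-/

open Real

namespace Vale.Agent.P347.Shift.Level

/-- The error at a point: `Y`, `g` are the distances of the input, `cd`, `cf` the node centres of
the increment and of the body at the point, `gam` the size of the increment. -/
theorem eps_le {t tm gam σ sd Φ Y g S₁ e₀ cd cf eD Cd Cs Cr Hc Hf M : ℝ} (ht : 0 ≤ t)
    (htm : 0 ≤ tm) (hgam : 0 ≤ gam) (hsd : 0 ≤ sd) (hΦ : 0 ≤ Φ) (hY : 0 ≤ Y) (hg : 0 ≤ g)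
    (hS : 0 ≤ S₁) (he : 0 ≤ e₀) (hσ : 0 < σ) (hσ1 : σ ≤ 1) (hCd : 0 ≤ Cd) (hCs : 0 ≤ Cs)
    (hCr : 1 ≤ Cr) (hHc : 1 ≤ Hc) (hHf : 0 ≤ Hf) (hM : 0 ≤ M)
    {H : ℝ} (hH : 1 ≤ H) (hgain : gam * (tm * H) ≤ Hc * t) (hgam1 : gam ≤ 1)
    (hcd : cd ≤ Cr * H * (sd + g + Y + Φ)) (hcf : cf ≤ Φ + Hf * (Y + Cr * (sd + g + Y)))
    (heD : eD ≤ Cd * (σ * gam) * (tm * (sd + cd) + (S₁ + e₀ / (σ / 2)))) :
    Cs * M * (t * (sd + cf) + S₁ + eD) ≤
      Cs * (2 + 2 * Hf * Cr + Cd * (2 * Cr * Hc + 2)) * M *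
        ((t * (sd + Φ) + S₁ + e₀) + t * (Y + g)) := by
  set T := t * (sd + Φ) + S₁ + e₀ + t * (Y + g) with hT
  have hX : 0 ≤ sd + g + Y + Φ := by linarith
  have hT0 : 0 ≤ T := by positivity
  have htX : t * (sd + g + Y + Φ) ≤ T := by linarith
  have h1 : t * (sd + cf) ≤ (1 + 2 * Hf * Cr) * T := by
    have h2 : sd + cf ≤ (1 + 2 * Hf * Cr) * (sd + g + Y + Φ) := by
      have h3 : Y ≤ Cr * (sd + g + Y + Φ) :=
        le_trans (by linarith) (le_mul_of_one_le_left hX hCr)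
      have h4 : Cr * (sd + g + Y) ≤ Cr * (sd + g + Y + Φ) :=
        mul_le_mul_of_nonneg_left (by linarith) (by linarith)
      have h5 : Hf * (Y + Cr * (sd + g + Y)) ≤ Hf * (2 * (Cr * (sd + g + Y + Φ))) :=
        mul_le_mul_of_nonneg_left (by linarith) hHf
      linarith
    calc t * (sd + cf) ≤ t * ((1 + 2 * Hf * Cr) * (sd + g + Y + Φ)) :=
          mul_le_mul_of_nonneg_left h2 ht
      _ = (1 + 2 * Hf * Cr) * (t * (sd + g + Y + Φ)) := by ring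
      _ ≤ _ := mul_le_mul_of_nonneg_left htX (by positivity)
  have h2 : eD ≤ Cd * (2 * Cr * Hc + 2) * T := by
    refine heD.trans ?_
    rw [mul_assoc Cd, mul_assoc Cd]
    refine mul_le_mul_of_nonneg_left ?_ hCd
    have h3 : sd + cd ≤ 2 * Cr * H * (sd + g + Y + Φ) := by
      have : sd + g + Y + Φ ≤ Cr * H * (sd + g + Y + Φ) :=
        le_mul_of_one_le_left hX (one_le_mul_of_one_le_of_one_le hCr hH)
      linarith
    have h4 : σ * gam * (tm * (sd + cd)) ≤ 2 * Cr * Hc * T := by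
      calc σ * gam * (tm * (sd + cd)) ≤ σ * gam * (tm * (2 * Cr * H * (sd + g + Y + Φ))) :=
            mul_le_mul_of_nonneg_left (mul_le_mul_of_nonneg_left h3 htm) (by positivity)
        _ ≤ 1 * gam * (tm * (2 * Cr * H * (sd + g + Y + Φ))) := by gcongr
        _ = 2 * Cr * (gam * (tm * H)) * (sd + g + Y + Φ) := by ring
        _ ≤ 2 * Cr * (Hc * t) * (sd + g + Y + Φ) := by gcongr
        _ = 2 * Cr * Hc * (t * (sd + g + Y + Φ)) := by ring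
        _ ≤ _ := by gcongr
    have h5 : σ * gam * (S₁ + e₀ / (σ / 2)) ≤ 2 * T := by
      calc σ * gam * (S₁ + e₀ / (σ / 2)) = σ * gam * S₁ + gam * (2 * e₀) := by field_simp
        _ ≤ 1 * S₁ + 1 * (2 * e₀) := add_le_add
            (mul_le_mul_of_nonneg_right (mul_le_one₀ hσ1 hgam hgam1) hS)
            (mul_le_mul_of_nonneg_right hgam1 (by positivity))
        _ ≤ 2 * T := by
            have : 0 ≤ t * (sd + Φ) := by positivity
            have : 0 ≤ t * (Y + g) := by positivity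
            linarith
    rw [mul_add]
    linarith
  calc Cs * M * (t * (sd + cf) + S₁ + eD)
      ≤ Cs * M * ((1 + 2 * Hf * Cr) * T + T + Cd * (2 * Cr * Hc + 2) * T) := by
        refine mul_le_mul_of_nonneg_left ?_ (by positivity)
        have : S₁ ≤ T := by
          have : 0 ≤ t * (sd + Φ) := by positivity
          have : 0 ≤ t * (Y + g) := by positivity
          linarith
        linarith
    _ = _ := by ring

/-- The three terms of one flow step. -/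
theorem errs_le {η σ τ b' M Lam A Ω Cm Cq CA CL B₁ Cem pW a e₁ T : ℝ} {n : ℕ}
    (hη : 0 < η) (hη1 : η ≤ 1) (hσ : 0 < σ) (hσ1 : σ ≤ 1) (hτ : τ = η ^ (2 * e₁)) (hb : 0 < b')
    (ha : 0 < a) (he₁ : 0 < e₁) (hw : 1 / 20 ≤ pW - 2 * a - 2 * e₁)
    (hn : (n : ℝ) * e₁ + 2 * a + 2 * e₁ ≤ ((n : ℝ) + 1) / 20) (hne : (n : ℝ) * e₁ ≤ (n : ℝ) + 1)
    (hCem : 1 ≤ Cem) (hB₁ : 1 ≤ B₁) (hCA : 0 ≤ CA) (hCL : 0 ≤ CL) (hM : 0 ≤ M) (hMb : M / b' ≤ CL * η ^ pW)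
    (hLam0 : 0 ≤ Lam) (hLam : Lam ≤ B₁ * M) (hA0 : 0 ≤ A) (hA : A ≤ CA * η ^ (-(2 * a)) * M)
    (hΩ : 0 ≤ Ω) (hT : T ≤ Ω) (hT0 : 0 ≤ T) (hCm : 0 ≤ Cm) (hCq : 0 ≤ Cq) :
    b' * (Lam * σ / (b' * τ)) ^ (n + 2) ≤
        B₁ * (B₁ * CL) ^ (n + 1) * M * η ^ ((n : ℝ) * e₁) ∧
      b' * (Cem * (Lam * σ / b' + σ / b' * T * A * (1 + σ))) ^ (n + 2) ≤
        (Cem * (B₁ + 2 * Ω * CA)) * (Cem * (B₁ + 2 * Ω * CA) * CL) ^ (n + 1) * M *
          η ^ ((n : ℝ) * e₁) ∧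
      ∀ sd, 0 ≤ sd → b' * (σ / b' * (T * (Cm * η ^ (n + 1) * M * sd) + Cq * η ^ (n + 1) * Lam * sd))
        ≤ (Ω * Cm + Cq * B₁) * M * η ^ ((n : ℝ) * e₁) * sd := by
  have hMb' : 1 / b' * M ≤ CL * η ^ pW := by rwa [one_div_mul_eq_div]
  have hτ0 : 0 < τ := hτ ▸ rpow_pos_of_pos hη _
  have hl1 : 1 ≤ η ^ (-(2 * a)) := one_le_rpow_of_pos_of_le_one_of_nonpos hη hη1 (by linarith)
  refine ⟨?_, ?_, fun sd hsd => ?_⟩
  · set q := Lam * σ / (b' * τ) with hq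
    have hq1 : b' * q ≤ B₁ * M * η ^ (-(2 * e₁)) := by
      calc b' * q = Lam * σ * (1 / τ) := by rw [hq]; field_simp
        _ ≤ B₁ * M * 1 * η ^ (-(2 * e₁)) := by
            rw [hτ, rpow_neg hη.le, one_div]
            gcongr
        _ = _ := by ring
    have hq2 : q ≤ B₁ * CL * η ^ (pW - 2 * e₁) := by
      calc q = σ * (1 / b' * Lam) * (1 / τ) := by rw [hq]; field_simp
        _ ≤ 1 * (B₁ * (CL * η ^ pW)) * η ^ (-(2 * e₁)) := by
            have hL' : 1 / b' * Lam ≤ B₁ * (CL * η ^ pW) := by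
              calc 1 / b' * Lam ≤ 1 / b' * (B₁ * M) := mul_le_mul_of_nonneg_left hLam (by positivity)
                _ = B₁ * (1 / b' * M) := by ring
                _ ≤ _ := mul_le_mul_of_nonneg_left hMb' (by linarith)
            rw [hτ, rpow_neg hη.le, one_div (η ^ _)]
            exact mul_le_mul_of_nonneg_right
              (mul_le_mul hσ1 hL' (by positivity) zero_le_one) (by positivity)
        _ = _ := by rw [sub_eq_add_neg pW, rpow_add hη]; ring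
    have hq3 := pow_small (n := n) hη hη1 (by positivity) (show 0 ≤ q by positivity) hq2
      (a := (n : ℝ) * e₁ + 2 * e₁) (by push_cast; nlinarith)
    calc b' * q ^ (n + 2) = b' * q * q ^ (n + 1) := by ring
      _ ≤ B₁ * M * η ^ (-(2 * e₁)) * ((B₁ * CL) ^ (n + 1) * η ^ ((n : ℝ) * e₁ + 2 * e₁)) := by
          gcongr
      _ = B₁ * (B₁ * CL) ^ (n + 1) * M * (η ^ (-(2 * e₁)) * η ^ ((n : ℝ) * e₁ + 2 * e₁)) := by ring
      _ = _ := by rw [← rpow_add hη]; congr 2; ring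
  · set p := Cem * (Lam * σ / b' + σ / b' * T * A * (1 + σ)) with hp
    have hin : Lam * σ + σ * T * A * (1 + σ) ≤ (B₁ + 2 * Ω * CA) * η ^ (-(2 * a)) * M := by
      have h1 : Lam * σ ≤ B₁ * η ^ (-(2 * a)) * M := by
        calc Lam * σ ≤ B₁ * M * 1 := by gcongr
          _ = B₁ * 1 * M := by ring
          _ ≤ _ := by gcongr
      have h2 : σ * T * A * (1 + σ) ≤ 1 * Ω * (CA * η ^ (-(2 * a)) * M) * 2 := by
        gcongr; linarith
      linarith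
    have hp1 : b' * p ≤ Cem * (B₁ + 2 * Ω * CA) * η ^ (-(2 * a)) * M := by
      calc b' * p = Cem * (Lam * σ + σ * T * A * (1 + σ)) := by rw [hp]; field_simp
        _ ≤ Cem * ((B₁ + 2 * Ω * CA) * η ^ (-(2 * a)) * M) := by gcongr
        _ = _ := by ring
    have hp2 : p ≤ Cem * (B₁ + 2 * Ω * CA) * CL * η ^ (pW - 2 * a) := by
      calc p = 1 / b' * (b' * p) := by field_simp
        _ ≤ 1 / b' * (Cem * (B₁ + 2 * Ω * CA) * η ^ (-(2 * a)) * M) := by gcongr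
        _ = Cem * (B₁ + 2 * Ω * CA) * η ^ (-(2 * a)) * (1 / b' * M) := by ring
        _ ≤ Cem * (B₁ + 2 * Ω * CA) * η ^ (-(2 * a)) * (CL * η ^ pW) := by gcongr
        _ = _ := by rw [sub_eq_add_neg pW, rpow_add hη]; ring
    have hp3 := pow_small (n := n) hη hη1 (by positivity) (show 0 ≤ p by positivity) hp2
      (a := (n : ℝ) * e₁ + 2 * a) (by push_cast; nlinarith)
    calc b' * p ^ (n + 2) = b' * p * p ^ (n + 1) := by ring
      _ ≤ Cem * (B₁ + 2 * Ω * CA) * η ^ (-(2 * a)) * M *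
            ((Cem * (B₁ + 2 * Ω * CA) * CL) ^ (n + 1) * η ^ ((n : ℝ) * e₁ + 2 * a)) := by gcongr
      _ = Cem * (B₁ + 2 * Ω * CA) * (Cem * (B₁ + 2 * Ω * CA) * CL) ^ (n + 1) * M *
            (η ^ (-(2 * a)) * η ^ ((n : ℝ) * e₁ + 2 * a)) := by ring
      _ = _ := by rw [← rpow_add hη]; congr 2; ring
  · have h1 : η ^ (n + 1) ≤ η ^ ((n : ℝ) * e₁) := by
      rw [← rpow_natCast]
      exact rpow_le_rpow_of_exponent_ge hη hη1 (by push_cast; exact hne)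
    calc b' * (σ / b' * (T * (Cm * η ^ (n + 1) * M * sd) + Cq * η ^ (n + 1) * Lam * sd))
        = σ * ((T * Cm * M + Cq * Lam) * η ^ (n + 1) * sd) := by field_simp
      _ ≤ 1 * ((Ω * Cm * M + Cq * (B₁ * M)) * η ^ ((n : ℝ) * e₁) * sd) := by gcongr
      _ = _ := by ring

/-- The cost of one level. -/
theorem cost_le {E S Q q₀ cp Cs Cp Cb CA Cq : ℝ} {Ar Ap Ab Av r : ℕ} {qd cR sz : Fin (r + 1) → ℝ}
    {N hs : ℝ} (hE : 1 ≤ E) (hS : 1 ≤ S) (hQ : 1 ≤ Q) (hq₀ : q₀ ≤ Q) (hCs : 0 ≤ Cs) (hCp : 0 ≤ Cp)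
    (hCb : 0 ≤ Cb) (hCA : 1 ≤ CA) (hCq : 0 ≤ Cq) (hN0 : 0 ≤ N) (hN : N ≤ Cq * E) (hhs0 : 0 ≤ hs)
    (hhs : hs ≤ CA * E * S ^ Av) (hsz0 : ∀ i, 0 ≤ sz i)
    (hsz : ∀ i, sz i ≤ Cb * ((N + 1) * S * hs) ^ Ab)
    (hqd : ∀ i, qd i ≤ Cp * E * sz i ^ Ap * Q)
    (hR : ∀ i, cR i ≤ Cs * E * S ^ Ar * (Q + qd i)) (hcp : cp ≤ q₀ + ∑ i, cR i) :
    cp ≤ ((r + 2 : ℕ) : ℝ) * (1 + Cs * (1 + Cp * (Cb * ((Cq + 1) * CA) ^ Ab) ^ Ap)) *
      E ^ (2 * Ab * Ap + 2) * S ^ (Ar + (Av + 1) * Ab * Ap) * Q := by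
  have hE0 : 0 ≤ E := by linarith
  have hS0 : 0 ≤ S := by linarith
  set cc := (Cb * ((Cq + 1) * CA) ^ Ab) ^ Ap with hcc
  have hcc0 : 0 ≤ cc := by positivity
  set F := E ^ (2 * Ab * Ap + 2) * S ^ (Ar + (Av + 1) * Ab * Ap) * Q with hF
  have hEp : (1:ℝ) ≤ E ^ (2 * Ab * Ap + 1) := one_le_pow₀ hE
  have hSp : (1:ℝ) ≤ S ^ ((Av + 1) * Ab * Ap) := one_le_pow₀ hS
  have hi : ∀ i, cR i ≤ Cs * (1 + Cp * cc) * F := fun i => by
    have h1 : (N + 1) * S * hs ≤ (Cq + 1) * CA * (E ^ 2 * S ^ (Av + 1)) := by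
      calc (N + 1) * S * hs ≤ ((Cq + 1) * E) * S * (CA * E * S ^ Av) := by
            gcongr; linarith
        _ = _ := by ring
    have h2 : sz i ^ Ap ≤ cc * (E ^ (2 * Ab * Ap) * S ^ ((Av + 1) * Ab * Ap)) := by
      calc sz i ^ Ap ≤ (Cb * ((Cq + 1) * CA * (E ^ 2 * S ^ (Av + 1))) ^ Ab) ^ Ap := by
            refine pow_le_pow_left₀ (hsz0 i) ((hsz i).trans ?_) _
            gcongr
        _ = _ := by
            rw [hcc, mul_pow _ (E ^ 2 * _), ← mul_assoc Cb, mul_pow (Cb * _), mul_pow (E ^ 2),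
              mul_pow ((E ^ 2) ^ Ab), ← pow_mul, ← pow_mul, ← pow_mul, ← pow_mul]
            ring_nf
    have h3 : Q + qd i ≤ (1 + Cp * cc) * (E ^ (2 * Ab * Ap + 1) * S ^ ((Av + 1) * Ab * Ap) * Q) := by
      have h4 := (hqd i).trans (mul_le_mul_of_nonneg_right
        (mul_le_mul_of_nonneg_left h2 (by positivity)) (by linarith))
      have h5 : Q ≤ E ^ (2 * Ab * Ap + 1) * S ^ ((Av + 1) * Ab * Ap) * Q :=
        le_mul_of_one_le_left (by linarith) (one_le_mul_of_one_le_of_one_le hEp hSp)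
      rw [pow_succ] at h5 ⊢
      linarith
    calc cR i ≤ Cs * E * S ^ Ar * (Q + qd i) := hR i
      _ ≤ Cs * E * S ^ Ar *
          ((1 + Cp * cc) * (E ^ (2 * Ab * Ap + 1) * S ^ ((Av + 1) * Ab * Ap) * Q)) :=
          mul_le_mul_of_nonneg_left h3 (by positivity)
      _ = _ := by rw [hF]; ring
  have hQF : Q ≤ F := by
    rw [hF]
    exact le_mul_of_one_le_left (by linarith)
      (one_le_mul_of_one_le_of_one_le (one_le_pow₀ hE) (one_le_pow₀ hS))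
  have hsum := (Finset.sum_le_sum fun i (_ : i ∈ Finset.univ) => hi i).trans_eq (Finset.sum_const _)
  rw [Finset.card_univ, Fintype.card_fin, nsmul_eq_mul] at hsum
  push_cast at hsum ⊢
  have h6 : 0 ≤ Cs * (1 + Cp * cc) * F := by
    have : 0 ≤ F := by linarith
    positivity
  have h7 : 0 ≤ ((r:ℝ) + 1) * F := by
    have : 0 ≤ F := by linarith
    positivity
  rw [hF] at h6 h7 hQF hsum
  nlinarith

end Vale.Agent.P347.Shift.Level
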