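import Vale.Agent.P347.Shift.Level.Body
import Vale.Agent.P347.Shift.Level.Num
import Vale.Agent.P347.Shift.Level.Eval
import Vale.Agent.P347.Shift.Level.Surr
import Vale.Agent.P347.Shift.Pt

/-!
# P347: preparations for one level
-/

open MeasureTheory ProbabilityTheory Real
open scoped RealInnerProductSpace ENNReal

namespace Vale.Agent.P347.Shift.Level

open Quarter EmFlow

variable {κ : Type} {d J v N : ℕ}

/-- A constant times a positive power is small for small `η`. -/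
lemma exists_small (c : ℝ) {γ : ℝ} (hγ : 0 < γ) :
    ∃ η₀ : ℝ, 0 < η₀ ∧ ∀ η, 0 < η → η ≤ η₀ → c * η ^ γ ≤ 1 := by
  refine ⟨(1 / (|c| + 1)) ^ (1 / γ), rpow_pos_of_pos (by positivity) _, fun η hη hle => ?_⟩
  have h1 : η ^ γ ≤ 1 / (|c| + 1) := by
    have := rpow_le_rpow hη.le hle hγ.le
    rwa [← rpow_mul (by positivity), one_div_mul_cancel hγ.ne', rpow_one] at this
  calc c * η ^ γ ≤ |c| * (1 / (|c| + 1)) :=
        mul_le_mul (le_abs_self c) h1 (rpow_nonneg hη.le _) (abs_nonneg c)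
    _ ≤ 1 := by rw [mul_one_div, div_le_one (by positivity)]; linarith

/-- A constant times `η ^ x` is below `η ^ y`, when `x` leaves a margin `γ` that pays it. -/
lemma le_rpow_of_small {η c γ x y : ℝ} (hη : 0 < η) (hη1 : η ≤ 1) (hc : 0 ≤ c)
    (h : c * η ^ γ ≤ 1) (hxy : y + γ ≤ x) : c * η ^ x ≤ η ^ y := by
  calc c * η ^ x ≤ c * η ^ (y + γ) :=
        mul_le_mul_of_nonneg_left (rpow_le_rpow_of_exponent_ge hη hη1 hxy) hc
    _ = η ^ y * (c * η ^ γ) := by rw [rpow_add hη]; ring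
    _ ≤ η ^ y := mul_le_of_le_one_right (rpow_nonneg hη.le _) h

/-- Powers of a small ratio. -/
lemma pow_small {η c x a : ℝ} {n : ℕ} (hη : 0 < η) (hη1 : η ≤ 1) (hc : 0 ≤ c) {q : ℝ}
    (hq0 : 0 ≤ q) (hq : q ≤ c * η ^ x) (ha : a ≤ x * (n + 1 : ℕ)) :
    q ^ (n + 1) ≤ c ^ (n + 1) * η ^ a := by
  calc q ^ (n + 1) ≤ (c * η ^ x) ^ (n + 1) := pow_le_pow_left₀ hq0 hq _
    _ = c ^ (n + 1) * η ^ (x * (n + 1 : ℕ)) := by rw [mul_pow, rpow_mul_natCast hη.le]
    _ ≤ _ := mul_le_mul_of_nonneg_left (rpow_le_rpow_of_exponent_ge hη hη1 ha) (by positivity)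

variable {η L : ℝ} {V : κ → Sp d → Sp d}

/-- The body, widened by the centre of the level and put in normal form, is the body. -/
lemma bmap_wk_nrm (hL : 0 ≤ L) (hV : ∀ k, IsField L (V k)) (c : Fin J → Sp d) (c₀ : Sp d)
    (f : Expr κ J (v + 1)) (x : Fin v → Sp d) :
    bmap V (Fin.snoc c c₀) f.wk.nrm x = bmap V c f x := by
  funext y
  simp [bmap, Expr.eval_nrm (isBoxes_of_isField hL hV), Expr.eval_wk]

/-- The point at a node, as the evaluation of its increment. -/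
theorem iter_eq (c : Fin (J + 1) → Sp d) (f : Expr κ (J + 1) (v + 1))
    (h : Expr κ (J + 1) (v + 2)) (x : Fin v → Sp d) {σ τ b Ω : ℝ} (hΩ : Ω ≠ 0) (hσ : σ ≠ 0) (hτ : τ < 1)
    (w u : Fin N → ℝ) (hu : ∀ j, u j ^ 2 < 1) (r k : ℕ) (i : Fin (r + 1)) (y g : Sp d) :
    iter r k σ τ b (bmap V c f x) (c (Fin.last J)) (psurE V c h x σ b w u) i (y, g) =
      y + (inc f h (par σ τ b Ω w u) r k i).1.eval V c (Fin.cons y (Fin.cons g x)) := by
  have hs : σ * √(1 - τ) ≠ 0 := mul_ne_zero hσ (Real.sqrt_pos.2 (by linarith)).ne'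
  have e2 : bmap V c f x = fun y => f.eval V c (Fin.cons y x) := rfl
  have h1 := eval_inc V c f h x hΩ hσ hτ (b := b) w u hu r
    ((σ * √(1 - τ))⁻¹ • (y - c (Fin.last J))) g k i
  simp only [smul_inv_smul₀ hs, add_sub_cancel] at h1
  simp only [iter, e2, h1, fstB_jn, smul_add, smul_inv_smul₀ hs]
  abel

end Vale.Agent.P347.Shift.Level
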