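import Vale.Agent.P347.Shift.Level.StepArith
import Vale.Agent.P347.Shift.Level.Product
import Vale.Agent.P347.Shift.Level.Rounds
import Vale.Agent.P347.Shift.Level.Apply

/-!
# P347: the emissions at the points of one level
-/

open MeasureTheory ProbabilityTheory Real
open scoped RealInnerProductSpace ENNReal

namespace Vale.Agent.P347.Shift.Level

open Quarter EmFlow

variable {κ : Type} {d J v N : ℕ}

/-- The bounds of the increments at one level. -/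
theorem rounds_at {r k : ℕ} {Cr : ℝ}
    (hrounds : ∀ {d J v N : ℕ} {κ : Type} (V : κ → Sp d → Sp d) (c : Fin (J + 1) → Sp d)
      (f : Expr κ (J + 1) (v + 1)) (h : Expr κ (J + 1) (v + 2)) (P : Par N) (x : Fin v → Sp d)
      (A Lam H Φ Ω : ℝ), 0 ≤ A → 0 ≤ Lam → 1 ≤ H → 0 ≤ Φ → |P.ay| * Ω * A ≤ 1 → |P.ag| * Lam ≤ 1 →
      ∑ l, |P.ω l| ≤ Ω → (∀ l, |P.pt l| ≤ 2) → |P.fine| ≤ 1 → |P.full| ≤ 1 → P.full ≠ 0 →
      (∀ l, P.ns l * P.ct l = 1 - P.pt l) →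
      (∀ y y', ‖f.eval V c (Fin.cons y x) - f.eval V c (Fin.cons y' x)‖ ≤ Lam * ‖y - y'‖) →
      (∀ g y, ‖h.eval V c (Fin.cons g (Fin.cons y x))‖ ≤ A * (√d + ‖g‖)) →
      (∀ y, f.cen V c (Fin.cons y x) ≤ H * (Φ + ‖y - c (Fin.last J)‖)) →
      (∀ g y, h.cen V c (Fin.cons g (Fin.cons y x)) ≤
        H * (√d + ‖g‖ + Φ + ‖y - c (Fin.last J)‖)) →
      ∀ (i : Fin (r + 1)) (y g : Sp d),
        ‖(inc f h P r k i).1.eval V c (Fin.cons y (Fin.cons g x))‖ ≤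
          Cr * (√d + ‖g‖ + ‖y - c (Fin.last J)‖) ∧
        ‖(inc f h P r k i).2.eval V c (Fin.cons y (Fin.cons g x))‖ ≤
          Cr * (√d + ‖g‖ + ‖y - c (Fin.last J)‖) ∧
        (inc f h P r k i).1.cen V c (Fin.cons y (Fin.cons g x)) ≤
          Cr * H * (√d + ‖g‖ + ‖y - c (Fin.last J)‖ + Φ) ∧
        (inc f h P r k i).2.cen V c (Fin.cons y (Fin.cons g x)) ≤
          Cr * H * (√d + ‖g‖ + ‖y - c (Fin.last J)‖ + Φ))
    {K n Dh Av : ℕ} {η L B₀ B₁ CA Cm Hc θ : ℝ} {sc : κ → ℝ} {f : Expr κ J (v + 1)}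
    {h : Expr κ (J + 1) (v + 2)} (hp : Prod' d K n Dh Av η L B₁ CA Cm Hc θ sc f.wk h)
    (hη : 0 < η) (hη1 : η ≤ 1) (hL : 0 ≤ L) (hsc : ∀ k, 0 ≤ sc k) (hB₀ : 1 ≤ B₀)
    (hCA : 0 ≤ CA) (hHc : 1 ≤ Hc) (hHf : 2 * B₀ ^ 4 ≤ Hc) {kap : Fin J → ℝ} (hkap : ∀ j, 0 < kap j)
    {rk : ℝ} (hrk : 0 < rk) (hG : f.Good η L sc B₀ (B₀ * η ^ (-pA K)) (pW K n)) (hF : f.Fill kap)
    {V : κ → Sp d → Sp d} (hV : ∀ k, IsField L (V k)) {P : Par N}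
    (hay : |P.ay| * (CA * η ^ (-(2 * pA K)) * (f.sm L sc + |f.aff 0|)) ≤ 1)
    (hag : |P.ag| * (|f.aff 0| + B₀ * f.sm L sc) ≤ 1) (hω : ∑ l, |P.ω l| ≤ 1)
    (hpt : ∀ l, |P.pt l| ≤ 2) (hfine : |P.fine| ≤ 1) (hfull : |P.full| ≤ 1) (hne : P.full ≠ 0)
    (hct : ∀ l, P.ns l * P.ct l = 1 - P.pt l) (c : Fin J → Sp d) (c₀ : Sp d) (x : Fin v → Sp d)
    (i : Fin (r + 1)) (y g : Sp d) :
    ‖(inc f.wk.nrm h.nrm P r k i).1.eval V (Fin.snoc c c₀) (Fin.cons y (Fin.cons g x))‖ ≤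
        Cr * (√d + ‖g‖ + ‖y - c₀‖) ∧
      (inc f.wk.nrm h.nrm P r k i).1.cen V (Fin.snoc c c₀) (Fin.cons y (Fin.cons g x)) ≤
        Cr * (Hc * η ^ (-pA K)) * (√d + ‖g‖ + ‖y - c₀‖ + f.cen V c (Fin.cons c₀ x)) := by
  have hbox := isBoxes_of_isField hL hV
  have hkap2 : ∀ j, 0 < (Fin.snoc kap rk : Fin (J + 1) → ℝ) j :=
    Fin.lastCases (by simpa using hrk) fun j => by simpa using hkap j
  have hl1 : 1 ≤ η ^ (-pA K) := one_le_eta_rpow_neg hη hη1 (pA_pos K).le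
  have hH : 1 ≤ Hc * η ^ (-pA K) := one_le_mul_of_one_le_of_one_le hHc hl1
  have hHf' : 2 * B₀ ^ 4 ≤ Hc * η ^ (-pA K) :=
    hHf.trans (le_mul_of_one_le_right (by linarith) hl1)
  have hM0 : 0 ≤ f.sm L sc + |f.aff 0| := add_nonneg (f.sm_nonneg hL hsc) (abs_nonneg _)
  have hLam0 : 0 ≤ |f.aff 0| + B₀ * f.sm L sc :=
    add_nonneg (abs_nonneg _) (mul_nonneg (by linarith) (f.sm_nonneg hL hsc))
  have hΦ := f.cen_nonneg V c (Fin.cons c₀ x)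
  obtain ⟨h1, -, h3, -⟩ := hrounds V (Fin.snoc c c₀) f.wk.nrm h.nrm P x
    (CA * η ^ (-(2 * pA K)) * (f.sm L sc + |f.aff 0|)) (|f.aff 0| + B₀ * f.sm L sc)
    (Hc * η ^ (-pA K)) (f.cen V c (Fin.cons c₀ x)) 1
    (by positivity) hLam0 hH hΦ (by rw [mul_one]; exact hay) hag hω hpt hfine hfull hne hct
    (fun y y' => by
      simpa [Expr.eval_nrm hbox, Expr.eval_wk, bmap] using
        norm_bmap_sub_le hL hB₀ hV hkap hG hF c x y y')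
    (fun g y => by
      simpa [f.sm_wk, f.aff_wk] using
        hp.grow V hV _ hkap2 (f.fill_wk rk hF) (Fin.snoc c c₀) x g y)
    (fun y => by
      simp only [Expr.cen_nrm hbox, Expr.cen_wk, Fin.snoc_last]
      refine (cen_body_le hL hB₀ (rpow_le_one hη.le hη1 (pW_pos K n).le) hV hkap hG hF c x y c₀).trans
        ?_
      have := mul_le_mul_of_nonneg_right hHf' (norm_nonneg (y - c₀))
      have := le_mul_of_one_le_left hΦ hH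
      linarith)
    (fun g y => by
      simpa [Expr.cen_wk] using
        hp.cen V hV _ hkap2 (f.fill_wk rk hF) (Fin.snoc c c₀) x g y c₀) i y g
  simp only [Fin.snoc_last] at h1 h3
  exact ⟨h1, h3⟩

/-- **The emission at one point**: `qd` emits the point, `R` the mean of the finer scale there. -/
theorem point_emits {α : Type} [MeasurableSpace α] {η L B₀ Cd Cs Cr Hc gam σ τ b Ω t tm H M : ℝ}
    {sc : κ → ℝ} {kap : Fin J → ℝ} {f : Expr κ J (v + 1)} {h : Expr κ (J + 1) (v + 2)}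
    {R : Emitter d (α × (Sp d × Sp d))} {G : Sp d → Sp d} {V : κ → Sp d → Sp d} {ρ : ℝ}
    {X : α → Fin v → Sp d} {c : α → Fin J → Sp d} {c₀ : α → Sp d} {ec : Fin J → α → ℝ}
    {ec₀ : α → ℝ} {eD : α × (Sp d × Sp d) → ℝ} {w u : Fin N → ℝ} {r k : ℕ} (i : Fin (r + 1))
    {Rg wg : ℝ} (hw : η ^ wg ≤ 1)
    (hL : 0 ≤ L) (hB₀ : 1 ≤ B₀) (hV : ∀ k, IsField L (V k)) (hkap : ∀ j, 0 < kap j)
    (hG : f.Good η L sc B₀ Rg wg) (hF : f.Fill kap)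
    (hec : ∀ j a, 0 ≤ ec j a) (hec₀ : ∀ a, 0 ≤ ec₀ a) (hM : 0 ≤ M) (ht : 0 ≤ t) (htm : 0 ≤ tm)
    (hgam : 0 ≤ gam) (hσ : 0 < σ) (hσ1 : σ ≤ 1) (hτ : τ < 1) (hu : ∀ j, u j ^ 2 < 1) (hΩ : Ω ≠ 0)
    (hCd : 0 ≤ Cd) (hCs : 0 ≤ Cs) (hCr : 1 ≤ Cr) (hHc : 1 ≤ Hc) (hH : 1 ≤ H)
    (hgain : gam * (tm * H) ≤ Hc * t) (hgam1 : gam ≤ 1)
    (hround : ∀ a y g,
      ‖(inc f.wk.nrm h.nrm (par σ τ b Ω w u) r k i).1.eval V (Fin.snoc (c a) (c₀ a))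
          (Fin.cons y (Fin.cons g (X a)))‖ ≤ Cr * (√d + ‖g‖ + ‖y - c₀ a‖) ∧
        (inc f.wk.nrm h.nrm (par σ τ b Ω w u) r k i).1.cen V (Fin.snoc (c a) (c₀ a))
            (Fin.cons y (Fin.cons g (X a))) ≤
          Cr * H * (√d + ‖g‖ + ‖y - c₀ a‖ + f.cen V (c a) (Fin.cons (c₀ a) (X a))))
    (heD0 : ∀ s, 0 ≤ eD s)
    (heD : ∀ a y g, eD (a, (y, g)) ≤ Cd * (σ * gam) *
      (tm * (√d + (inc f.wk.nrm h.nrm (par σ τ b Ω w u) r k i).1.cen V (Fin.snoc (c a) (c₀ a))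
          (Fin.cons y (Fin.cons g (X a)))) + (∑ j, ec j a / kap j + ec₀ a / (σ / 2))))
    (hR : Emits R G (fun s => ∫ z, f.eval V (c s.1)
        (Fin.cons ((s.2.1 + (inc f.wk.nrm h.nrm (par σ τ b Ω w u) r k i).1.eval V
          (Fin.snoc (c s.1) (c₀ s.1)) (Fin.cons s.2.1 (Fin.cons s.2.2 (X s.1)))) +
            (σ * √τ) • z) (X s.1)) ∂gd d) ρ fun s => Cs * M *
        (t * (√d + f.cen V (c s.1) (Fin.cons (s.2.1 +
          (inc f.wk.nrm h.nrm (par σ τ b Ω w u) r k i).1.eval V (Fin.snoc (c s.1) (c₀ s.1))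
            (Fin.cons s.2.1 (Fin.cons s.2.2 (X s.1)))) (X s.1))) +
          ∑ j, ec j s.1 / kap j + eD s)) :
    ∃ ε : α × (Sp d × Sp d) → ℝ,
      Emits R G (fun s => fb σ τ (bmap V (Fin.snoc (c s.1) (c₀ s.1)) f.wk.nrm (X s.1))
        (iter r k σ τ b (bmap V (Fin.snoc (c s.1) (c₀ s.1)) f.wk.nrm (X s.1))
          ((Fin.snoc (c s.1) (c₀ s.1) : Fin (J + 1) → Sp d) (Fin.last J))
          (psurE V (Fin.snoc (c s.1) (c₀ s.1)) h.nrm (X s.1) σ b w u) i s.2)) ρ ε ∧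
      ∀ a y g, |ε (a, (y, g))| ≤
        Cs * (2 + 2 * (2 * B₀ ^ 4) * Cr + Cd * (2 * Cr * Hc + 2)) * M *
            (t * (√d + f.cen V (c a) (Fin.cons (c₀ a) (X a))) + ∑ j, ec j a / kap j + ec₀ a) +
          Cs * (2 + 2 * (2 * B₀ ^ 4) * Cr + Cd * (2 * Cr * Hc + 2)) * M * t *
            (‖y - (Fin.snoc (c a) (c₀ a) : Fin (J + 1) → Sp d) (Fin.last J)‖ + ‖g‖) := by
  have e : (fun s : α × (Sp d × Sp d) =>
      fb σ τ (bmap V (Fin.snoc (c s.1) (c₀ s.1)) f.wk.nrm (X s.1))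
        (iter r k σ τ b (bmap V (Fin.snoc (c s.1) (c₀ s.1)) f.wk.nrm (X s.1))
          ((Fin.snoc (c s.1) (c₀ s.1) : Fin (J + 1) → Sp d) (Fin.last J))
          (psurE V (Fin.snoc (c s.1) (c₀ s.1)) h.nrm (X s.1) σ b w u) i s.2)) =
      fun s => ∫ z, f.eval V (c s.1)
        (Fin.cons ((s.2.1 + (inc f.wk.nrm h.nrm (par σ τ b Ω w u) r k i).1.eval V
          (Fin.snoc (c s.1) (c₀ s.1)) (Fin.cons s.2.1 (Fin.cons s.2.2 (X s.1)))) +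
            (σ * √τ) • z) (X s.1)) ∂gd d := by
    funext ⟨a, y, g⟩
    rw [iter_eq _ _ _ _ hΩ hσ.ne' hτ w u hu, fb, smth, bmap_wk_nrm hL hV]
    simp [bmap]
  refine ⟨_, by rw [e]; exact hR, fun a y g => ?_⟩
  simp only [Fin.snoc_last]
  have hS : 0 ≤ ∑ j, ec j a / kap j :=
    Finset.sum_nonneg fun j _ => div_nonneg (hec j a) (hkap j).le
  obtain ⟨h1, h2⟩ := hround a y g
  set p := y + (inc f.wk.nrm h.nrm (par σ τ b Ω w u) r k i).1.eval V (Fin.snoc (c a) (c₀ a))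
    (Fin.cons y (Fin.cons g (X a))) with hp
  have hΦ := f.cen_nonneg V (c a) (Fin.cons (c₀ a) (X a))
  have hcp := f.cen_nonneg V (c a) (Fin.cons p (X a))
  have hcd := (inc f.wk.nrm h.nrm (par σ τ b Ω w u) r k i).1.cen_nonneg V (Fin.snoc (c a) (c₀ a))
    (Fin.cons y (Fin.cons g (X a)))
  have hcf : f.cen V (c a) (Fin.cons p (X a)) ≤ f.cen V (c a) (Fin.cons (c₀ a) (X a)) +
      2 * B₀ ^ 4 * (‖y - c₀ a‖ + Cr * (√d + ‖g‖ + ‖y - c₀ a‖)) := by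
    refine (cen_body_le hL hB₀ hw hV hkap hG hF (c a) (X a) p (c₀ a)).trans
      (add_le_add le_rfl (mul_le_mul_of_nonneg_left ?_ (by positivity)))
    rw [hp, add_sub_right_comm]
    exact (norm_add_le _ _).trans (add_le_add le_rfl h1)
  rw [abs_of_nonneg (mul_nonneg (mul_nonneg hCs hM) (by
    have := heD0 (a, (y, g))
    positivity))]
  refine (eps_le ht htm hgam (Real.sqrt_nonneg _) hΦ (norm_nonneg _) (norm_nonneg g) hS (hec₀ a)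
    hσ hσ1 hCd hCs hCr hHc (by positivity) hM hH hgain hgam1 h2 hcf (heD a y g)).trans_eq ?_
  ring

end Vale.Agent.P347.Shift.Level
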